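import Vale.Agent.P361.LRO.Ind.Defs

/-!
# P361 LRO, stage 3 (Bloch's law), network chapter on cells (helper118, helper938)

Scaled fields: the physical field is `h / β` with `h ∈ Fam n h0 lam` (so `h ≤ 1`), hence the slice
parameters are `β (h/β) / (2N) = h / (2N)`.  Cells: cubes of side `3 ^ e ∼ √β`, so `27 ^ e ∼ β^{3/2}`.
Time: whole circle, `N = 4 W` (four quarters of `W` slices).
-/

namespace Vale.Agent.P361.LRO.Ind3

open Finset Vale.Agent.P361.LRO _root_.P361.LRO Vale.Agent.P361.LRO.Ind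

noncomputable section

/-- Local information on the network `c` in the scaled field `h` (long-window LOC). -/
structure Local3 (n N W : ℕ) [NeZero n] (e : ℕ) (K c1 : ℝ) (b : Finset (Tor n)) (h : Tor n → ℝ)
    (c : Nd n N → Nd n N → ℝ) : Prop where
  symm : ∀ u v, c u v = c v u
  nonneg : ∀ u v, 0 ≤ c u v
  tot : ∀ (k : Fin (N + 1)) (x : Tor n), k ≠ 0 → ∑ v, c (k, x) v ≤ h x / (2 * N)
  long : ∀ (k l : Fin (N + 1)) (p x y : Tor n), k ≠ 0 → (k : ℕ) + W ≤ l →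
    x ∈ cube n p (2 * 3 ^ e) → y ∈ cube n p (2 * 3 ^ e) → h x = 1 → h y = 1 →
    c1 / ((N : ℝ) ^ 2 * 27 ^ e) ≤ c (k, x) (l, y)
  contact : ∀ (k : Fin (N + 1)) (p x y : Tor n), W ≤ (k : ℕ) →
    x ∈ b → x ∈ cube n p (2 * 3 ^ e) → y ∈ cube n p (2 * 3 ^ e) → h y = 1 →
    c1 * (K / b.card) / ((N : ℝ) * 27 ^ e) ≤ c (0, x) (k, y)

/-- Average of `a` over the cell `(x, y, z)` (corner `o + 3^e (x,y,z)`, side `3 ^ e`) and all
layers `1, …, N`. -/
def UC (n N e : ℕ) (o : Tor n) (a : Nd n N → ℝ) (x y z : ℕ) : ℝ :=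
  (1 / ((N : ℝ) * 27 ^ e)) * ∑ i ∈ range (3 ^ e), ∑ j ∈ range (3 ^ e), ∑ k ∈ range (3 ^ e),
    ∑ t ∈ range N, a (lay N N 0 t, pt n o (3 ^ e * x + i) (3 ^ e * y + j) (3 ^ e * z + k))

/-- `UC` as a function of four variables (one time window), for `E4 S 1`, `cnt S 1`, `chain3`,
`start3`, `lines` of stage 1 with `T = 1`. -/
def UT (n N e : ℕ) (o : Tor n) (a : Nd n N → ℝ) (x y z _w : ℕ) : ℝ := UC n N e o a x y z

/-- Sum of the squared deviations from the cell averages over `[0, S)³` cells. -/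
def DevC (n N e : ℕ) (o : Tor n) (a : Nd n N → ℝ) (S : ℕ) : ℝ :=
  ∑ x ∈ range S, ∑ y ∈ range S, ∑ z ∈ range S,
    ∑ i ∈ range (3 ^ e), ∑ j ∈ range (3 ^ e), ∑ k ∈ range (3 ^ e), ∑ t ∈ range N,
      (a (lay N N 0 t, pt n o (3 ^ e * x + i) (3 ^ e * y + j) (3 ^ e * z + k)) -
        UC n N e o a x y z) ^ 2

end

end Vale.Agent.P361.LRO.Ind3
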