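import Vale.Agent.P361.LRO.Ind.LocalInst
import Vale.Agent.P361.LRO.Ind3.Defs
import Vale.Agent.P361.LRO.Bloch.LongCC
import Vale.Agent.P361.LRO.Bloch.Kernel4
import Vale.Agent.P361.LRO.Loc.Done

/-!
P361 LRO, stage 3: the physical network in the field `g / β` satisfies `Ind3.Local3`
(long windows: `Bloch/LongCC` + `Bloch/Kernel4` + the defect bound `DeltaStmt`).
-/

namespace Vale.Agent.P361.LRO.Ind3

open Finset Matrix Vale.Agent.P361.LRO _root_.P361.LRO Vale.Agent.P361.LRO.Ind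
  Vale.Agent.P361.LRO.Bloch

noncomputable section

/-- The defect bound (output of `Bloch/Delta.lean`). -/
def DeltaStmt : Prop :=
  ∃ C : ℝ, 0 < C ∧ ∀ (V : Type) [Fintype V] [DecidableEq V] (L : List (V × V)) (β K η : ℝ)
    (b : Finset V), 0 < β → 0 < K → K ≤ b.card → b.Nonempty → 0 < η →
    ∃ N0 : ℕ, ∀ N : ℕ, N0 ≤ N → ∀ h : V → ℝ, (∀ x, 0 ≤ h x ∧ h x ≤ 1) →
    (∀ x, rho L β h x ≤ η) → ∀ k m : ℕ, k + m + 1 ≤ N → ∀ (x y : V) (w1 w2 : List (Lt V))
      (a c : V) (p : ℝ), mword L β N (th β N h (blk K b)) k m = w1 ++ Lt.gate a c p :: w2 →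
      trace (lctx L β N (th β N h (blk K b)) (k + m + 1) x * wd w1 * exM a c * wd w2 *
          rctx L β N (th β N h (blk K b)) k y) ≤
        C * η * Real.exp (C * (K * η)) * trace (lctx L β N (th β N h (blk K b)) (k + m + 1) x *
          wd (mword L β N (th β N h (blk K b)) k m) * rctx L β N (th β N h (blk K b)) k y) ∧
      trace (lctx L β N (th β N h (blk K b)) (k + m + 1) x * wd w1 * neM a c * wd w2 *
          rctx L β N (th β N h (blk K b)) k y) ≤
        C * η * Real.exp (C * (K * η)) * trace (lctx L β N (th β N h (blk K b)) (k + m + 1) x *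
          wd (mword L β N (th β N h (blk K b)) k m) * rctx L β N (th β N h (blk K b)) k y)

theorem tch_edges (n : ℕ) [NeZero n] (x : Tor n) : (tch (edges n) x : ℝ) ≤ 6 := by
  have h := deg_edges n x
  have h2 : tch (edges n) x ≤ 6 := by
    unfold tch
    rw [List.countP_eq_length_filter]
    refine le_trans (le_of_eq ?_) h
    congr 1
    refine List.filter_congr fun e _ => ?_
    simp only [decide_eq_decide]
    constructor
    · rintro (h | h)
      · exact Or.inl h.symm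
      · exact Or.inr h.symm
    · rintro (h | h)
      · exact Or.inl h.symm
      · exact Or.inr h.symm
  exact_mod_cast h2

theorem glr_eq {V : Type} [Fintype V] [DecidableEq V] (L : List (V × V)) (p : ℝ) (m : ℕ) :
    glr L p m = (List.replicate (m + 1) L.reverse).flatten.map fun e => Lt.gate e.1 e.2 p := by
  induction m with
  | zero => simp [glr, gl]
  | succ m ih =>
    rw [glr, ih, List.replicate_succ (n := m + 1), List.flatten_cons, List.map_append]
    rfl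

/-- The loss factor of `m ≤ N` layers with slice parameters `≤ 1 / (2N)`. -/
theorem loss_ge {N m : ℕ} (hN : 1 ≤ N) (hm : m ≤ N) :
    Real.exp (-2) ≤ ((1 - 1 / (2 * (N : ℝ))) / (1 + 1 / (2 * (N : ℝ)))) ^ m := by
  have hNr : (1:ℝ) ≤ N := by exact_mod_cast hN
  have hNp : (0:ℝ) < N := by linarith
  set u : ℝ := 1 / (2 * (N : ℝ)) with hu
  have hu0 : 0 < u := by positivity
  have hu1 : u ≤ 1 / 2 := by
    rw [hu, div_le_div_iff₀ (by positivity) (by norm_num)]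
    linarith
  have h1 : 0 < (1 - u) / (1 + u) := div_pos (by linarith) (by linarith)
  have h2 : (1 - u) / (1 + u) ≤ 1 := by
    rw [div_le_one (by linarith)]; linarith
  have h3 : ((1 - u) / (1 + u)) ^ N ≤ ((1 - u) / (1 + u)) ^ m :=
    pow_le_pow_of_le_one h1.le h2 hm
  refine le_trans ?_ h3
  have h4 : Real.exp (-(4 * u)) ≤ (1 - u) / (1 + u) := by
    rw [Real.exp_neg, ← one_div, div_le_div_iff₀ (Real.exp_pos _) (by linarith), one_mul]
    have h5 : 1 + 4 * u + (4 * u) ^ 2 / 2 ≤ Real.exp (4 * u) :=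
      Real.quadratic_le_exp_of_nonneg (by positivity)
    have h6 : (1 - u) * (1 + 4 * u + (4 * u) ^ 2 / 2) ≤ (1 - u) * Real.exp (4 * u) :=
      mul_le_mul_of_nonneg_left h5 (by linarith)
    refine le_trans ?_ h6
    nlinarith [mul_nonneg hu0.le hu0.le, mul_nonneg (mul_nonneg hu0.le hu0.le) hu0.le]
  calc Real.exp (-2) = (Real.exp (-(4 * u))) ^ N := by
        rw [← Real.exp_nat_mul]
        congr 1
        rw [hu]
        field_simp
        norm_num
    _ ≤ _ := pow_le_pow_left₀ (Real.exp_pos _).le h4 N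

/-- difference of two points of a cube -/
theorem cube_diff {n : ℕ} [NeZero n] {p x y : Tor n} {w : ℕ} (hx : x ∈ cube n p w)
    (hy : y ∈ cube n p w) : ∃ z : Fin 3 → ℤ, (∀ i, |(z i : ℝ)| ≤ w) ∧
      y = x + fun i => (z i : ZMod n) := by
  unfold cube at hx hy
  rw [Finset.mem_image] at hx hy
  obtain ⟨i, _, hi⟩ := hx
  obtain ⟨j, _, hj⟩ := hy
  refine ⟨fun a => ((j a : ℕ) : ℤ) - ((i a : ℕ) : ℤ), fun a => ?_, ?_⟩
  · have h1 : ((i a : ℕ) : ℝ) < w := by exact_mod_cast (i a).2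
    have h2 : ((j a : ℕ) : ℝ) < w := by exact_mod_cast (j a).2
    have h3 : (0:ℝ) ≤ ((i a : ℕ) : ℝ) := Nat.cast_nonneg _
    have h4 : (0:ℝ) ≤ ((j a : ℕ) : ℝ) := Nat.cast_nonneg _
    push_cast
    rw [abs_le]
    constructor <;> linarith
  · rw [← hi, ← hj]
    funext a
    simp only [Pi.add_apply]
    push_cast
    ring

/-- The weight of the walk through a window of length at least a quarter of the circle. -/
theorem walk_ge {n : ℕ} [NeZero n] (hn : 2 ≤ n) {β : ℝ} (hβ : 8 ≤ β) :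
    ∃ N0 : ℕ, 1 ≤ N0 ∧ ∀ N W : ℕ, N0 ≤ N → N = 4 * W → ∀ θ : Fin (N + 1) × Tor n → ℝ,
      (∀ z, 0 ≤ θ z ∧ θ z ≤ 1) → (∀ z, z.1 ≠ 0 → θ z ≤ 1 / (2 * N)) →
      ∀ k m e : ℕ, k + m + 1 ≤ N → W ≤ m + 1 → (3:ℝ) ^ e ≤ 3 * √β → √β ≤ 3 * 3 ^ e →
      ∀ J : ℕ, Ker.cJ 18 * (β / 2) ≤ J → 0 ≤ Ker.cJ 18 →
      ∀ p x y : Tor n, x ∈ cube n p (2 * 3 ^ e) → y ∈ cube n p (2 * 3 ^ e) →
      Real.exp (-2) * (Ker.cK 18 ^ 3 / (54 * 27 ^ e)) ≤
        ∑ j ∈ range J, qq (mword (edges n) β N θ k m) (q0 x) y j := by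
  have hβ0 : 0 < β := by linarith
  obtain ⟨N0, hN0⟩ := Ker.gates_lower (A := 18) (by norm_num) hn hβ0
  refine ⟨max N0 (max 1 ⌈β⌉₊), le_max_of_le_right (le_max_left _ _), ?_⟩
  intro N W hN hNW θ hθ hθ2 k m e hk hWm he1 he2 J hJ hJ0 p x y hx hy
  have hN1 : 1 ≤ N := (le_max_left _ _).trans ((le_max_right _ _).trans hN)
  have hNβ : β ≤ N := by
    have : ⌈β⌉₊ ≤ N := (le_max_right _ _).trans ((le_max_right _ _).trans hN)
    exact (Nat.le_ceil β).trans (by exact_mod_cast this)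
  have hNp : (0:ℝ) < N := by linarith
  obtain ⟨z, hz, hyz⟩ := cube_diff hx hy
  have hp0 : 0 ≤ β / (2 * N) := by positivity
  have hp1 : β / (2 * N) ≤ 1 := by
    rw [div_le_one (by positivity)]; linarith
  set s : ℝ := ((m + 1 : ℕ) : ℝ) * (β / (2 * N)) with hs
  have hm1 : ((m + 1 : ℕ) : ℝ) ≤ N := by exact_mod_cast (by omega : m + 1 ≤ N)
  have hm2 : (N : ℝ) / 4 ≤ ((m + 1 : ℕ) : ℝ) := by
    have h1 : (N : ℝ) = 4 * W := by rw [hNW]; push_cast; ring
    have h2 : (W : ℝ) ≤ ((m + 1 : ℕ) : ℝ) := by exact_mod_cast hWm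
    linarith
  have hs1 : s ≤ β / 2 := by
    calc s ≤ N * (β / (2 * N)) := mul_le_mul_of_nonneg_right hm1 hp0
      _ = β / 2 := by field_simp
  have hs2 : β / 8 ≤ s := by
    calc β / 8 = N / 4 * (β / (2 * N)) := by field_simp; norm_num
      _ ≤ s := mul_le_mul_of_nonneg_right hm2 hp0
  have hs3 : 1 ≤ s := by linarith
  have hsp : 0 < s := by linarith
  have hsq : 0 < √s := Real.sqrt_pos.2 hsp
  have h3e : (0:ℝ) < 3 ^ e := by positivity
  have hβs : √β ≤ 3 * √s := by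
    have h1 : √β ≤ √(9 * s) := Real.sqrt_le_sqrt (by linarith)
    rw [Real.sqrt_mul (by norm_num), show (9:ℝ) = 3 ^ 2 by norm_num,
      Real.sqrt_sq (by norm_num)] at h1
    exact h1
  have hker := hN0 N ((le_max_left _ _).trans hN) (edges n).reverse (List.reverse_perm _)
    (m + 1) (by omega) s rfl hs3 J ((mul_le_mul_of_nonneg_left hs1 hJ0).trans hJ) x z
    (fun i => by
      refine (hz i).trans ?_
      push_cast
      linarith)
  rw [← hyz, ← glr_eq] at hker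
  have hq0 : ∀ (v : Tor n) (j : ℕ), 0 ≤ q0 x v j := fun v j => by
    unfold q0; split_ifs <;> norm_num
  have hτ1 : 1 / (2 * (N:ℝ)) ≤ 1 := by
    rw [div_le_one (by positivity)]
    have : (1:ℝ) ≤ N := by exact_mod_cast hN1
    linarith
  have hnode := fun j => qq_mid_ge (edges n) hp0 hp1
    (t := fun j z => θ (Fin.ofNat (N + 1) (k + j), z)) (fun _ _ => hθ _)
    (τ := 1 / (2 * N)) hτ1 m (fun j z h1 h2 => hθ2 _ (by
      intro h
      have h3 : (Fin.ofNat (N + 1) (k + j)) = Fin.ofNat (N + 1) 0 := h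
      have := ofNat_inj (by omega) (by omega) h3
      omega)) hq0 y j
  have hloss := loss_ge (N := N) (m := m) hN1 (by omega)
  have hcK : 0 < Ker.cK 18 := Ker.cK_pos 18
  have h27 : (27:ℝ) ^ e = (3 ^ e) ^ 3 := by
    rw [← pow_mul, mul_comm, pow_mul]; norm_num
  have hlow : Ker.cK 18 ^ 3 / (54 * 27 ^ e) ≤ (Ker.cK 18 / √s) ^ 3 / 2 := by
    have h1 : √s ≤ 3 * 3 ^ e := by
      refine le_trans (Real.sqrt_le_sqrt ?_) he2
      linarith
    have h2 : Ker.cK 18 / (3 * 3 ^ e) ≤ Ker.cK 18 / √s :=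
      div_le_div_of_nonneg_left hcK.le hsq h1
    have h3 := pow_le_pow_left₀ (by positivity) h2 3
    calc Ker.cK 18 ^ 3 / (54 * 27 ^ e) = (Ker.cK 18 / (3 * 3 ^ e)) ^ 3 / 2 := by
          rw [h27, div_pow, mul_pow]; field_simp; norm_num
      _ ≤ _ := by linarith
  have hmword : ∀ j, ((1 - 1 / (2 * (N:ℝ))) / (1 + 1 / (2 * (N:ℝ)))) ^ m *
      qq (glr (edges n) (β / (2 * N)) m) (q0 x) y j ≤
      qq (mword (edges n) β N θ k m) (q0 x) y j := hnode
  calc Real.exp (-2) * (Ker.cK 18 ^ 3 / (54 * 27 ^ e))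
      ≤ ((1 - 1 / (2 * (N:ℝ))) / (1 + 1 / (2 * (N:ℝ)))) ^ m *
        ∑ j ∈ range J, qq (glr (edges n) (β / (2 * N)) m) (q0 x) y j :=
        mul_le_mul hloss (hlow.trans hker) (by positivity) ((Real.exp_pos _).le.trans hloss)
    _ = ∑ j ∈ range J, ((1 - 1 / (2 * (N:ℝ))) / (1 + 1 / (2 * (N:ℝ)))) ^ m *
        qq (glr (edges n) (β / (2 * N)) m) (q0 x) y j := by rw [Finset.mul_sum]
    _ ≤ _ := Finset.sum_le_sum fun j _ => hmword j

theorem cJ_nonneg : 0 ≤ Ker.cJ 18 := by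
  have hc := Ker.cK_pos 18
  have hc1 : Ker.cK 18 ≤ 1 := by
    unfold Ker.cK
    rw [Real.exp_le_one_iff]
    norm_num
  have h3 : Ker.cK 18 ^ 3 ≤ 1 := pow_le_one₀ hc.le hc1
  have hl : 0 ≤ Real.log (4 / Ker.cK 18 ^ 3) := by
    apply Real.log_nonneg
    rw [le_div_iff₀ (by positivity)]
    linarith
  have hl2 : 0 < Real.log 2 := Real.log_pos (by norm_num)
  unfold Ker.cJ
  positivity

/-- Conductance between two nodes at distance at least a quarter of the circle. -/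
theorem cc_ge {n : ℕ} [NeZero n] (hn : 2 ≤ n) {β : ℝ} (hβ : 8 ≤ β) :
    ∃ N0 : ℕ, 1 ≤ N0 ∧ ∀ N W : ℕ, N0 ≤ N → N = 4 * W → ∀ θ : Fin (N + 1) × Tor n → ℝ,
      (∀ z, 0 ≤ θ z ∧ θ z ≤ 1) → (∀ z, z.1 ≠ 0 → θ z ≤ 1 / (2 * N)) →
      ∀ k m e : ℕ, k + m + 1 ≤ N → W ≤ m + 1 → (3:ℝ) ^ e ≤ 3 * √β → √β ≤ 3 * 3 ^ e →
      ∀ δ : ℝ, 0 ≤ δ → δ * ((7 + 2 * Ker.cJ 18) * β) ≤ 1 / 2 →
      ∀ p x y : Tor n, x ∈ cube n p (2 * 3 ^ e) → y ∈ cube n p (2 * 3 ^ e) →
      (∀ w1 w2 a b p, mword (edges n) β N θ k m = w1 ++ Lt.gate a b p :: w2 →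
        trace (lctx (edges n) β N θ (k + m + 1) x * wd w1 * exM a b * wd w2 *
            rctx (edges n) β N θ k y) ≤
          δ * trace (lctx (edges n) β N θ (k + m + 1) x * wd (mword (edges n) β N θ k m) *
            rctx (edges n) β N θ k y) ∧
        trace (lctx (edges n) β N θ (k + m + 1) x * wd w1 * neM a b * wd w2 *
            rctx (edges n) β N θ k y) ≤
          δ * trace (lctx (edges n) β N θ (k + m + 1) x * wd (mword (edges n) β N θ k m) *
            rctx (edges n) β N θ k y)) →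
      Real.exp (-2) * Ker.cK 18 ^ 3 / 432 / 27 ^ e *
        (θ (Fin.ofNat (N + 1) (k + m + 1), x) * θ (Fin.ofNat (N + 1) k, y)) ≤
      cc (phys (edges n) β N) θ (Fin.ofNat (N + 1) (k + m + 1), x) (Fin.ofNat (N + 1) k, y) := by
  obtain ⟨N0, hN01, hN0⟩ := walk_ge hn hβ
  refine ⟨max N0 ⌈β⌉₊, le_max_of_le_left hN01, ?_⟩
  intro N W hN hNW θ hθ hθ2 k m e hk hWm he1 he2 δ hδ hδ2 p x y hx hy hX
  have hN1 : 1 ≤ N := hN01.trans ((le_max_left _ _).trans hN)
  have hNβ : β ≤ N := by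
    have : ⌈β⌉₊ ≤ N := (le_max_right _ _).trans hN
    exact (Nat.le_ceil β).trans (by exact_mod_cast this)
  have hβ0 : 0 < β := by linarith
  have hNp : (0:ℝ) < N := by linarith
  have hcJ := cJ_nonneg
  have hcK : 0 < Ker.cK 18 := Ker.cK_pos 18
  set J : ℕ := ⌈Ker.cJ 18 * (β / 2)⌉₊ with hJ
  have hJ1 : Ker.cJ 18 * (β / 2) ≤ J := Nat.le_ceil _
  have hJ2 : (J:ℝ) ≤ Ker.cJ 18 * (β / 2) + 1 := (Nat.ceil_lt_add_one (by positivity)).le
  have hwalk := hN0 N W ((le_max_left _ _).trans hN) hNW θ hθ hθ2 k m e hk hWm he1 he2 J hJ1 hcJ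
    p x y hx hy
  have hcc := cc_long (edges n) hβ0.le hNβ (by omega) hθ (tch_edges n) hk x y J hδ hX
  refine le_trans ?_ hcc
  set S := ∑ j ∈ range J, qq (mword (edges n) β N θ k m) (q0 x) y j with hS
  have hp0 : 0 ≤ β / (2 * N) := by positivity
  have hp1 : β / (2 * N) ≤ 1 := by
    rw [div_le_one (by positivity)]; linarith
  have hqn : ∀ j, 0 ≤ qq (mword (edges n) β N θ k m) (q0 x) y j := fun j =>
    qq_nonneg (ok_mid (edges n) hp0 hp1 (fun _ _ => hθ _) m) (fun v j => by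
      unfold q0; split_ifs <;> norm_num) y j
  have hhalf : S / 2 ≤ ∑ j ∈ range J, qq (mword (edges n) β N θ k m) (q0 x) y j *
      (1 - δ * (β / (2 * N) * 6 * (m + 1) + (1 + β / (2 * N) * 6) * j)) := by
    rw [hS, Finset.sum_div]
    refine Finset.sum_le_sum fun j hj => ?_
    rw [div_eq_mul_inv]
    refine mul_le_mul_of_nonneg_left ?_ (hqn j)
    have hj' : (j:ℝ) ≤ J := by exact_mod_cast (Finset.mem_range.1 hj).le
    have hm1 : ((m:ℝ) + 1) ≤ N := by exact_mod_cast (by omega : m + 1 ≤ N)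
    have h1 : β / (2 * N) * 6 * (m + 1) ≤ 3 * β := by
      calc β / (2 * N) * 6 * (m + 1) ≤ β / (2 * N) * 6 * N :=
            mul_le_mul_of_nonneg_left hm1 (by positivity)
        _ = 3 * β := by field_simp; norm_num
    have h2 : β / (2 * N) * 6 ≤ 3 := by
      rw [div_mul_eq_mul_div, div_le_iff₀ (by positivity)]
      linarith
    have h3 : (1 + β / (2 * N) * 6) * j ≤ 4 * (Ker.cJ 18 * (β / 2) + 1) := by
      refine mul_le_mul (by linarith) (hj'.trans hJ2) (Nat.cast_nonneg _) (by norm_num)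
    have h4 : β / (2 * N) * 6 * (m + 1) + (1 + β / (2 * N) * 6) * j ≤
        (7 + 2 * Ker.cJ 18) * β := by
      nlinarith
    have h5 := mul_le_mul_of_nonneg_left h4 hδ
    norm_num
    linarith
  have hθθ : 0 ≤ θ (Fin.ofNat (N + 1) (k + m + 1), x) * θ (Fin.ofNat (N + 1) k, y) :=
    mul_nonneg (hθ _).1 (hθ _).1
  have h6 : Real.exp (-2) * Ker.cK 18 ^ 3 / 432 / 27 ^ e ≤ (∑ j ∈ range J,
      qq (mword (edges n) β N θ k m) (q0 x) y j *
      (1 - δ * (β / (2 * N) * 6 * (m + 1) + (1 + β / (2 * N) * 6) * j))) / 4 := by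
    have e1 : Real.exp (-2) * Ker.cK 18 ^ 3 / 432 / 27 ^ e =
        Real.exp (-2) * (Ker.cK 18 ^ 3 / (54 * 27 ^ e)) / 8 := by
      field_simp
      norm_num
    rw [e1]
    linarith
  have h7 := mul_le_mul_of_nonneg_right h6 hθθ
  refine h7.trans (le_of_eq ?_)
  ring

/-- **The physical network satisfies `Local3`.** `c1` is absolute. -/
theorem local3_inst (hΔ : DeltaStmt) : ∃ c1 : ℝ, 0 < c1 ∧ ∀ A : ℝ, 0 < A → ∃ β0 : ℝ, 8 ≤ β0 ∧
    ∀ β : ℝ, β0 ≤ β → ∀ (e n : ℕ) [NeZero n] (K η : ℝ) (b : Finset (Tor n)), 2 ≤ n →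
    (3:ℝ) ^ e ≤ 3 * √β → √β ≤ 3 * 3 ^ e → 0 < K → K ≤ b.card → b.Nonempty →
    0 < η → η ≤ A * β ^ (-(3 / 2) : ℝ) → K * η ≤ A →
    ∃ N0 : ℕ, ∀ N W : ℕ, N0 ≤ N → N = 4 * W → ∀ g : Tor n → ℝ, (∀ x, 0 ≤ g x ∧ g x ≤ 1) →
    (∀ x, rho (edges n) β (fun y => g y / β) x ≤ η) →
    Local3 n N W e K c1 b g (physC n N β K b fun y => g y / β) := by
  obtain ⟨C, hC, hΔ⟩ := hΔ
  have hcJ := cJ_nonneg
  have hcK : 0 < Ker.cK 18 := Ker.cK_pos 18
  set c0 : ℝ := Real.exp (-2) * Ker.cK 18 ^ 3 / 432 with hc0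
  have hc0p : 0 < c0 := by
    have := Real.exp_pos (-2)
    positivity
  refine ⟨c0 / 8, by positivity, fun A hA => ?_⟩
  set M : ℝ := 2 * (C * A * Real.exp (C * A) * (7 + 2 * Ker.cJ 18)) with hM
  have hMp : 0 < M := by
    have := Real.exp_pos (C * A)
    positivity
  refine ⟨max 8 (M ^ 2), le_max_left _ _, ?_⟩
  intro β hβ e n _ K η b hn he1 he2 hK hKb hbn hη hη2 hKη
  have hβ8 : 8 ≤ β := (le_max_left _ _).trans hβ
  have hβ0 : 0 < β := by linarith
  have hβM : M ≤ √β := Real.le_sqrt_of_sq_le ((le_max_right _ _).trans hβ)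
  set δ : ℝ := C * η * Real.exp (C * (K * η)) with hδ
  have hδ0 : 0 ≤ δ := by
    have := Real.exp_pos (C * (K * η))
    positivity
  have hsβ : 0 < √β := Real.sqrt_pos.2 hβ0
  have hrp : β ^ (-(3 / 2) : ℝ) = 1 / (β * √β) := by
    rw [Real.rpow_neg hβ0.le, one_div, Real.sqrt_eq_rpow]
    congr 1
    rw [show (3 / 2 : ℝ) = 1 + 1 / 2 by norm_num, Real.rpow_add hβ0, Real.rpow_one]
  have hδ2 : δ * ((7 + 2 * Ker.cJ 18) * β) ≤ 1 / 2 := by
    have h1 : δ ≤ C * (A * (1 / (β * √β))) * Real.exp (C * A) := by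
      rw [hδ]
      refine mul_le_mul (mul_le_mul_of_nonneg_left ?_ hC.le)
        (Real.exp_le_exp.2 (mul_le_mul_of_nonneg_left hKη hC.le)) (Real.exp_pos _).le
        (by positivity)
      rw [← hrp]; exact hη2
    have h2 : 0 ≤ (7 + 2 * Ker.cJ 18) * β := by positivity
    calc δ * ((7 + 2 * Ker.cJ 18) * β)
        ≤ C * (A * (1 / (β * √β))) * Real.exp (C * A) * ((7 + 2 * Ker.cJ 18) * β) :=
          mul_le_mul_of_nonneg_right h1 h2
      _ = M / 2 / √β := by rw [hM]; field_simp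
      _ ≤ 1 / 2 := by
        rw [div_div, div_le_div_iff₀ (by positivity) (by norm_num)]
        linarith
  obtain ⟨N1, hN1⟩ := hΔ (Tor n) (edges n) β K η b hβ0 hK hKb hbn hη
  obtain ⟨N2, hN21, hN2⟩ := cc_ge hn hβ8
  refine ⟨max N1 (max N2 ⌈β⌉₊), ?_⟩
  intro N W hN hNW g hg hrho
  have hNN1 : N1 ≤ N := (le_max_left _ _).trans hN
  have hNN2 : N2 ≤ N := (le_max_left _ _).trans ((le_max_right _ _).trans hN)
  have hNβ : β ≤ N := by
    have : ⌈β⌉₊ ≤ N := (le_max_right _ _).trans ((le_max_right _ _).trans hN)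
    exact (Nat.le_ceil β).trans (by exact_mod_cast this)
  have hNp : (0:ℝ) < N := by linarith
  have hNat : 1 ≤ N := hN21.trans hNN2
  have hW : 1 ≤ W := by omega
  set h : Tor n → ℝ := fun y => g y / β with hh
  have hh01 : ∀ x, 0 ≤ h x ∧ h x ≤ 1 := fun x => by
    rw [hh]
    refine ⟨div_nonneg (hg x).1 hβ0.le, ?_⟩
    simp only
    rw [div_le_one hβ0]
    linarith [(hg x).2]
  have hT : ∀ x, 0 ≤ blk K b x ∧ blk K b x ≤ 1 := blk_mem hK.le b
  have hθ := fun z => Loc.th_mem (h := h) (T := blk K b) hβ0.le hNβ hh01 hT z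
  have hθg : ∀ (k : Fin (N + 1)) (x : Tor n), k ≠ 0 → th β N h (blk K b) (k, x) = g x / (2 * N) :=
    fun k x hk => by
      unfold th
      rw [if_neg hk, hh]
      field_simp
  have hθ2 : ∀ z : Fin (N + 1) × Tor n, z.1 ≠ 0 → th β N h (blk K b) z ≤ 1 / (2 * N) := by
    rintro ⟨k, x⟩ hk
    rw [hθg k x hk]
    exact div_le_div_of_nonneg_right (hg x).2 (by positivity)
  have hlaw := isLaw_phys' (edges n) hβ0.le hNβ
  obtain ⟨hZ, hccn, hccs, hsum, hKK, hvv⟩ := locNet _ _ hlaw _ hθ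
  have hmain : ∀ (k m : ℕ), k + m + 1 ≤ N → W ≤ m + 1 → ∀ p x y : Tor n,
      x ∈ cube n p (2 * 3 ^ e) → y ∈ cube n p (2 * 3 ^ e) →
      c0 / 27 ^ e * (th β N h (blk K b) (Fin.ofNat (N + 1) (k + m + 1), x) *
        th β N h (blk K b) (Fin.ofNat (N + 1) k, y)) ≤
      cc (phys (edges n) β N) (th β N h (blk K b)) (Fin.ofNat (N + 1) (k + m + 1), x)
        (Fin.ofNat (N + 1) k, y) := fun k m hkm hWm p x y hx hy =>
    hN2 N W hNN2 hNW _ hθ hθ2 k m e hkm hWm he1 he2 δ hδ0 hδ2 p x y hx hy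
      (fun w1 w2 a c p hw => hN1 N hNN1 h hh01 hrho k m hkm x y w1 w2 a c p hw)
  refine ⟨?_, ?_, ?_, ?_, ?_⟩
  · intro u v
    unfold physC Net.c0
    by_cases huv : u = v
    · rw [if_pos huv, if_pos huv.symm]
    · rw [if_neg huv, if_neg (Ne.symm huv), hccs]
  · intro u v
    unfold physC Net.c0
    by_cases huv : u = v
    · rw [if_pos huv]
    · rw [if_neg huv]; exact hccn u v huv
  · intro k x hk
    have h1 : ∑ v, physC n N β K b h (k, x) v =
        ∑ v ∈ univ.erase (k, x), cc (phys (edges n) β N) (th β N h (blk K b)) (k, x) v := by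
      unfold physC Net.c0
      rw [← Finset.add_sum_erase Finset.univ _ (Finset.mem_univ (k, x))]
      rw [if_pos rfl, zero_add]
      refine Finset.sum_congr rfl fun v hv => ?_
      rw [if_neg (Ne.symm (Finset.ne_of_mem_erase hv))]
    rw [h1, hsum]
    refine (hvv _).trans ?_
    rw [hθg k x hk]
  · intro k l p x y hk hkl hx hy hgx hgy
    have hk0 : 0 < (k : ℕ) := Fin.pos_of_ne_zero hk
    have hl0 : l ≠ 0 := by
      intro h
      rw [h] at hkl
      simp at hkl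
      omega
    have hne : (k, x) ≠ (l, y) := fun h => by
      have : (k:ℕ) = l := congrArg (fun z : Fin (N + 1) × Tor n => (z.1 : ℕ)) h
      omega
    unfold physC Net.c0
    rw [if_neg hne, hccs]
    have hlN : (l : ℕ) ≤ N := Nat.lt_succ_iff.1 l.2
    obtain ⟨m, hm⟩ : ∃ m : ℕ, (l : ℕ) = k + m + 1 := ⟨(l : ℕ) - k - 1, by omega⟩
    have h1 := hmain k m (by omega) (by omega) p y x hy hx
    have hl : Fin.ofNat (N + 1) ((k : ℕ) + m + 1) = l := by
      rw [← hm]; exact Fin.cast_val_eq_self l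
    have hkk : Fin.ofNat (N + 1) (k : ℕ) = k := Fin.cast_val_eq_self k
    rw [hl, hkk, hθg l y hl0, hθg k x hk, hgx, hgy] at h1
    refine le_trans ?_ h1
    have e1 : c0 / 27 ^ e * (1 / (2 * (N:ℝ)) * (1 / (2 * N))) =
        2 * (c0 / 8 / ((N:ℝ) ^ 2 * 27 ^ e)) := by
      field_simp; norm_num
    rw [e1]
    have : 0 ≤ c0 / 8 / ((N:ℝ) ^ 2 * 27 ^ e) := by positivity
    linarith
  · intro k p x y hWk hxb hx hy hgy
    have hk0 : 0 < (k : ℕ) := by omega
    have hkne : k ≠ 0 := by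
      intro h
      rw [h] at hk0
      simp at hk0
    have hne : ((0 : Fin (N + 1)), x) ≠ (k, y) := fun h => hkne (congrArg Prod.fst h).symm
    unfold physC Net.c0
    rw [if_neg hne, hccs]
    have hkN : (k : ℕ) ≤ N := Nat.lt_succ_iff.1 k.2
    obtain ⟨m, hm⟩ : ∃ m : ℕ, (k : ℕ) = 0 + m + 1 := ⟨(k : ℕ) - 1, by omega⟩
    have h1 := hmain 0 m (by omega) (by omega) p y x hy hx
    have hl : Fin.ofNat (N + 1) (0 + m + 1) = k := by
      rw [← hm]; exact Fin.cast_val_eq_self k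
    have hkk : Fin.ofNat (N + 1) 0 = (0 : Fin (N + 1)) := by
      simp
    rw [hl, hkk, hθg k y hkne, hgy] at h1
    refine le_trans ?_ h1
    have hth0 : th β N h (blk K b) ((0 : Fin (N + 1)), x) = blk K b x := by
      unfold th; rw [if_pos rfl]
    rw [hth0]
    have hbp : (0:ℝ) < b.card := by
      have : 0 < b.card := Finset.card_pos.2 ⟨x, hxb⟩
      exact_mod_cast this
    have ht : K / b.card / 4 ≤ blk K b x := by
      unfold blk; rw [if_pos hxb]
      have h6 : K / (2 * b.card) ≤ 1 := by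
        rw [div_le_one (by positivity)]; linarith
      have := tanh_ge (K / (2 * b.card)) (by positivity) h6
      refine le_trans ?_ this
      apply le_of_eq; field_simp; ring
    have h7 : c0 / 27 ^ e * (1 / (2 * (N:ℝ)) * (K / b.card / 4)) ≤
        c0 / 27 ^ e * (1 / (2 * (N:ℝ)) * blk K b x) := by
      refine mul_le_mul_of_nonneg_left (mul_le_mul_of_nonneg_left ht (by positivity))
        (by positivity)
    refine le_trans (le_of_eq ?_) h7
    field_simp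
    norm_num

end

end Vale.Agent.P361.LRO.Ind3
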