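import Vale.Agent.P361.LRO.Ind.Num

/-!
# P361 LRO stage 3, network chapter: numerical lemmas for the ladder of scales
-/

namespace Vale.Agent.P361.LRO.Ind3

/-- the ground is out of reach of the bumps. -/
theorem num_ground3 : ∃ e0 : ℕ, 1 ≤ e0 ∧ ∀ (h0 lam : ℝ) (e s : ℕ), e0 ≤ e → 0 < h0 →
    1 / 3 ^ (10 * e) ≤ lam → 100 * e ≤ s → h0⁻¹ ≤ ((3 : ℝ) ^ s) ^ (5 / 2 : ℝ) →
    Real.exp (-(lam * (3 * (3 : ℝ) ^ s))) ≤ h0 := by
  obtain ⟨β0, hβ0, h⟩ := Vale.Agent.P361.LRO.Ind.num_ground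
  obtain ⟨e0, he0⟩ := pow_unbounded_of_one_lt β0 (show (1 : ℝ) < 3 by norm_num)
  refine ⟨e0 + 1, by omega, ?_⟩
  intro h0 lam e s he hh0 hlam hs hh
  have h3 : β0 ≤ (3 : ℝ) ^ (10 * e) := by
    refine he0.le.trans ?_
    exact pow_le_pow_right₀ (by norm_num) (by omega)
  refine h ((3 : ℝ) ^ (10 * e)) h0 lam s h3 hh0 hlam ?_ hh
  rw [← pow_mul]
  exact pow_le_pow_right₀ (by norm_num) (by omega)

/-- the ladder of scales `100 e 4 ^ i`. -/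
theorem num_ladder3 : ∀ e : ℕ, 1 ≤ e → ∃ n0 : ℕ, ∀ (n : ℕ) (h0 : ℝ),
    n0 ≤ n → (n : ℝ) ^ (-(1 / 4 : ℝ)) ≤ h0 → h0 ≤ 1 →
    ∃ I : ℕ, h0⁻¹ ≤ ((3 : ℝ) ^ (4 ^ I * (100 * e))) ^ (5 / 2 : ℝ) ∧
      8 * 3 ^ (4 ^ I * (100 * e)) < n := by
  intro e he
  refine ⟨max (8 * 3 ^ (100 * e) + 1) 100, ?_⟩
  intro n h0 hn hh0 hh1
  have hn1 : 8 * 3 ^ (100 * e) < n := by
    have h1 : 8 * 3 ^ (100 * e) + 1 ≤ n := le_trans (le_max_left _ _) hn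
    omega
  have hn2 : 100 ≤ n := le_trans (le_max_right _ _) hn
  have hnpos : (0 : ℝ) < n := by
    have : (100 : ℝ) ≤ n := by exact_mod_cast hn2
    linarith
  have hh0pos : 0 < h0 := lt_of_lt_of_le (Real.rpow_pos_of_pos hnpos _) hh0
  have hinv : h0⁻¹ ≤ (n : ℝ) ^ (1 / 4 : ℝ) := by
    have h1 := inv_anti₀ (Real.rpow_pos_of_pos hnpos _) hh0
    rwa [← Real.rpow_neg hnpos.le, neg_neg] at h1
  -- existence of a large rung
  have hex : ∃ I : ℕ, h0⁻¹ ≤ ((3 : ℝ) ^ (4 ^ I * (100 * e))) ^ (5 / 2 : ℝ) := by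
    obtain ⟨I, hI⟩ := pow_unbounded_of_one_lt h0⁻¹ (show (1 : ℝ) < 3 by norm_num)
    refine ⟨I, ?_⟩
    have h1 : (3 : ℝ) ^ I ≤ (3 : ℝ) ^ (4 ^ I * (100 * e)) := by
      apply pow_le_pow_right₀ (by norm_num)
      have h2 : I ≤ 4 ^ I := (Nat.lt_pow_self (by norm_num)).le
      calc I ≤ 4 ^ I := h2
        _ ≤ 4 ^ I * (100 * e) := Nat.le_mul_of_pos_right _ (by omega)
    have h3 : (1 : ℝ) ≤ (3 : ℝ) ^ (4 ^ I * (100 * e)) := one_le_pow₀ (by norm_num)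
    calc h0⁻¹ ≤ (3 : ℝ) ^ I := hI.le
      _ ≤ (3 : ℝ) ^ (4 ^ I * (100 * e)) := h1
      _ = ((3 : ℝ) ^ (4 ^ I * (100 * e))) ^ (1 : ℝ) := (Real.rpow_one _).symm
      _ ≤ _ := Real.rpow_le_rpow_of_exponent_le h3 (by norm_num)
  classical
  refine ⟨Nat.find hex, Nat.find_spec hex, ?_⟩
  rcases hI : Nat.find hex with _ | J
  · rw [pow_zero, one_mul]
    exact hn1
  · have hJ := Nat.find_min hex (m := J) (by omega)
    push Not at hJ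
    set Y : ℝ := (3 : ℝ) ^ (4 ^ J * (100 * e)) with hY
    have hYpos : 0 < Y := by positivity
    have h1 : Y ^ (5 / 2 : ℝ) < (n : ℝ) ^ (1 / 4 : ℝ) := lt_of_lt_of_le hJ hinv
    have h2 : Y ^ 4 < (n : ℝ) ^ (2 / 5 : ℝ) := by
      have h3 := Real.rpow_lt_rpow (by positivity) h1 (show (0 : ℝ) < 8 / 5 by norm_num)
      rw [← Real.rpow_mul hYpos.le, ← Real.rpow_mul hnpos.le] at h3
      have e1 : (5 / 2 * (8 / 5) : ℝ) = ((4 : ℕ) : ℝ) := by norm_num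
      have e2 : (1 / 4 * (8 / 5) : ℝ) = 2 / 5 := by norm_num
      rw [e1, e2, Real.rpow_natCast] at h3
      exact h3
    have h4 : 8 * (n : ℝ) ^ (2 / 5 : ℝ) ≤ n := by
      have h5 : (n : ℝ) = (n : ℝ) ^ (2 / 5 : ℝ) * (n : ℝ) ^ (3 / 5 : ℝ) := by
        rw [← Real.rpow_add hnpos]; norm_num
      have h6 : (8 : ℝ) ≤ (n : ℝ) ^ (3 / 5 : ℝ) := by
        have h7 : (32 : ℝ) ≤ n := by
          have : (100 : ℝ) ≤ n := by exact_mod_cast hn2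
          linarith
        have h8 := Real.rpow_le_rpow (by norm_num) h7 (show (0 : ℝ) ≤ 3 / 5 by norm_num)
        have h9 : (32 : ℝ) ^ (3 / 5 : ℝ) = 8 := by
          rw [show (32 : ℝ) = (2 : ℝ) ^ (5 : ℝ) by norm_num, ← Real.rpow_mul (by norm_num)]
          norm_num
        linarith
      calc 8 * (n : ℝ) ^ (2 / 5 : ℝ) ≤ (n : ℝ) ^ (3 / 5 : ℝ) * (n : ℝ) ^ (2 / 5 : ℝ) :=
            mul_le_mul_of_nonneg_right h6 (by positivity)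
        _ = n := by rw [mul_comm]; exact h5.symm
    have h10 : (3 : ℝ) ^ (4 ^ (J + 1) * (100 * e)) = Y ^ 4 := by
      rw [hY, ← pow_mul]
      congr 1
      ring
    have h11 : (8 * 3 ^ (4 ^ (J + 1) * (100 * e)) : ℝ) < n := by
      rw [h10]
      linarith
    exact_mod_cast h11

end Vale.Agent.P361.LRO.Ind3
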