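import Vale.Agent.P361.LRO.Ind3.Defs
import Vale.Agent.P361.LRO.Ind3.Num
import Vale.Agent.P361.LRO.Ind.Family
import Vale.Agent.P361.LRO.Ind.LowE

/-!
# P361 LRO, stage 3, network chapter, all spins (`LowE`): the last rung of the ladder (helper494,
from helper808's Ind3/LadLast0.lean)
-/

namespace Vale.Agent.P361.LRO.Ind3

open Finset Vale.Agent.P361.LRO _root_.P361.LRO Vale.Agent.P361.LRO.Ind

/-- `3 ^ (33 e) ≤ (3 ^ (100 e)) ^ (1/3)`. -/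
private theorem ladlast3e_A (e : ℕ) : (3 : ℝ) ^ (33 * e) ≤ ((3 : ℝ) ^ (100 * e)) ^ (1 / 3 : ℝ) := by
  have h1 : (3 : ℝ) ^ (33 * e) = ((3 : ℝ) ^ (99 * e)) ^ (1 / 3 : ℝ) := by
    rw [← Real.rpow_natCast, ← Real.rpow_natCast, ← Real.rpow_mul (by norm_num)]
    congr 1
    push_cast
    ring
  rw [h1]
  exact Real.rpow_le_rpow (by positivity) (pow_le_pow_right₀ (by norm_num) (by omega))
    (by norm_num)

private theorem ladlast3e_num_a {C K : ℝ} {e : ℕ} (hC : 0 < C) (hCe : C ≤ 3 ^ e)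
    (hK : 0 ≤ K) (hKe : K ≤ 27 ^ (2 * e)) :
    C * K ≤ ((3 : ℝ) ^ (100 * e)) ^ (1 / 3 : ℝ) ∧
    C * K ^ 3 ≤ ((3 : ℝ) ^ (100 * e)) ^ (1 / 3 : ℝ) * (27 ^ e) ^ 2 := by
  have hK' : K ≤ 3 ^ (6 * e) := by
    refine hKe.trans_eq ?_
    rw [show (27 : ℝ) = 3 ^ 3 by norm_num, ← pow_mul]
    congr 1
    ring
  have hA := ladlast3e_A e
  have h27 : (27 : ℝ) ^ e = 3 ^ (3 * e) := by
    rw [show (27 : ℝ) = 3 ^ 3 by norm_num, ← pow_mul]
  constructor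
  · calc C * K ≤ 3 ^ e * 3 ^ (6 * e) := mul_le_mul hCe hK' hK (by positivity)
      _ = 3 ^ (7 * e) := by rw [← pow_add]; congr 1; ring
      _ ≤ 3 ^ (33 * e) := pow_le_pow_right₀ (by norm_num) (by omega)
      _ ≤ _ := hA
  · calc C * K ^ 3 ≤ 3 ^ e * (3 ^ (6 * e)) ^ 3 :=
          mul_le_mul hCe (pow_le_pow_left₀ hK hK' 3) (by positivity) (by positivity)
      _ = 3 ^ (19 * e) := by rw [← pow_mul, ← pow_add]; congr 1; ring
      _ ≤ 3 ^ (39 * e) := pow_le_pow_right₀ (by norm_num) (by omega)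
      _ = 3 ^ (33 * e) * (27 ^ e) ^ 2 := by rw [h27, ← pow_mul, ← pow_add]; congr 1; ring
      _ ≤ _ := mul_le_mul_of_nonneg_right hA (by positivity)

private theorem ladlast3e_num_b {lam ε : ℝ} {e : ℕ} (he : 1 ≤ e) (hlam : 1 / 3 ^ (10 * e) ≤ lam)
    (hε : 0 ≤ ε) (hεe : ε * e ≤ 1 / 5000) :
    1 / 2 ≤ (1 * ((3 : ℝ) ^ (100 * e) + 2 / lam) ^ 3) ^ (-(4 * ε)) := by
  have hlam0 : 0 < lam := lt_of_lt_of_le (by positivity) hlam
  have h2 : 2 / lam ≤ 2 * 3 ^ (10 * e) := by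
    rw [div_le_iff₀ hlam0]
    have := mul_le_mul_of_nonneg_left hlam (show (0 : ℝ) ≤ 2 * 3 ^ (10 * e) by positivity)
    refine le_trans ?_ this
    rw [mul_one_div, mul_div_assoc, div_self (by positivity), mul_one]
  have h3 : (3 : ℝ) ^ (10 * e) ≤ 3 ^ (100 * e) := pow_le_pow_right₀ (by norm_num) (by omega)
  have h4 : (3 : ℝ) ^ (100 * e) + 2 / lam ≤ 3 ^ (101 * e) := by
    calc (3 : ℝ) ^ (100 * e) + 2 / lam ≤ 3 * 3 ^ (100 * e) := by linarith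
      _ = 3 ^ (100 * e + 1) := by rw [pow_succ]; ring
      _ ≤ 3 ^ (101 * e) := pow_le_pow_right₀ (by norm_num) (by omega)
  have hpos : 0 < (3 : ℝ) ^ (100 * e) + 2 / lam := by positivity
  have h6 : 1 * ((3 : ℝ) ^ (100 * e) + 2 / lam) ^ 3 ≤ 3 ^ (303 * e) := by
    calc 1 * ((3 : ℝ) ^ (100 * e) + 2 / lam) ^ 3 ≤ (3 ^ (101 * e)) ^ 3 := by
          rw [one_mul]; exact pow_le_pow_left₀ hpos.le h4 3
      _ = _ := by rw [← pow_mul]; congr 1; ring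
  have hpos2 : 0 < 1 * ((3 : ℝ) ^ (100 * e) + 2 / lam) ^ 3 := by positivity
  have h7 : Real.log (1 * ((3 : ℝ) ^ (100 * e) + 2 / lam) ^ 3) ≤ 606 * e := by
    have h71 := Real.log_le_log hpos2 h6
    rw [Real.log_pow] at h71
    push_cast at h71
    have h72 : Real.log 3 ≤ 2 := by
      have := Real.log_le_sub_one_of_pos (show (0 : ℝ) < 3 by norm_num)
      linarith
    have h73 : 303 * (e : ℝ) * Real.log 3 ≤ 303 * e * 2 :=
      mul_le_mul_of_nonneg_left h72 (by positivity)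
    linarith
  rw [Real.rpow_def_of_pos hpos2]
  have h8 : -(1 / 2 : ℝ) ≤
      Real.log (1 * ((3 : ℝ) ^ (100 * e) + 2 / lam) ^ 3) * -(4 * ε) := by
    have h9 := mul_le_mul_of_nonneg_right h7 hε
    nlinarith
  have h10 := Real.add_one_le_exp
    (Real.log (1 * ((3 : ℝ) ^ (100 * e) + 2 / lam) ^ 3) * -(4 * ε))
  linarith

/-- The last rung, from `step_last3`. -/
theorem lad_last3E_of (c1 : ℝ) (hstep3 : ∃ C : ℝ, 0 < C ∧ ∀ (n N W e : ℕ) [NeZero n]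
    (K : ℝ) (o : Tor n) (a : ℕ) (h : Tor n → ℝ) (c : Nd n N → Nd n N → ℝ)
    (s : ℕ) (G : Finset (Nd n N)) (A : ℝ),
    0 < W → N = 4 * W → e ≤ a → a ≤ s → 3 ^ s < n →
    0 < K → C * K ≤ 27 ^ a → C * K ≤ 9 ^ e * 3 ^ a →
    (∀ x, h x ≤ 1) → (∀ x ∈ cube n o (3 ^ s), h x = 1) →
    Local3 n N W e K c1 (cube n o (3 ^ a)) h c →
    Disjoint (EE6 n N o (cube n o (3 ^ a)) (3 ^ s)) G →
    LBn c (EE6 n N o (cube n o (3 ^ a)) (3 ^ s)) G A →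
    C * K ≤ A → C * K ^ 3 ≤ A * (27 ^ e) ^ 2 →
    LBn c (hatb N (cube n o (3 ^ a))) G (K / C)) :
    ∃ (e0 : ℕ) (C5 c3 c4 : ℝ), 1 ≤ e0 ∧ 0 < C5 ∧
    0 < c3 ∧ 0 < c4 ∧ ∀ (n N W e : ℕ) [NeZero n]
    (K h0 lam ε : ℝ) (o : Tor n) (a : ℕ) (h : Tor n → ℝ)
    (c : (Tor n → ℝ) → Nd n N → Nd n N → ℝ) (S : ℕ),
    e0 ≤ e → 0 < W → N = 4 * W → 100 * e ≤ S → 8 * 3 ^ S < n →
    e ≤ a → a ≤ 2 * e → 1 ≤ K → K ≤ 27 ^ (2 * e) → C5 * K ≤ 27 ^ a → C5 * K ≤ 9 ^ e * 3 ^ a →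
    0 < h0 → h0 ≤ 1 → 1 / 3 ^ (10 * e) ≤ lam → 0 ≤ ε → ε * e ≤ c4 →
    h0⁻¹ ≤ ((3 : ℝ) ^ S) ^ (5 / 2 : ℝ) →
    (∀ g, Fam n h0 lam g → Local3 n N W e K c1 (cube n o (3 ^ a)) g (c g)) →
    LowE n N (cube n o (3 ^ a)) 1 h0 lam ε c →
    Fam n h0 lam h →
    LBn (c (HH n lam o (3 ^ (100 * e)) h)) (EE6 n N o (cube n o (3 ^ a)) (3 ^ (100 * e)))
      (GG6 n N o (3 ^ S)) (((3 : ℝ) ^ (100 * e)) ^ (1 / 3 : ℝ)) →
    LBn (c h) (hatb N (cube n o (3 ^ a))) (GG6 n N o (3 ^ S)) (c3 * K) := by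
  obtain ⟨C, hC, hstep⟩ := hstep3
  obtain ⟨e1, he1, hground⟩ := num_ground3
  obtain ⟨e2, he2⟩ := pow_unbounded_of_one_lt C (show (1 : ℝ) < 3 by norm_num)
  refine ⟨max e1 e2, C, 1 / (4 * C), min (1 / 5000) (1 / (8 * C)), he1.trans (le_max_left _ _),
    hC, by positivity, by positivity, ?_⟩
  intro n N W e _ K h0 lam ε o a h c S he hW hN hrS hSn hea ha2 hK hKe hCK hCK2 hh0 hh01 hlam hε
    hεe hS hloc hlow hfam hLB
  have he1' : e1 ≤ e := (le_max_left _ _).trans he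
  have he2' : e2 ≤ e := (le_max_right _ _).trans he
  have he0 : 1 ≤ e := he1.trans he1'
  have hCe : C ≤ 3 ^ e := he2.le.trans (pow_le_pow_right₀ (by norm_num) he2')
  have hlam0 : 0 < lam := lt_of_lt_of_le (by positivity) hlam
  have hK0 : 0 < K := by linarith
  have h3rS : (3 : ℕ) ^ (100 * e) ≤ 3 ^ S := Nat.pow_le_pow_right (by norm_num) hrS
  have h3rn : (3 : ℕ) ^ (100 * e) < n := by
    have : (3 : ℕ) ^ S ≤ 8 * 3 ^ S := by omega
    omega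
  have hfamH : Fam n h0 lam (HH n lam o (3 ^ (100 * e)) h) :=
    Fam_HH hlam0.le o (by positivity) hfam
  obtain ⟨hA1, hA2⟩ := ladlast3e_num_a hC hCe hK0.le hKe
  have hstep1 := hstep n N W e K o a (HH n lam o (3 ^ (100 * e)) h)
    (c (HH n lam o (3 ^ (100 * e)) h)) (100 * e)
    (GG6 n N o (3 ^ S)) (((3 : ℝ) ^ (100 * e)) ^ (1 / 3 : ℝ)) hW hN hea (by omega) h3rn hK0
    hCK hCK2
    (fun x => (hfamH.1 x).2) (fun x hx => HH_one hlam0.le o h3rn.le hfam hx) (hloc _ hfamH)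
    (disj_EG o _ h3rS hSn.le) hLB hA1 hA2
  have hsm := hground h0 lam e S he1' hh0 hlam hrS hS
  have hlow1 := hlow.prim (HH n lam o (3 ^ (100 * e)) h) h hfamH hfam (fun x => le_max_left _ _)
    (hatb N (cube n o (3 ^ a))) (GG6 n N o (3 ^ S)) (disj_hat o _ _) (Finset.Subset.refl _) (by
      intro z hz hz0
      rcases mem_union.1 hz with hz | hz
      · exfalso
        apply hz0
        unfold hatb at hz
        exact mem_singleton.1 (mem_product.1 hz).1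
      · unfold GG6 at hz
        symm
        exact HH_ground hlam0.le o h3rS hSn.le hfam (by push_cast; exact hsm)
          (mem_product.1 hz).2)
    (((3 ^ (100 * e) : ℕ) + 2 / lam) ^ 3) (by
      have h1r : (1 : ℝ) ≤ ((3 ^ (100 * e) : ℕ) : ℝ) := by
        push_cast; exact one_le_pow₀ (by norm_num)
      have h2 : (1 : ℝ) ≤ ((3 ^ (100 * e) : ℕ) : ℝ) + 2 / lam := by
        have : 0 ≤ 2 / lam := by positivity
        linarith
      have h3 : (1 : ℝ) ≤ (((3 ^ (100 * e) : ℕ) : ℝ) + 2 / lam) ^ 3 := one_le_pow₀ h2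
      linarith)
    (sum_lowered' hlam0 o (3 ^ (100 * e)) h) (K / C) (by positivity) hstep1
  have hhalf := ladlast3e_num_b he0 hlam hε (hεe.trans (min_le_left _ _))
  intro f hf hg
  refine le_trans ?_ (hlow1 f hf hg)
  push_cast
  have hε1 : ε ≤ 1 / (8 * C) := by
    have h0 : (1 : ℝ) ≤ e := by exact_mod_cast he0
    have h1 : ε * 1 ≤ ε * e := mul_le_mul_of_nonneg_left h0 hε
    have h2 := hεe.trans (min_le_right _ _)
    linarith
  have h1 : 1 / 2 * (K / C) ≤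
      (1 * ((3 : ℝ) ^ (100 * e) + 2 / lam) ^ 3) ^ (-(4 * ε)) * (K / C) :=
    mul_le_mul_of_nonneg_right hhalf (by positivity)
  have h2 : 2 * ε ≤ K / (4 * C) := by
    calc 2 * ε ≤ 2 * (1 / (8 * C)) := by linarith
      _ = 1 / (4 * C) := by field_simp; norm_num
      _ ≤ K / (4 * C) := by gcongr
  have h3 : 1 / (4 * C) * K = 1 / 2 * (K / C) - K / (4 * C) := by field_simp; norm_num
  linarith

end Vale.Agent.P361.LRO.Ind3
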