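import Vale.Agent.P361.LRO.Ind3.StepMid
import Vale.Agent.P361.LRO.Ind3.Num
import Vale.Agent.P361.LRO.Ind.Family
import Vale.Agent.P361.LRO.Ind.LowE

/-!
# P361 LRO, stage 3, network chapter, all spins (`LowE`): one rung of the ladder (helper494, from
helper487's Ind3/LadMid.lean)
-/

namespace Vale.Agent.P361.LRO.Ind3

open Finset Vale.Agent.P361.LRO _root_.P361.LRO Vale.Agent.P361.LRO.Ind

private theorem lm3e_num_a {C X κ μ : ℝ} (hC : 0 < C) (hX1 : 1 ≤ X) (hκ : 1 ≤ κ) (hμ : 1 ≤ μ) :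
    C * (X ^ (4 / 9 : ℝ) / (1 + C)) ≤ κ * X ∧
    C * (X ^ (4 / 9 : ℝ) / (1 + C)) ≤ X ^ (4 / 3 : ℝ) ∧
    C * (X ^ (4 / 9 : ℝ) / (1 + C)) ^ 3 ≤ X ^ (4 / 3 : ℝ) * μ ^ 2 := by
  have hX0 : 0 < X := by linarith
  have hC1 : C / (1 + C) ≤ 1 := by rw [div_le_one (by positivity)]; linarith
  have hC0 : 0 ≤ C / (1 + C) := by positivity
  have hmain : C * (X ^ (4 / 9 : ℝ) / (1 + C)) ≤ X ^ (4 / 9 : ℝ) := by
    calc C * (X ^ (4 / 9 : ℝ) / (1 + C)) = C / (1 + C) * X ^ (4 / 9 : ℝ) := by ring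
      _ ≤ 1 * X ^ (4 / 9 : ℝ) := mul_le_mul_of_nonneg_right hC1 (by positivity)
      _ = _ := one_mul _
  refine ⟨?_, ?_, ?_⟩
  · have h1 : X ^ (4 / 9 : ℝ) ≤ X := by
      conv_rhs => rw [← Real.rpow_one X]
      exact Real.rpow_le_rpow_of_exponent_le hX1 (by norm_num)
    nlinarith
  · exact hmain.trans (Real.rpow_le_rpow_of_exponent_le hX1 (by norm_num))
  · have h6 : (X ^ (4 / 9 : ℝ)) ^ 3 = X ^ (4 / 3 : ℝ) := by
      rw [← Real.rpow_natCast, ← Real.rpow_mul hX0.le]; norm_num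
    have h7 : C / (1 + C) ^ 3 ≤ 1 := by
      rw [div_le_one (by positivity)]
      nlinarith [sq_nonneg C, pow_pos hC 3]
    have h8 : 1 ≤ μ ^ 2 := one_le_pow₀ hμ
    calc C * (X ^ (4 / 9 : ℝ) / (1 + C)) ^ 3
        = C / (1 + C) ^ 3 * (X ^ (4 / 9 : ℝ)) ^ 3 := by
          rw [div_pow]; field_simp
      _ = C / (1 + C) ^ 3 * X ^ (4 / 3 : ℝ) := by rw [h6]
      _ ≤ 1 * X ^ (4 / 3 : ℝ) := mul_le_mul_of_nonneg_right h7 (by positivity)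
      _ = X ^ (4 / 3 : ℝ) * 1 := by ring
      _ ≤ X ^ (4 / 3 : ℝ) * μ ^ 2 := mul_le_mul_of_nonneg_left h8 (by positivity)

private theorem lm3e_num_b {C X lam ε : ℝ} (hC : 0 < C) (hX8 : 8 ≤ X)
    (hXC : 2 * (1 + C) ≤ X ^ (1 / 20 : ℝ)) (hlam0 : 0 < lam)
    (h2l : 2 / lam ≤ X ^ 4) (hε : 0 ≤ ε) (hε1 : ε ≤ 1 / 1000) :
    X ^ (1 / 3 : ℝ) ≤
      (1 * (X ^ 4 + 2 / lam) ^ 3) ^ (-(4 * ε)) * (X ^ (4 / 9 : ℝ) / (1 + C)) - 2 * ε := by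
  have hX1 : 1 ≤ X := by linarith
  have hX0 : 0 < X := by linarith
  have hpos : 0 < 1 * (X ^ 4 + 2 / lam) ^ 3 := by positivity
  have hle : 1 * (X ^ 4 + 2 / lam) ^ 3 ≤ X ^ 13 := by
    calc 1 * (X ^ 4 + 2 / lam) ^ 3 ≤ 1 * (2 * X ^ 4) ^ 3 := by
          gcongr
          linarith
      _ = 8 * X ^ 12 := by ring
      _ ≤ X * X ^ 12 := by gcongr
      _ = X ^ 13 := by ring
  have h1 : X ^ (-(52 / 1000) : ℝ) ≤ (1 * (X ^ 4 + 2 / lam) ^ 3) ^ (-(4 * ε)) := by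
    calc X ^ (-(52 / 1000) : ℝ) ≤ X ^ (-(52 * ε)) :=
          Real.rpow_le_rpow_of_exponent_le hX1 (by linarith)
      _ = (X ^ 13) ^ (-(4 * ε)) := by
          rw [← Real.rpow_natCast X 13, ← Real.rpow_mul hX0.le]
          congr 1
          push_cast
          ring
      _ ≤ _ := Real.rpow_le_rpow_of_nonpos hpos hle (by linarith)
  have h6 : 2 * X ^ (1 / 3 : ℝ) ≤
      X ^ (-(52 / 1000) : ℝ) * (X ^ (4 / 9 : ℝ) / (1 + C)) := by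
    have h7 : X ^ (1 / 3 : ℝ) * X ^ (1 / 20 : ℝ) ≤ X ^ (-(52 / 1000) : ℝ) * X ^ (4 / 9 : ℝ) := by
      rw [← Real.rpow_add hX0, ← Real.rpow_add hX0]
      exact Real.rpow_le_rpow_of_exponent_le hX1 (by norm_num)
    have h8 : 2 * (1 + C) * X ^ (1 / 3 : ℝ) ≤ X ^ (-(52 / 1000) : ℝ) * X ^ (4 / 9 : ℝ) := by
      calc 2 * (1 + C) * X ^ (1 / 3 : ℝ) ≤ X ^ (1 / 20 : ℝ) * X ^ (1 / 3 : ℝ) :=
            mul_le_mul_of_nonneg_right hXC (by positivity)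
        _ = X ^ (1 / 3 : ℝ) * X ^ (1 / 20 : ℝ) := mul_comm _ _
        _ ≤ _ := h7
    have e1 : X ^ (-(52 / 1000) : ℝ) * (X ^ (4 / 9 : ℝ) / (1 + C)) =
        (X ^ (-(52 / 1000) : ℝ) * X ^ (4 / 9 : ℝ)) / (1 + C) := by ring
    rw [e1, le_div_iff₀ (by positivity)]
    calc 2 * X ^ (1 / 3 : ℝ) * (1 + C) = 2 * (1 + C) * X ^ (1 / 3 : ℝ) := by ring
      _ ≤ _ := h8
  have h9 : X ^ (-(52 / 1000) : ℝ) * (X ^ (4 / 9 : ℝ) / (1 + C)) ≤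
      (1 * (X ^ 4 + 2 / lam) ^ 3) ^ (-(4 * ε)) * (X ^ (4 / 9 : ℝ) / (1 + C)) :=
    mul_le_mul_of_nonneg_right h1 (by positivity)
  have h10 : 1 ≤ X ^ (1 / 3 : ℝ) := Real.one_le_rpow hX1 (by norm_num)
  linarith

/-- One rung of the ladder. -/
theorem lad_mid3E (c1 : ℝ) (hc1 : 0 < c1) : ∃ e0 : ℕ, 1 ≤ e0 ∧ ∀ (n N W e : ℕ) [NeZero n]
    (K h0 lam ε : ℝ) (o : Tor n) (b : Finset (Tor n)) (h : Tor n → ℝ)
    (c : (Tor n → ℝ) → Nd n N → Nd n N → ℝ) (r S : ℕ),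
    e0 ≤ e → 0 < W → N = 4 * W → 4 * r ≤ S → 8 * 3 ^ S < n →
    0 < h0 → h0 ≤ 1 → 1 / 3 ^ (10 * e) ≤ lam → 0 ≤ ε → ε ≤ 1 / 1000 →
    100 * e ≤ r → h0⁻¹ ≤ ((3 : ℝ) ^ S) ^ (5 / 2 : ℝ) →
    (∀ g, Fam n h0 lam g → Local3 n N W e K c1 b g (c g)) → LowE n N b 1 h0 lam ε c →
    Fam n h0 lam h →
    LBn (c (HH n lam o (3 ^ (4 * r)) h)) (EE6 n N o b (3 ^ (4 * r))) (GG6 n N o (3 ^ S))
      (((3 : ℝ) ^ (4 * r)) ^ (1 / 3 : ℝ)) →
    LBn (c (HH n lam o (3 ^ r) h)) (EE6 n N o b (3 ^ r)) (GG6 n N o (3 ^ S))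
      (((3 : ℝ) ^ r) ^ (1 / 3 : ℝ)) := by
  obtain ⟨C, hC, hstep⟩ := step_mid3 c1 hc1
  obtain ⟨eg, heg, hground⟩ := num_ground3
  obtain ⟨e1, he1⟩ := pow_unbounded_of_one_lt (2 * (1 + C)) (show (1 : ℝ) < 3 by norm_num)
  refine ⟨max eg e1, heg.trans (le_max_left _ _), ?_⟩
  intro n N W e _ K h0 lam ε o b h c r S he hW hN hrS hSn hh0 hh01 hlam hε hε1
    hr hS hloc hlow hfam hLB
  have heg' : eg ≤ e := (le_max_left _ _).trans he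
  have he1' : e1 ≤ e := (le_max_right _ _).trans he
  have he0 : 1 ≤ e := heg.trans heg'
  have hlam0 : 0 < lam := lt_of_lt_of_le (by positivity) hlam
  have h4rS : (3 : ℕ) ^ (4 * r) ≤ 3 ^ S := Nat.pow_le_pow_right (by norm_num) hrS
  have hrr : (3 : ℕ) ^ r ≤ 3 ^ (4 * r) := Nat.pow_le_pow_right (by norm_num) (by omega)
  have h8 : (3 : ℕ) ^ S ≤ 8 * 3 ^ S := by omega
  have h4rn : (3 : ℕ) ^ (4 * r) < n := by omega
  have hrn : (3 : ℕ) ^ r ≤ n := by omega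
  have hfam4 : Fam n h0 lam (HH n lam o (3 ^ (4 * r)) h) := Fam_HH hlam0.le o (by positivity) hfam
  have hfam1 : Fam n h0 lam (HH n lam o (3 ^ r) h) := Fam_HH hlam0.le o (by positivity) hfam
  have hXe : ((3 : ℝ) ^ (4 * r)) ^ (1 / 3 : ℝ) = ((3 : ℝ) ^ r) ^ (4 / 3 : ℝ) := by
    rw [mul_comm 4 r, pow_mul, ← Real.rpow_natCast ((3 : ℝ) ^ r) 4,
      ← Real.rpow_mul (by positivity)]
    norm_num
  have hX1 : (1 : ℝ) ≤ (3 : ℝ) ^ r := one_le_pow₀ (by norm_num)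
  obtain ⟨hB1, hB2, hB3⟩ := lm3e_num_a (κ := 9 ^ e) (μ := 27 ^ e) hC hX1
    (one_le_pow₀ (by norm_num)) (one_le_pow₀ (by norm_num))
  rw [hXe] at hLB
  have hstep1 := hstep n N W e K o b (HH n lam o (3 ^ (4 * r)) h)
    (c (HH n lam o (3 ^ (4 * r)) h)) r (4 * r) (GG6 n N o (3 ^ S))
    (((3 : ℝ) ^ r) ^ (4 / 3 : ℝ)) (((3 : ℝ) ^ r) ^ (4 / 9 : ℝ) / (1 + C))
    hW hN (by omega) (by omega) h4rn
    (fun x => (hfam4.1 x).2) (fun x hx => HH_one hlam0.le o h4rn.le hfam hx) (hloc _ hfam4)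
    (disj_EG o _ h4rS hSn.le) hLB (by positivity) hB1 hB2 hB3
  have hsm := hground h0 lam e S heg' hh0 hlam (by omega) hS
  have hlow1 := hlow.prim (HH n lam o (3 ^ (4 * r)) h) (HH n lam o (3 ^ r) h) hfam4 hfam1
    (fun x => HH_mono hlam0.le o hrr h x)
    (EE6 n N o b (3 ^ r)) (GG6 n N o (3 ^ S)) (disj_EG o _ (hrr.trans h4rS) hSn.le)
    Finset.subset_union_left (by
      intro z hz hz0
      rcases mem_union.1 hz with hz | hz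
      · unfold EE6 at hz
        rcases mem_union.1 hz with hz | hz
        · exfalso
          apply hz0
          unfold hatb at hz
          exact mem_singleton.1 (mem_product.1 hz).1
        · have hx := (mem_product.1 hz).2
          rw [HH_one hlam0.le o hrn hfam hx]
          have hx4 : z.2 ∈ cube n o (3 ^ (4 * r)) := by
            unfold cube at hx ⊢
            rw [mem_image] at hx ⊢
            obtain ⟨y, -, hy⟩ := hx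
            exact ⟨fun i => ⟨(y i : ℕ), lt_of_lt_of_le (y i).2 hrr⟩, mem_univ _, hy⟩
          rw [HH_one hlam0.le o h4rn.le hfam hx4]
      · unfold GG6 at hz
        have hx := (mem_product.1 hz).2
        rw [HH_ground hlam0.le o (hrr.trans h4rS) hSn.le hfam (by push_cast; exact hsm) hx,
          HH_ground hlam0.le o h4rS hSn.le hfam (by push_cast; exact hsm) hx])
    (((3 ^ (4 * r) : ℕ) + 2 / lam) ^ 3) (by
      have h1r : (1 : ℝ) ≤ ((3 ^ (4 * r) : ℕ) : ℝ) := by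
        push_cast; exact one_le_pow₀ (by norm_num)
      have h2 : (1 : ℝ) ≤ ((3 ^ (4 * r) : ℕ) : ℝ) + 2 / lam := by
        have : 0 ≤ 2 / lam := by positivity
        linarith
      have h3 : (1 : ℝ) ≤ (((3 ^ (4 * r) : ℕ) : ℝ) + 2 / lam) ^ 3 := one_le_pow₀ h2
      linarith)
    (sum_lowered hlam0 o hrr h) (((3 : ℝ) ^ r) ^ (4 / 9 : ℝ) / (1 + C)) (by positivity)
    hstep1
  have hX8 : (8 : ℝ) ≤ (3 : ℝ) ^ r := by
    calc (8 : ℝ) ≤ 3 ^ 2 := by norm_num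
      _ ≤ 3 ^ r := pow_le_pow_right₀ (by norm_num) (by omega)
  have hXC : 2 * (1 + C) ≤ ((3 : ℝ) ^ r) ^ (1 / 20 : ℝ) := by
    calc 2 * (1 + C) ≤ (3 : ℝ) ^ e1 := he1.le
      _ ≤ (3 : ℝ) ^ e := pow_le_pow_right₀ (by norm_num) he1'
      _ = (3 : ℝ) ^ (e : ℝ) := (Real.rpow_natCast _ _).symm
      _ ≤ (3 : ℝ) ^ ((r : ℝ) * (1 / 20)) := by
          apply Real.rpow_le_rpow_of_exponent_le (by norm_num)
          have : (100 * e : ℝ) ≤ r := by exact_mod_cast hr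
          have h0e : (0 : ℝ) ≤ e := Nat.cast_nonneg _
          linarith
      _ = ((3 : ℝ) ^ r) ^ (1 / 20 : ℝ) := by
          rw [Real.rpow_mul (by norm_num), Real.rpow_natCast]
  have h2l : 2 / lam ≤ ((3 : ℝ) ^ r) ^ 4 := by
    have h1 : 2 / lam ≤ 2 * 3 ^ (10 * e) := by
      rw [div_le_iff₀ hlam0]
      have h3 := mul_le_mul_of_nonneg_left hlam (show (0 : ℝ) ≤ 2 * 3 ^ (10 * e) by positivity)
      have e2 : (2 : ℝ) * 3 ^ (10 * e) * (1 / 3 ^ (10 * e)) = 2 := by field_simp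
      linarith
    have h2 : (2 : ℝ) * 3 ^ (10 * e) ≤ ((3 : ℝ) ^ r) ^ 4 := by
      calc (2 : ℝ) * 3 ^ (10 * e) ≤ 3 ^ 1 * 3 ^ (10 * e) := by
            apply mul_le_mul_of_nonneg_right (by norm_num) (by positivity)
        _ = 3 ^ (1 + 10 * e) := (pow_add _ _ _).symm
        _ ≤ 3 ^ (r * 4) := pow_le_pow_right₀ (by norm_num) (by omega)
        _ = _ := pow_mul _ _ _
    exact h1.trans h2
  have hnum := lm3e_num_b hC hX8 hXC hlam0 h2l hε hε1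
  intro f hf hg
  refine le_trans hnum ?_
  have h5 := hlow1 f hf hg
  have e3 : ((3 ^ (4 * r) : ℕ) : ℝ) = ((3 : ℝ) ^ r) ^ 4 := by
    push_cast
    rw [mul_comm 4 r, pow_mul]
  rw [e3] at h5
  exact h5

end Vale.Agent.P361.LRO.Ind3
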