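import Vale.Agent.P361.LRO.Ind3.Cells

/-!
# P361 LRO, stage 3, package E1: energy of the cell averages (helper232)
-/

namespace Vale.Agent.P361.LRO.Ind3

open Finset Vale.Agent.P361.LRO _root_.P361.LRO Vale.Agent.P361.LRO.Ind

namespace Cl

theorem lay_eq (N W w s : ℕ) : lay N W w s = lay N N 0 (w * W + s) := by
  unfold lay
  by_cases h : 1 + w * W + s < N + 1
  · have h' : 1 + 0 * N + (w * W + s) < N + 1 := by
      rw [Nat.zero_mul]; omega
    rw [dif_pos h, dif_pos h']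
    apply Fin.ext
    show 1 + w * W + s = 1 + 0 * N + (w * W + s)
    rw [Nat.zero_mul]
    omega
  · have h' : ¬ (1 + 0 * N + (w * W + s) < N + 1) := by
      rw [Nat.zero_mul]; omega
    rw [dif_neg h, dif_neg h']

theorem sum_four {N W : ℕ} (hN : N = 4 * W) (f : ℕ → ℝ) :
    ∑ t ∈ range N, f t = ∑ w ∈ range 4, ∑ s ∈ range W, f (w * W + s) := by
  have hN' : N = W + W + W + W := by omega
  rw [hN', sum_range_add, sum_range_add, sum_range_add]
  simp only [sum_range_succ, sum_range_zero, Nat.zero_mul, Nat.one_mul, zero_add]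
  have h2 : 2 * W = W + W := by ring
  have h3 : 3 * W = W + W + W := by ring
  rw [h2, h3]

theorem UC_av {n N W e : ℕ} (hW : 0 < W) (hN : N = 4 * W) (o : Tor n) (a : Nd n N → ℝ)
    (x y z : ℕ) : UC n N e o a x y z =
      (1 / 4) * ∑ w ∈ range 4, av n N W e o a (x, y, z, w) := by
  have hW' : (0 : ℝ) < W := by exact_mod_cast hW
  have hN' : (N : ℝ) = 4 * W := by rw [hN]; push_cast; ring
  have h1 : ∀ w, av n N W e o a (x, y, z, w) = (1 / ((W : ℝ) * 27 ^ e)) *
      ∑ i ∈ range (3 ^ e), ∑ j ∈ range (3 ^ e), ∑ k ∈ range (3 ^ e), ∑ s ∈ range W,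
        a (lay N N 0 (w * W + s), pt n o (3 ^ e * x + i) (3 ^ e * y + j) (3 ^ e * z + k)) := by
    intro w
    unfold av JJ
    rw [sum4 (3 ^ e) (3 ^ e) (3 ^ e) W (fun i j k s =>
      a (lay N N 0 (w * W + s), pt n o (3 ^ e * x + i) (3 ^ e * y + j) (3 ^ e * z + k)))]
    congr 1
    refine sum_congr rfl fun q _ => ?_
    unfold nod
    rw [lay_eq]
  have h2 : ∑ w ∈ range 4, av n N W e o a (x, y, z, w) = (1 / ((W : ℝ) * 27 ^ e)) *
      ∑ i ∈ range (3 ^ e), ∑ j ∈ range (3 ^ e), ∑ k ∈ range (3 ^ e), ∑ t ∈ range N,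
        a (lay N N 0 t, pt n o (3 ^ e * x + i) (3 ^ e * y + j) (3 ^ e * z + k)) := by
    rw [sum_congr rfl (fun w _ => h1 w), ← mul_sum]
    congr 1
    rw [sum_comm]
    refine sum_congr rfl fun i _ => ?_
    rw [sum_comm]
    refine sum_congr rfl fun j _ => ?_
    rw [sum_comm]
    refine sum_congr rfl fun k _ => ?_
    rw [sum_four hN]
  rw [h2]
  unfold UC
  rw [hN', ← mul_assoc]
  congr 1
  field_simp

/-- the opposite quarter -/
def fl (w : ℕ) : ℕ := (w + 2) % 4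

theorem fl_lt (w : ℕ) : fl w < 4 := Nat.mod_lt _ (by norm_num)

theorem fl_dist {w : ℕ} (hw : w < 4) : w + 2 ≤ fl w ∨ fl w + 2 ≤ w := by
  unfold fl
  omega

theorem sum_fl (g : ℕ → ℝ) : ∑ w ∈ range 4, g (fl w) = ∑ w ∈ range 4, g w := by
  simp only [sum_range_succ, sum_range_zero, fl]
  norm_num
  ring

theorem sq4 (a b c d : ℝ) : (1 / 4 * (a + b + c + d)) ^ 2 ≤
    1 / 4 * (a ^ 2 + b ^ 2 + c ^ 2 + d ^ 2) := by
  nlinarith [sq_nonneg (a - b), sq_nonneg (a - c), sq_nonneg (a - d), sq_nonneg (b - c),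
    sq_nonneg (b - d), sq_nonneg (c - d)]

theorem diff_le {n N W e : ℕ} (hW : 0 < W) (hN : N = 4 * W) (o : Tor n) (a : Nd n N → ℝ)
    (x y z x' y' z' : ℕ) :
    (UC n N e o a x' y' z' - UC n N e o a x y z) ^ 2 ≤
      1 / 4 * ∑ w ∈ range 4,
        (av n N W e o a (x, y, z, w) - av n N W e o a (x', y', z', fl w)) ^ 2 := by
  rw [UC_av hW hN, UC_av hW hN, ← sum_fl (fun w => av n N W e o a (x', y', z', w))]
  simp only [sum_range_succ, sum_range_zero, zero_add]
  have h := sq4 (av n N W e o a (x, y, z, 0) - av n N W e o a (x', y', z', fl 0))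
    (av n N W e o a (x, y, z, 1) - av n N W e o a (x', y', z', fl 1))
    (av n N W e o a (x, y, z, 2) - av n N W e o a (x', y', z', fl 2))
    (av n N W e o a (x, y, z, 3) - av n N W e o a (x', y', z', fl 3))
  refine le_trans (le_of_eq ?_) h
  ring

/-- one direction -/
theorem dir_le {n N W e : ℕ} (hW : 0 < W) (hN : N = 4 * W) (o : Tor n) (a : Nd n N → ℝ)
    (A B C i j k : ℕ) :
    ∑ x ∈ range A, ∑ y ∈ range B, ∑ z ∈ range C,
      (UC n N e o a (x + i) (y + j) (z + k) - UC n N e o a x y z) ^ 2 ≤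
      1 / 4 * ∑ P ∈ range A ×ˢ (range B ×ˢ (range C ×ˢ range 4)),
        (av n N W e o a P -
          av n N W e o a (P.1 + i, P.2.1 + j, P.2.2.1 + k, fl P.2.2.2)) ^ 2 := by
  have h := sum4 A B C 4 (fun x y z w => (av n N W e o a (x, y, z, w) -
    av n N W e o a (x + i, y + j, z + k, fl w)) ^ 2)
  have h' : ∑ P ∈ range A ×ˢ (range B ×ˢ (range C ×ˢ range 4)),
        (av n N W e o a P -
          av n N W e o a (P.1 + i, P.2.1 + j, P.2.2.1 + k, fl P.2.2.2)) ^ 2 =
      ∑ x ∈ range A, ∑ y ∈ range B, ∑ z ∈ range C, ∑ w ∈ range 4,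
        (av n N W e o a (x, y, z, w) - av n N W e o a (x + i, y + j, z + k, fl w)) ^ 2 :=
    h.symm
  rw [h']
  simp only [mul_sum (s := range A), mul_sum (s := range B), mul_sum (s := range C)]
  exact sum_le_sum fun x _ => sum_le_sum fun y _ => sum_le_sum fun z _ =>
    diff_le hW hN o a x y z _ _ _

end Cl

open Cl in
/-- Energy of the cell averages (whole circle). -/
theorem E4_le3 {n N W e : ℕ} [NeZero n] {K c1 : ℝ} {b : Finset (Tor n)} {h : Tor n → ℝ}
    {c : Nd n N → Nd n N → ℝ} (hW : 0 < W) (hN : N = 4 * W) (hc1 : 0 < c1)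
    (hc : Local3 n N W e K c1 b h c) (o : Tor n) (S : ℕ) (hS : 3 ^ e * S < n)
    (h1 : ∀ x ∈ cube n o (3 ^ e * S), h x = 1) (a : Nd n N → ℝ) :
    c1 * 27 ^ e * E4 S 1 (UT n N e o a) ≤ 16 * netK c a := by
  have hK0 : 0 ≤ netK c a := netK_nonneg hc.nonneg a
  set R0 : Finset Ix := range (S - 1) ×ˢ (range S ×ˢ (range S ×ˢ range 4)) with hR0
  set R1 : Finset Ix := range S ×ˢ (range (S - 1) ×ˢ (range S ×ˢ range 4)) with hR1
  set R2 : Finset Ix := range S ×ˢ (range S ×ˢ (range (S - 1) ×ˢ range 4)) with hR2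
  set sh : ℕ → ℕ → ℕ → Ix → Ix := fun i j k P =>
    (P.1 + i, P.2.1 + j, P.2.2.1 + k, fl P.2.2.2) with hsh
  have m0 : ∀ {P : Ix}, P ∈ R0 ↔ P.1 < S - 1 ∧ P.2.1 < S ∧ P.2.2.1 < S ∧ P.2.2.2 < 4 := by
    intro P; simp [hR0]
  have m1 : ∀ {P : Ix}, P ∈ R1 ↔ P.1 < S ∧ P.2.1 < S - 1 ∧ P.2.2.1 < S ∧ P.2.2.2 < 4 := by
    intro P; simp [hR1]
  have m2 : ∀ {P : Ix}, P ∈ R2 ↔ P.1 < S ∧ P.2.1 < S ∧ P.2.2.1 < S - 1 ∧ P.2.2.2 < 4 := by
    intro P; simp [hR2]
  have hfam := fam_le hW hN hc1 hc o hS.le h1 a (ι := Ix ⊕ (Ix ⊕ Ix))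
    (R0.disjSum (R1.disjSum R2)) (Sum.elim id (Sum.elim id id))
    (Sum.elim (sh 1 0 0) (Sum.elim (sh 0 1 0) (sh 0 0 1)))
    (by
      rintro (P | P | P) hP
      · rw [inl_mem_disjSum, m0] at hP
        exact ⟨by show P.1 < S; omega, hP.2⟩
      · rw [inr_mem_disjSum, inl_mem_disjSum, m1] at hP
        exact ⟨hP.1, by show P.2.1 < S; omega, hP.2.2⟩
      · rw [inr_mem_disjSum, inr_mem_disjSum, m2] at hP
        exact ⟨hP.1, hP.2.1, by show P.2.2.1 < S; omega, hP.2.2.2⟩)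
    (by
      rintro (P | P | P) hP
      · rw [inl_mem_disjSum, m0] at hP
        exact ⟨by show P.1 + 1 < S; omega, by show P.2.1 + 0 < S; omega,
          by show P.2.2.1 + 0 < S; omega, fl_lt _⟩
      · rw [inr_mem_disjSum, inl_mem_disjSum, m1] at hP
        exact ⟨by show P.1 + 0 < S; omega, by show P.2.1 + 1 < S; omega,
          by show P.2.2.1 + 0 < S; omega, fl_lt _⟩
      · rw [inr_mem_disjSum, inr_mem_disjSum, m2] at hP
        exact ⟨by show P.1 + 0 < S; omega, by show P.2.1 + 0 < S; omega,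
          by show P.2.2.1 + 1 < S; omega, fl_lt _⟩)
    (by
      have key : ∀ (P : Ix) (i j k : ℕ), i ≤ 1 → j ≤ 1 → k ≤ 1 → P.2.2.2 < 4 →
          Adj P (sh i j k P) := by
        intro P i j k hi hj hk hw
        refine ⟨⟨P.1, P.2.1, P.2.2.1, ?_⟩, fl_dist hw⟩
        simp only [hsh]
        omega
      rintro (P | P | P) hP
      · rw [inl_mem_disjSum, m0] at hP
        exact key P 1 0 0 le_rfl (by omega) (by omega) hP.2.2.2
      · rw [inr_mem_disjSum, inl_mem_disjSum, m1] at hP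
        exact key P 0 1 0 (by omega) le_rfl (by omega) hP.2.2.2
      · rw [inr_mem_disjSum, inr_mem_disjSum, m2] at hP
        exact key P 0 0 1 (by omega) (by omega) le_rfl hP.2.2.2)
    (by
      rintro (P | P | P) _ (P' | P' | P') _ e1 e2
      all_goals
        simp only [Sum.elim_inl, Sum.elim_inr, id_eq] at e1 e2
        subst e1
        first
        | rfl
        | (exfalso
           have g1 := congrArg (fun R : Ix => R.1) e2
           have g2 := congrArg (fun R : Ix => R.2.1) e2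
           have g3 := congrArg (fun R : Ix => R.2.2.1) e2
           simp only [hsh] at g1 g2 g3
           omega))
  rw [sum_disjSum, sum_disjSum] at hfam
  simp only [Sum.elim_inl, Sum.elim_inr, id_eq] at hfam
  have d0 := dir_le (e := e) hW hN o a (S - 1) S S 1 0 0
  have d1 := dir_le (e := e) hW hN o a S (S - 1) S 0 1 0
  have d2 := dir_le (e := e) hW hN o a S S (S - 1) 0 0 1
  have hE : E4 S 1 (UT n N e o a) =
      (∑ x ∈ range (S - 1), ∑ y ∈ range S, ∑ z ∈ range S,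
        (UC n N e o a (x + 1) (y + 0) (z + 0) - UC n N e o a x y z) ^ 2) +
      (∑ x ∈ range S, ∑ y ∈ range (S - 1), ∑ z ∈ range S,
        (UC n N e o a (x + 0) (y + 1) (z + 0) - UC n N e o a x y z) ^ 2) +
      (∑ x ∈ range S, ∑ y ∈ range S, ∑ z ∈ range (S - 1),
        (UC n N e o a (x + 0) (y + 0) (z + 1) - UC n N e o a x y z) ^ 2) := by
    unfold E4 Esp Eti UT
    simp
  rw [hE]
  have h27 : 0 < c1 * 27 ^ e := by positivity
  have hsum := add_le_add (add_le_add d0 d1) d2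
  have hm := mul_le_mul_of_nonneg_left hsum h27.le
  refine hm.trans ?_
  have hfam2 := hfam
  simp only [hsh] at hfam2
  nlinarith [hfam2]

end Vale.Agent.P361.LRO.Ind3
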