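import Vale.Agent.P361.LRO.Ind3.Defs
import Vale.Agent.P361.LRO.Ind.EnergyB

/-!
# P361 LRO stage 3, E2: deviation from the cell averages (whole circle)
-/

namespace Vale.Agent.P361.LRO.Ind3

open Finset Vale.Agent.P361.LRO _root_.P361.LRO Vale.Agent.P361.LRO.Ind

namespace E760

/-- Poincaré inequality for four groups on the path `2 - 0 - 3 - 1`. -/
theorem group_var {ι : Type} (P : Finset ι) (hP : 0 < P.card) (g : ℕ → ι → ℝ) :
    ∑ i ∈ range 4, ∑ u ∈ P, (g i u - (1 / (4 * (P.card : ℝ))) * ∑ j ∈ range 4, ∑ v ∈ P, g j v) ^ 2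
      ≤ (8 / (P.card : ℝ)) * ((∑ u ∈ P, ∑ v ∈ P, (g 0 u - g 2 v) ^ 2)
        + (∑ u ∈ P, ∑ v ∈ P, (g 0 u - g 3 v) ^ 2) + ∑ u ∈ P, ∑ v ∈ P, (g 1 u - g 3 v) ^ 2) := by
  set Q : ℝ := (P.card : ℝ) with hQ
  have hQ0 : 0 < Q := by rw [hQ]; exact_mod_cast hP
  set s : ℕ → ℝ := fun i => ∑ u ∈ P, g i u with hs
  set q : ℕ → ℝ := fun i => ∑ u ∈ P, g i u ^ 2 with hq
  have hE : ∀ i j, ∑ u ∈ P, ∑ v ∈ P, (g i u - g j v) ^ 2 = Q * q i + Q * q j - 2 * (s i * s j) := by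
    intro i j
    have h1 : ∀ u ∈ P, ∑ v ∈ P, (g i u - g j v) ^ 2 = Q * g i u ^ 2 - 2 * g i u * s j + q j := by
      intro u _
      have h2 : ∀ v ∈ P, (g i u - g j v) ^ 2 = g i u ^ 2 - 2 * g i u * g j v + g j v ^ 2 :=
        fun v _ => by ring
      rw [sum_congr rfl h2, sum_add_distrib, sum_sub_distrib, sum_const, nsmul_eq_mul, ← mul_sum]
    rw [sum_congr rfl h1, sum_add_distrib, sum_sub_distrib, ← mul_sum, sum_const, nsmul_eq_mul]
    have h3 : ∑ u ∈ P, 2 * g i u * s j = 2 * (s i * s j) := by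
      rw [← sum_mul, ← mul_sum]; ring
    rw [h3]
    ring
  have hcs : ∀ i, s i ^ 2 ≤ Q * q i := by
    intro i
    have := sq_sum_le_card_mul_sum_sq (s := P) (f := g i)
    simpa [hs, hq, hQ] using this
  set U : ℝ := (1 / (4 * Q)) * ∑ j ∈ range 4, s j with hU
  have hL : ∀ i, ∑ u ∈ P, (g i u - U) ^ 2 = q i - 2 * U * s i + Q * U ^ 2 := by
    intro i
    have h2 : ∀ u ∈ P, (g i u - U) ^ 2 = g i u ^ 2 - 2 * U * g i u + U ^ 2 := fun u _ => by ring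
    rw [sum_congr rfl h2, sum_add_distrib, sum_sub_distrib, sum_const, nsmul_eq_mul, ← mul_sum]
  rw [sum_congr rfl fun i _ => hL i, hE, hE, hE]
  have hUs : 4 * Q * U = s 0 + s 1 + s 2 + s 3 := by
    rw [hU]
    simp only [sum_range_succ, sum_range_zero, zero_add]
    field_simp
  simp only [sum_range_succ, sum_range_zero, zero_add]
  rw [div_mul_eq_mul_div, le_div_iff₀ hQ0]
  have c0 := hcs 0
  have c1 := hcs 1
  have c2 := hcs 2
  have c3 := hcs 3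
  have e1 : (q 0 - 2 * U * s 0 + Q * U ^ 2 + (q 1 - 2 * U * s 1 + Q * U ^ 2)
      + (q 2 - 2 * U * s 2 + Q * U ^ 2) + (q 3 - 2 * U * s 3 + Q * U ^ 2)) * Q
      = Q * q 0 + Q * q 1 + Q * q 2 + Q * q 3 - (s 0 + s 1 + s 2 + s 3) ^ 2 / 4 := by
    rw [← hUs]; 
    have : (4 * Q * U) ^ 2 / 4 = 2 * Q * U * (4 * Q * U) - 4 * Q ^ 2 * U ^ 2 := by ring
    rw [this, hUs]
    ring
  rw [e1]
  nlinarith [sq_nonneg (s 0 - s 2), sq_nonneg (s 0 - s 3), sq_nonneg (s 1 - s 3),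
    sq_nonneg (s 0 - s 1), sq_nonneg (s 2 - s 3), sq_nonneg (s 1 - s 2),
    sq_nonneg (s 0 - s 2 + (s 0 - s 3)), sq_nonneg (s 0 - s 3 + (s 1 - s 3)),
    sq_nonneg (s 0 + s 1 - s 2 - s 3), sq_nonneg (s 2 + s 1 - 2 * s 3), sq_nonneg (s 2 + s 1 - 2 * s 0),
    sq_nonneg (s 2 + s 3 - 2 * s 0), sq_nonneg (s 0 + s 1 - 2 * s 3)]

theorem quarter (W m : ℕ) (F : ℕ → ℝ) :
    ∑ t ∈ range (m * W), F t = ∑ i ∈ range m, ∑ t ∈ range W, F (i * W + t) := by
  induction m with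
  | zero => simp
  | succ m ih => rw [add_mul, one_mul, sum_range_add, ih, sum_range_succ]

theorem pt_mem {n : ℕ} [NeZero n] (o : Tor n) {w x y z : ℕ} (hx : x < w) (hy : y < w) (hz : z < w) :
    pt n o x y z ∈ cube n o w := by
  unfold cube pt
  refine Finset.mem_image.2 ⟨![⟨x, hx⟩, ⟨y, hy⟩, ⟨z, hz⟩], Finset.mem_univ _, ?_⟩
  congr 1
  funext i
  fin_cases i <;> simp

theorem pt_pt {n : ℕ} (o : Tor n) (x y z x' y' z' : ℕ) :
    pt n o (x + x') (y + y') (z + z') = pt n (pt n o x y z) x' y' z' := by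
  unfold pt
  funext i
  fin_cases i <;> simp [add_assoc] <;> rfl

theorem sum3 (A : ℕ) (f : ℕ × ℕ × ℕ → ℝ) : ∑ q ∈ range A ×ˢ range A ×ˢ range A, f q
    = ∑ x ∈ range A, ∑ y ∈ range A, ∑ z ∈ range A, f (x, y, z) := by
  rw [Finset.sum_product]
  refine sum_congr rfl fun x _ => ?_
  rw [Finset.sum_product]

end E760

open E760 E155

/-- deviation from the cell averages. -/
theorem dev_le3 {n N W e : ℕ} [NeZero n] {K c1 : ℝ} {b : Finset (Tor n)} {h : Tor n → ℝ}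
    {c : Nd n N → Nd n N → ℝ} (hW : 0 < W) (hN : N = 4 * W) (hc1 : 0 < c1)
    (hc : Local3 n N W e K c1 b h c) (o : Tor n) (S : ℕ) (hS : 3 ^ e * S < n)
    (h1 : ∀ x ∈ cube n o (3 ^ e * S), h x = 1) (a : Nd n N → ℝ) :
    c1 / N * DevC n N e o a S ≤ 1000 * netK c a := by
  classical
  obtain ⟨M, hM⟩ : ∃ M : ℕ, M = 3 ^ e := ⟨_, rfl⟩
  have hM0 : 0 < M := by rw [hM]; positivity
  have h27 : ((M : ℝ) * (M : ℝ) * (M : ℝ)) = 27 ^ e := by
    rw [hM]
    push_cast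
    rw [← mul_pow, ← mul_pow]
    norm_num
  have hWr : (0 : ℝ) < W := by exact_mod_cast hW
  have hNr : (N : ℝ) = 4 * W := by rw [hN]; push_cast; ring
  have hNpos : (0 : ℝ) < N := by rw [hNr]; positivity
  have hp27 : (0 : ℝ) < 27 ^ e := by positivity
  -- index sets
  obtain ⟨CS, hCS⟩ : ∃ CS : Finset (ℕ × ℕ × ℕ), CS = range S ×ˢ range S ×ˢ range S := ⟨_, rfl⟩
  obtain ⟨P3, hP3⟩ : ∃ P3 : Finset (ℕ × ℕ × ℕ), P3 = range M ×ˢ range M ×ˢ range M := ⟨_, rfl⟩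
  obtain ⟨P, hP⟩ : ∃ P : Finset ((ℕ × ℕ × ℕ) × ℕ), P = P3 ×ˢ range W := ⟨_, rfl⟩
  have hPcard : (P.card : ℝ) = 27 ^ e * W := by
    rw [hP, hP3]
    simp only [card_product, card_range]
    push_cast
    rw [← h27]
    ring
  have hPpos : 0 < P.card := by
    have : (0 : ℝ) < P.card := by rw [hPcard]; positivity
    exact_mod_cast this
  -- sites and nodes
  obtain ⟨site, hsite⟩ : ∃ site : (ℕ × ℕ × ℕ) → (ℕ × ℕ × ℕ) → Tor n, site = fun q p =>
    pt n o (M * q.1 + p.1) (M * q.2.1 + p.2.1) (M * q.2.2 + p.2.2) := ⟨_, rfl⟩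
  obtain ⟨nd, hnd⟩ : ∃ nd : (ℕ × ℕ × ℕ) → ℕ → ((ℕ × ℕ × ℕ) × ℕ) → Nd n N, nd = fun q i u =>
    (lay N N 0 (i * W + u.2), site q u.1) := ⟨_, rfl⟩
  have hCSmem : ∀ q ∈ CS, q.1 < S ∧ q.2.1 < S ∧ q.2.2 < S := by
    intro q hq
    rw [hCS] at hq
    simpa [Finset.mem_product] using hq
  have hP3mem : ∀ p ∈ P3, p.1 < M ∧ p.2.1 < M ∧ p.2.2 < M := by
    intro p hp
    rw [hP3] at hp
    simpa [Finset.mem_product] using hp
  have hPmem : ∀ u ∈ P, u.1 ∈ P3 ∧ u.2 < W := by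
    intro u hu
    rw [hP] at hu
    obtain ⟨h2, h3⟩ := Finset.mem_product.1 hu
    exact ⟨h2, Finset.mem_range.1 h3⟩
  have hlt : ∀ {x p : ℕ}, x < S → p < M → M * x + p < M * S := by
    intro x p hx hp
    calc M * x + p < M * x + M := by omega
      _ = M * (x + 1) := by ring
      _ ≤ M * S := Nat.mul_le_mul_left M (by omega)
  have hMS : M * S < n := by rw [hM]; exact hS
  have hhsite : ∀ q ∈ CS, ∀ p ∈ P3, h (site q p) = 1 := by
    intro q hq p hp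
    obtain ⟨q1, q2, q3⟩ := hCSmem q hq
    obtain ⟨p1, p2, p3⟩ := hP3mem p hp
    refine h1 _ ?_
    rw [hsite, ← hM]
    exact pt_mem o (hlt q1 p1) (hlt q2 p2) (hlt q3 p3)
  have hsite2 : ∀ q ∈ CS, ∀ p ∈ P3,
      site q p ∈ cube n (pt n o (M * q.1) (M * q.2.1) (M * q.2.2)) (2 * 3 ^ e) := by
    intro q hq p hp
    obtain ⟨p1, p2, p3⟩ := hP3mem p hp
    rw [hsite, ← hM]
    simp only
    rw [pt_pt]
    exact pt_mem _ (by omega) (by omega) (by omega)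
  have hlay : ∀ {i t : ℕ}, i < 4 → t < W → ((lay N N 0 (i * W + t) : Fin (N + 1)) : ℕ) = 1 + (i * W + t) := by
    intro i t hi ht
    have h2 : i * W + t < N := by
      rw [hN]
      calc i * W + t < i * W + W := by omega
        _ = (i + 1) * W := by ring
        _ ≤ 4 * W := Nat.mul_le_mul_right W (by omega)
    have := lay_val (N := N) (W := N) (m := 1) (w := 0) (j := i * W + t) (by omega) (by omega) h2
    rw [this]; ring
  have hndinj : ∀ i < 4, ∀ x ∈ CS ×ˢ P, ∀ y ∈ CS ×ˢ P, nd x.1 i x.2 = nd y.1 i y.2 → x = y := by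
    rintro i hi ⟨q, u⟩ hx ⟨q', u'⟩ hy he
    obtain ⟨hq, hu⟩ := Finset.mem_product.1 hx
    obtain ⟨hq', hu'⟩ := Finset.mem_product.1 hy
    simp only at hq hu hq' hu' he
    obtain ⟨q1, q2, q3⟩ := hCSmem q hq
    obtain ⟨q1', q2', q3'⟩ := hCSmem q' hq'
    obtain ⟨hup, hut⟩ := hPmem u hu
    obtain ⟨hup', hut'⟩ := hPmem u' hu'
    obtain ⟨p1, p2, p3⟩ := hP3mem u.1 hup
    obtain ⟨p1', p2', p3'⟩ := hP3mem u'.1 hup'
    rw [hnd, hsite] at he
    simp only at he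
    obtain ⟨e1, e2⟩ := Prod.ext_iff.1 he
    simp only at e1 e2
    obtain ⟨f1, f2, f3⟩ := pt_inj o (lt_trans (hlt q1 p1) hMS) (lt_trans (hlt q2 p2) hMS)
      (lt_trans (hlt q3 p3) hMS) (lt_trans (hlt q1' p1') hMS) (lt_trans (hlt q2' p2') hMS)
      (lt_trans (hlt q3' p3') hMS) e2
    have e3 := congrArg (fun k : Fin (N + 1) => (k : ℕ)) e1
    simp only [hlay hi hut, hlay hi hut'] at e3
    have hdm : ∀ {x p x' p' : ℕ}, p < M → p' < M → M * x + p = M * x' + p' → x = x' ∧ p = p' := by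
      intro x p x' p' hp hp' hh
      have e4 : (M * x + p) / M = x := by rw [Nat.mul_add_div hM0, Nat.div_eq_of_lt hp, add_zero]
      have e5 : (M * x' + p') / M = x' := by rw [Nat.mul_add_div hM0, Nat.div_eq_of_lt hp', add_zero]
      have e6 : x = x' := by rw [← e4, ← e5, hh]
      refine ⟨e6, ?_⟩
      subst e6
      omega
    obtain ⟨g1, g1'⟩ := hdm p1 p1' f1
    obtain ⟨g2, g2'⟩ := hdm p2 p2' f2
    obtain ⟨g3, g3'⟩ := hdm p3 p3' f3
    have g4 : u.2 = u'.2 := by omega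
    obtain ⟨x, y, z⟩ := q
    obtain ⟨x', y', z'⟩ := q'
    obtain ⟨⟨i1, i2, i3⟩, t⟩ := u
    obtain ⟨⟨i1', i2', i3'⟩, t'⟩ := u'
    simp only at g1 g1' g2 g2' g3 g3' g4
    subst g1 g1' g2 g2' g3 g3' g4
    rfl
  obtain ⟨F, hFdef⟩ : ∃ F : Nd n N → Nd n N → ℝ, F = fun x y => c x y * (a x - a y) ^ 2 := ⟨_, rfl⟩
  have hF0 : ∀ x y, 0 ≤ F x y := by
    intro x y; rw [hFdef]; exact mul_nonneg (hc.nonneg x y) (sq_nonneg _)
  have htot : ∀ i < 4, ∀ j < 4, ∑ q ∈ CS, ∑ u ∈ P, ∑ v ∈ P, F (nd q i u) (nd q j v)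
      ≤ 2 * netK c a := by
    intro i hi j hj
    have s1 : ∑ q ∈ CS, ∑ u ∈ P, ∑ v ∈ P, F (nd q i u) (nd q j v)
        ≤ ∑ q ∈ CS, ∑ u ∈ P, ∑ y, F (nd q i u) y := by
      refine sum_le_sum fun q hq => sum_le_sum fun u _ => ?_
      refine sum_inj_le P (fun v => nd q j v) ?_ (fun y => F (nd q i u) y) (fun y => hF0 _ y)
      intro v hv v' hv' he
      have := hndinj j hj (q, v) (Finset.mem_product.2 ⟨hq, hv⟩) (q, v')
        (Finset.mem_product.2 ⟨hq, hv'⟩) he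
      exact (Prod.ext_iff.1 this).2
    refine s1.trans ?_
    rw [← Finset.sum_product (f := fun x : (ℕ × ℕ × ℕ) × ((ℕ × ℕ × ℕ) × ℕ) =>
      ∑ y, F (nd x.1 i x.2) y)]
    refine (sum_inj_le (CS ×ˢ P) (fun x => nd x.1 i x.2) (hndinj i hi) (fun x => ∑ y, F x y)
      (fun x => sum_nonneg fun y _ => hF0 x y)).trans (le_of_eq ?_)
    unfold netK
    rw [hFdef]
    ring
  -- lower bound of the conductances
  have hlow : ∀ q ∈ CS, ∀ i j, i + 2 ≤ j → j < 4 →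
      ∑ u ∈ P, ∑ v ∈ P, (a (nd q i u) - a (nd q j v)) ^ 2
      ≤ ((N : ℝ) ^ 2 * 27 ^ e / c1) * ∑ u ∈ P, ∑ v ∈ P, F (nd q i u) (nd q j v) := by
    intro q hq i j hij hj
    rw [mul_sum]
    refine sum_le_sum fun u hu => ?_
    rw [mul_sum]
    refine sum_le_sum fun v hv => ?_
    obtain ⟨hup, hut⟩ := hPmem u hu
    obtain ⟨hvp, hvt⟩ := hPmem v hv
    have hl1 := hlay (i := i) (t := u.2) (by omega) hut
    have hl2 := hlay (i := j) (t := v.2) hj hvt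
    have hcc := hc.long (lay N N 0 (i * W + u.2)) (lay N N 0 (j * W + v.2))
      (pt n o (M * q.1) (M * q.2.1) (M * q.2.2)) (site q u.1) (site q v.1)
      (by
        intro h0
        rw [h0] at hl1
        simp only [Fin.val_zero] at hl1
        omega)
      (by
        rw [hl1, hl2]
        have : (i + 2) * W ≤ j * W := Nat.mul_le_mul_right W hij
        have e2 : (i + 2) * W = i * W + 2 * W := by ring
        omega)
      (hsite2 q hq u.1 hup) (hsite2 q hq v.1 hvp) (hhsite q hq u.1 hup) (hhsite q hq v.1 hvp)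
    have hFe : F (nd q i u) (nd q j v)
        = c (lay N N 0 (i * W + u.2), site q u.1) (lay N N 0 (j * W + v.2), site q v.1)
          * (a (nd q i u) - a (nd q j v)) ^ 2 := by
      rw [hFdef, hnd]
    rw [hFe]
    have hpos : (0 : ℝ) < (N : ℝ) ^ 2 * 27 ^ e := by positivity
    have h5 : 1 ≤ ((N : ℝ) ^ 2 * 27 ^ e / c1) *
        c (lay N N 0 (i * W + u.2), site q u.1) (lay N N 0 (j * W + v.2), site q v.1) := by
      have h6 := mul_le_mul_of_nonneg_left hcc (by positivity : 0 ≤ (N : ℝ) ^ 2 * 27 ^ e / c1)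
      have h7 : (N : ℝ) ^ 2 * 27 ^ e / c1 * (c1 / ((N : ℝ) ^ 2 * 27 ^ e)) = 1 := by
        field_simp
      linarith
    have h8 := mul_le_mul_of_nonneg_right h5 (sq_nonneg (a (nd q i u) - a (nd q j v)))
    rw [one_mul] at h8
    linarith
  -- one cell
  have hcell : ∀ q ∈ CS, ∑ p ∈ P3, ∑ t ∈ range N,
      (a (lay N N 0 t, site q p) - (1 / ((N : ℝ) * 27 ^ e)) * ∑ p ∈ P3, ∑ t ∈ range N,
        a (lay N N 0 t, site q p)) ^ 2 ≤
      (8 / (P.card : ℝ)) * ((N : ℝ) ^ 2 * 27 ^ e / c1) *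
        ((∑ u ∈ P, ∑ v ∈ P, F (nd q 0 u) (nd q 2 v))
        + (∑ u ∈ P, ∑ v ∈ P, F (nd q 0 u) (nd q 3 v))
        + ∑ u ∈ P, ∑ v ∈ P, F (nd q 1 u) (nd q 3 v)) := by
    intro q hq
    have hre : ∀ G : ℝ → ℝ, ∑ p ∈ P3, ∑ t ∈ range N, G (a (lay N N 0 t, site q p))
        = ∑ i ∈ range 4, ∑ u ∈ P, G (a (nd q i u)) := by
      intro G
      have r1 : ∀ i ∈ range 4, ∑ u ∈ P, G (a (nd q i u))
          = ∑ p ∈ P3, ∑ t ∈ range W, G (a (lay N N 0 (i * W + t), site q p)) := by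
        intro i _
        rw [hP, hnd, Finset.sum_product]
      refine Eq.trans ?_ (sum_congr rfl r1).symm
      refine Eq.trans ?_ Finset.sum_comm
      refine sum_congr rfl fun p _ => ?_
      have r2 := quarter W 4 (fun t => G (a (lay N N 0 t, site q p)))
      rw [← hN] at r2
      exact r2
    have hU : (1 / ((N : ℝ) * 27 ^ e)) * ∑ p ∈ P3, ∑ t ∈ range N, a (lay N N 0 t, site q p)
        = (1 / (4 * (P.card : ℝ))) * ∑ j ∈ range 4, ∑ v ∈ P, a (nd q j v) := by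
      rw [hre (fun x => x), hPcard, hNr]
      congr 1
      congr 1
      ring
    rw [hU, hre (fun x => (x - (1 / (4 * (P.card : ℝ))) * ∑ j ∈ range 4, ∑ v ∈ P, a (nd q j v)) ^ 2)]
    refine (group_var P hPpos (fun i u => a (nd q i u))).trans ?_
    rw [mul_assoc]
    refine mul_le_mul_of_nonneg_left ?_ (div_nonneg (by norm_num) (Nat.cast_nonneg _))
    have l1 := hlow q hq 0 2 (by omega) (by omega)
    have l2 := hlow q hq 0 3 (by omega) (by omega)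
    have l3 := hlow q hq 1 3 (by omega) (by omega)
    rw [mul_add, mul_add]
    linarith
  -- sum over the cells
  have hDev : DevC n N e o a S = ∑ q ∈ CS, ∑ p ∈ P3, ∑ t ∈ range N,
      (a (lay N N 0 t, site q p) - (1 / ((N : ℝ) * 27 ^ e)) * ∑ p ∈ P3, ∑ t ∈ range N,
        a (lay N N 0 t, site q p)) ^ 2 := by
    rw [hCS, hP3, sum3]
    unfold DevC UC
    refine sum_congr rfl fun x _ => sum_congr rfl fun y _ => sum_congr rfl fun z _ => ?_
    rw [sum3, sum3, hsite, hM]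
  have hsum : DevC n N e o a S ≤ (8 / (P.card : ℝ)) * ((N : ℝ) ^ 2 * 27 ^ e / c1) *
      (2 * netK c a + 2 * netK c a + 2 * netK c a) := by
    rw [hDev]
    refine (sum_le_sum hcell).trans ?_
    rw [← mul_sum, sum_add_distrib, sum_add_distrib]
    refine mul_le_mul_of_nonneg_left ?_ (mul_nonneg (div_nonneg (by norm_num)
      (Nat.cast_nonneg _)) (div_nonneg (mul_nonneg (sq_nonneg _) hp27.le) hc1.le))
    have t1 := htot 0 (by omega) 2 (by omega)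
    have t2 := htot 0 (by omega) 3 (by omega)
    have t3 := htot 1 (by omega) 3 (by omega)
    linarith
  have hK0 : 0 ≤ netK c a := by
    have := htot 0 (by omega) 2 (by omega)
    have h9 : 0 ≤ ∑ q ∈ CS, ∑ u ∈ P, ∑ v ∈ P, F (nd q 0 u) (nd q 2 v) :=
      sum_nonneg fun _ _ => sum_nonneg fun _ _ => sum_nonneg fun _ _ => hF0 _ _
    linarith
  have hfin : c1 / N * DevC n N e o a S ≤ c1 / N * ((8 / (P.card : ℝ)) * ((N : ℝ) ^ 2 * 27 ^ e / c1) *
      (2 * netK c a + 2 * netK c a + 2 * netK c a)) :=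
    mul_le_mul_of_nonneg_left hsum (by positivity)
  refine hfin.trans ?_
  have e9 : c1 / N * ((8 / (P.card : ℝ)) * ((N : ℝ) ^ 2 * 27 ^ e / c1) *
      (2 * netK c a + 2 * netK c a + 2 * netK c a)) = 192 * netK c a := by
    rw [hPcard, hNr]
    field_simp
    ring
  rw [e9]
  linarith

end Vale.Agent.P361.LRO.Ind3
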