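import Vale.Agent.P361.LRO.Ind3.Defs
import Vale.Agent.P361.LRO.Ind.GeoA
import Vale.Agent.P361.LRO.Ind.EnergyC

/-!
# P361 LRO stage 3, E3: contact energy on cells (helper683)
-/

namespace Vale.Agent.P361.LRO.Ind3

open Finset Vale.Agent.P361.LRO _root_.P361.LRO Vale.Agent.P361.LRO.Ind

namespace EC

/-- index box -/
def box3 (S : ℕ) : Finset (ℕ × ℕ × ℕ) := range S ×ˢ (range S ×ˢ range S)

lemma mem_box3 {S : ℕ} {q : ℕ × ℕ × ℕ} : q ∈ box3 S ↔ q.1 < S ∧ q.2.1 < S ∧ q.2.2 < S := by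
  simp [box3]

lemma card_box3 (S : ℕ) : (box3 S).card = S ^ 3 := by
  simp [box3]; ring

lemma sum_box3 (S : ℕ) (f : ℕ → ℕ → ℕ → ℝ) :
    ∑ x ∈ range S, ∑ y ∈ range S, ∑ z ∈ range S, f x y z =
      ∑ q ∈ box3 S, f q.1 q.2.1 q.2.2 := by
  unfold box3
  rw [Finset.sum_product]
  refine Finset.sum_congr rfl fun x _ => ?_
  rw [Finset.sum_product]

/-- the site `m` of the cell `q` -/
def site (n e : ℕ) (o : Tor n) (q m : ℕ × ℕ × ℕ) : Tor n :=
  pt n o (3 ^ e * q.1 + m.1) (3 ^ e * q.2.1 + m.2.1) (3 ^ e * q.2.2 + m.2.2)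

private lemma div_inj {M q q' m m' : ℕ} (hm : m < M) (hm' : m' < M)
    (h : M * q + m = M * q' + m') : q = q' ∧ m = m' := by
  have hM : 0 < M := by omega
  have h1 : (M * q + m) / M = q := by
    rw [Nat.mul_add_div hM, Nat.div_eq_of_lt hm, add_zero]
  have h2 : (M * q' + m') / M = q' := by
    rw [Nat.mul_add_div hM, Nat.div_eq_of_lt hm', add_zero]
  have h3 : q = q' := by rw [← h1, ← h2, h]
  subst h3
  exact ⟨rfl, by omega⟩

private lemma idx_lt {M S q m n : ℕ} (hq : q < S) (hm : m < M) (h : M * S ≤ n) :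
    M * q + m < n := by
  have : M * (q + 1) ≤ M * S := Nat.mul_le_mul_left _ hq
  have h2 : M * (q + 1) = M * q + M := by ring
  omega

lemma site_inj {n e : ℕ} [NeZero n] (o : Tor n) {S : ℕ} (hS : 3 ^ e * S ≤ n)
    {q q' m m' : ℕ × ℕ × ℕ} (hq : q ∈ box3 S) (hq' : q' ∈ box3 S)
    (hm : m ∈ box3 (3 ^ e)) (hm' : m' ∈ box3 (3 ^ e))
    (h : site n e o q m = site n e o q' m') : q = q' ∧ m = m' := by
  rw [mem_box3] at hq hq' hm hm'
  obtain ⟨h1, h2, h3⟩ := pt_inj o (idx_lt hq.1 hm.1 hS) (idx_lt hq.2.1 hm.2.1 hS)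
    (idx_lt hq.2.2 hm.2.2 hS) (idx_lt hq'.1 hm'.1 hS) (idx_lt hq'.2.1 hm'.2.1 hS)
    (idx_lt hq'.2.2 hm'.2.2 hS) h
  obtain ⟨a1, b1⟩ := div_inj hm.1 hm'.1 h1
  obtain ⟨a2, b2⟩ := div_inj hm.2.1 hm'.2.1 h2
  obtain ⟨a3, b3⟩ := div_inj hm.2.2 hm'.2.2 h3
  exact ⟨Prod.ext a1 (Prod.ext a2 a3), Prod.ext b1 (Prod.ext b2 b3)⟩

lemma site_mem_big {n e : ℕ} [NeZero n] (o : Tor n) {S : ℕ} {q m : ℕ × ℕ × ℕ} (hq : q ∈ box3 S)
    (hm : m ∈ box3 (3 ^ e)) : site n e o q m ∈ cube n o (3 ^ e * S) := by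
  rw [mem_box3] at hq hm
  rw [mem_cube_iff]
  exact ⟨_, idx_lt hq.1 hm.1 le_rfl, _, idx_lt hq.2.1 hm.2.1 le_rfl, _,
    idx_lt hq.2.2 hm.2.2 le_rfl, rfl⟩

lemma site_mem_cell {n e : ℕ} [NeZero n] (o : Tor n) {q m : ℕ × ℕ × ℕ}
    (hm : m ∈ box3 (3 ^ e)) :
    site n e o q m ∈ cube n (pt n o (3 ^ e * q.1) (3 ^ e * q.2.1) (3 ^ e * q.2.2))
      (2 * 3 ^ e) := by
  rw [mem_box3] at hm
  rw [mem_cube_iff]
  refine ⟨m.1, by omega, m.2.1, by omega, m.2.2, by omega, ?_⟩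
  rw [pt_pt]
  rfl

lemma lay_val {N t : ℕ} (ht : t < N) : ((lay N N 0 t : Fin (N + 1)) : ℕ) = 1 + t := by
  have h2 : 1 + 0 * N + t < N + 1 := by omega
  unfold lay
  rw [dif_pos h2]
  show 1 + 0 * N + t = 1 + t
  omega

/-- the node `(m, t)` of the cell `q` in the quarter `i` -/
def nd (n N W e : ℕ) (o : Tor n) (q : ℕ × ℕ × ℕ) (i : ℕ) (m : (ℕ × ℕ × ℕ) × ℕ) : Nd n N :=
  (lay N N 0 (i * W + m.2), site n e o q m.1)

/-- indices of the nodes of a cell in one quarter -/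
def cb (W e : ℕ) : Finset ((ℕ × ℕ × ℕ) × ℕ) := box3 (3 ^ e) ×ˢ range W

lemma card_cb (W e : ℕ) : (cb W e).card = 27 ^ e * W := by
  unfold cb
  rw [Finset.card_product, card_box3, Finset.card_range]
  congr 1
  rw [← pow_mul, mul_comm, pow_mul]
  norm_num

/-- average of `a` over the cell `q` and the quarter `i` -/
noncomputable def qa (n N W e : ℕ) (o : Tor n) (a : Nd n N → ℝ) (q : ℕ × ℕ × ℕ) (i : ℕ) : ℝ :=
  (1 / ((27 : ℝ) ^ e * W)) * ∑ m ∈ cb W e, a (nd n N W e o q i m)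

lemma nd_val {n N W e : ℕ} (hN : N = 4 * W) (o : Tor n) (q : ℕ × ℕ × ℕ) {i : ℕ} (hi : i < 4)
    {m : (ℕ × ℕ × ℕ) × ℕ} (hm : m ∈ cb W e) :
    (((nd n N W e o q i m).1 : Fin (N + 1)) : ℕ) = 1 + (i * W + m.2) := by
  have h1 : m.2 < W := by
    unfold cb at hm
    exact Finset.mem_range.1 (Finset.mem_product.1 hm).2
  have h2 : i * W + m.2 < N := by
    have : (i + 1) * W ≤ 4 * W := Nat.mul_le_mul_right _ hi
    have h3 : (i + 1) * W = i * W + W := by ring
    omega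
  exact lay_val h2

lemma nd_inj {n N W e : ℕ} [NeZero n] (hN : N = 4 * W) (o : Tor n) {S : ℕ} (hS : 3 ^ e * S ≤ n)
    {q q' : ℕ × ℕ × ℕ} (hq : q ∈ box3 S) (hq' : q' ∈ box3 S) {i : ℕ} (hi : i < 4)
    {m m' : (ℕ × ℕ × ℕ) × ℕ} (hm : m ∈ cb W e) (hm' : m' ∈ cb W e)
    (h : nd n N W e o q i m = nd n N W e o q' i m') : q = q' ∧ m = m' := by
  have h1 := nd_val (n := n) hN o q hi hm
  have h2 := nd_val (n := n) hN o q' hi hm'
  rw [h, h2] at h1
  unfold cb at hm hm'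
  obtain ⟨e1, e2⟩ := site_inj o hS hq hq' (Finset.mem_product.1 hm).1
    (Finset.mem_product.1 hm').1 (congrArg Prod.snd h)
  exact ⟨e1, Prod.ext e2 (by omega)⟩

/-- `U` is the mean of the four quarter averages. -/
lemma UC_eq {n N W e : ℕ} (hW : 0 < W) (hN : N = 4 * W) (o : Tor n) (a : Nd n N → ℝ)
    (q : ℕ × ℕ × ℕ) :
    UC n N e o a q.1 q.2.1 q.2.2 = (1 / 4) * (qa n N W e o a q 0 + qa n N W e o a q 1 +
      qa n N W e o a q 2 + qa n N W e o a q 3) := by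
  have hWR : (0 : ℝ) < W := by exact_mod_cast hW
  have h1 : ∀ m : ℕ × ℕ × ℕ, ∑ t ∈ range N, a (lay N N 0 t, site n e o q m) =
      ∑ t ∈ range W, a (lay N N 0 (0 * W + t), site n e o q m) +
      ∑ t ∈ range W, a (lay N N 0 (1 * W + t), site n e o q m) +
      ∑ t ∈ range W, a (lay N N 0 (2 * W + t), site n e o q m) +
      ∑ t ∈ range W, a (lay N N 0 (3 * W + t), site n e o q m) := by
    intro m
    have h2 : range N = range (W + W + W + W) := by congr 1; omega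
    rw [h2, Finset.sum_range_add, Finset.sum_range_add, Finset.sum_range_add]
    have e0 : ∀ t, 0 * W + t = t := by intro t; omega
    have e1 : ∀ t, 1 * W + t = W + t := by intro t; omega
    have e2 : ∀ t, 2 * W + t = W + W + t := by intro t; omega
    have e3 : ∀ t, 3 * W + t = W + W + W + t := by intro t; omega
    simp only [e0, e1, e2, e3]
  unfold UC
  rw [sum_box3 (3 ^ e) (fun i j k => ∑ t ∈ range N, a (lay N N 0 t,
    pt n o (3 ^ e * q.1 + i) (3 ^ e * q.2.1 + j) (3 ^ e * q.2.2 + k)))]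
  have h3 : ∑ m ∈ box3 (3 ^ e), ∑ t ∈ range N, a (lay N N 0 t,
      pt n o (3 ^ e * q.1 + m.1) (3 ^ e * q.2.1 + m.2.1) (3 ^ e * q.2.2 + m.2.2)) =
      ∑ m ∈ cb W e, a (nd n N W e o q 0 m) + ∑ m ∈ cb W e, a (nd n N W e o q 1 m) +
      ∑ m ∈ cb W e, a (nd n N W e o q 2 m) + ∑ m ∈ cb W e, a (nd n N W e o q 3 m) := by
    unfold cb nd
    rw [Finset.sum_product, Finset.sum_product, Finset.sum_product, Finset.sum_product,
      ← Finset.sum_add_distrib, ← Finset.sum_add_distrib, ← Finset.sum_add_distrib]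
    exact Finset.sum_congr rfl fun m _ => h1 m
  rw [h3]
  unfold qa
  have hN' : (N : ℝ) = 4 * W := by rw [hN]; push_cast; ring
  rw [hN']
  field_simp

/-- Jensen for pairs. -/
lemma jensen_pairs {ι : Type} (s : Finset ι) (A B : ι → ℝ) :
    (∑ i ∈ s, A i - ∑ j ∈ s, B j) ^ 2 ≤ ∑ i ∈ s, ∑ j ∈ s, (A i - B j) ^ 2 := by
  rcases s.eq_empty_or_nonempty with rfl | hs
  · simp
  have hc : (0 : ℝ) < s.card := by exact_mod_cast hs.card_pos
  have h1 : ∑ q ∈ s ×ˢ s, (A q.1 - B q.2) = s.card * (∑ j ∈ s, A j - ∑ i ∈ s, B i) := by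
    rw [Finset.sum_product]
    simp only [Finset.sum_sub_distrib, Finset.sum_const, nsmul_eq_mul]
    rw [← Finset.mul_sum]
    ring
  have h2 := sq_sum_le_card_mul_sum_sq (s := s ×ˢ s) (f := fun q : ι × ι => A q.1 - B q.2)
  rw [h1, Finset.card_product, Finset.sum_product] at h2
  push_cast at h2
  have h4 : ((s.card : ℝ) * s.card) * (∑ j ∈ s, A j - ∑ i ∈ s, B i) ^ 2 ≤
      (s.card * s.card) * ∑ j ∈ s, ∑ i ∈ s, (A j - B i) ^ 2 := by
    calc ((s.card : ℝ) * s.card) * (∑ j ∈ s, A j - ∑ i ∈ s, B i) ^ 2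
        = (s.card * (∑ j ∈ s, A j - ∑ i ∈ s, B i)) ^ 2 := by ring
      _ ≤ _ := h2
  exact le_of_mul_le_mul_left h4 (by positivity)

/-- two quarters of the same cell. -/
theorem quarter_le {n N W e : ℕ} [NeZero n] {K c1 : ℝ} {b : Finset (Tor n)} {h : Tor n → ℝ}
    {c : Nd n N → Nd n N → ℝ} (hW : 0 < W) (hN : N = 4 * W) (hc1 : 0 < c1)
    (hc : Local3 n N W e K c1 b h c) (o : Tor n) {S : ℕ} (hS : 3 ^ e * S ≤ n)
    (h1 : ∀ x ∈ cube n o (3 ^ e * S), h x = 1) (a : Nd n N → ℝ) {i j : ℕ} (hij : i + 2 ≤ j)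
    (hj : j < 4) :
    c1 * 27 ^ e / 16 * ∑ q ∈ box3 S, (qa n N W e o a q i - qa n N W e o a q j) ^ 2 ≤
      netK c a := by
  classical
  have hWR : (0 : ℝ) < W := by exact_mod_cast hW
  have hi : i < 4 := by omega
  have key := contact_pairs hc.symm hc.nonneg a (box3 S ×ˢ (cb W e ×ˢ cb W e))
    (fun z => nd n N W e o z.1 i z.2.1) (fun z => nd n N W e o z.1 j z.2.2)
    (fun z hz z' hz' e1 e2 => by
      obtain ⟨hq, hm⟩ := Finset.mem_product.1 hz
      obtain ⟨hq', hm'⟩ := Finset.mem_product.1 hz'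
      obtain ⟨hm1, hm2⟩ := Finset.mem_product.1 hm
      obtain ⟨hm1', hm2'⟩ := Finset.mem_product.1 hm'
      obtain ⟨a1, a2⟩ := nd_inj hN o hS hq hq' hi hm1 hm1' e1
      obtain ⟨-, a3⟩ := nd_inj hN o hS hq hq' hj hm2 hm2' e2
      exact Prod.ext a1 (Prod.ext a2 a3))
    (fun z hz z' hz' e1 => by
      obtain ⟨hq, hm⟩ := Finset.mem_product.1 hz
      obtain ⟨hq', hm'⟩ := Finset.mem_product.1 hz'
      have h2 := nd_val (n := n) hN o z.1 hi (Finset.mem_product.1 hm).1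
      have h3 := nd_val (n := n) hN o z'.1 hj (Finset.mem_product.1 hm').2
      have e1' : nd n N W e o z.1 i z.2.1 = nd n N W e o z'.1 j z'.2.2 := e1
      have h4 : (((nd n N W e o z.1 i z.2.1).1 : Fin (N + 1)) : ℕ) =
        (((nd n N W e o z'.1 j z'.2.2).1 : Fin (N + 1)) : ℕ) := by rw [e1']
      rw [h2, h3] at h4
      have h5 : z.2.1.2 < W := Finset.mem_range.1
        (Finset.mem_product.1 (Finset.mem_product.1 hm).1).2
      have h6 : (i + 2) * W ≤ j * W := Nat.mul_le_mul_right _ hij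
      have h7 : (i + 2) * W = i * W + W + W := by ring
      omega)
  refine le_trans ?_ key
  rw [Finset.sum_product, Finset.mul_sum]
  refine Finset.sum_le_sum fun q hq => ?_
  rw [Finset.sum_product]
  have h2 : c1 / ((N : ℝ) ^ 2 * 27 ^ e) * ∑ m ∈ cb W e, ∑ m' ∈ cb W e,
      (a (nd n N W e o q i m) - a (nd n N W e o q j m')) ^ 2 ≤
      ∑ m ∈ cb W e, ∑ m' ∈ cb W e, c (nd n N W e o q i m) (nd n N W e o q j m') *
        (a (nd n N W e o q i m) - a (nd n N W e o q j m')) ^ 2 := by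
    rw [Finset.mul_sum]
    refine Finset.sum_le_sum fun m hm => ?_
    rw [Finset.mul_sum]
    refine Finset.sum_le_sum fun m' hm' => ?_
    refine mul_le_mul_of_nonneg_right ?_ (sq_nonneg _)
    have hm1 := (Finset.mem_product.1 hm).1
    have hm1' := (Finset.mem_product.1 hm').1
    have v1 := nd_val (n := n) hN o q hi hm
    have v2 := nd_val (n := n) hN o q hj hm'
    refine hc.long _ _ (pt n o (3 ^ e * q.1) (3 ^ e * q.2.1) (3 ^ e * q.2.2)) _ _ ?_ ?_
      (site_mem_cell o hm1) (site_mem_cell o hm1') (h1 _ (site_mem_big o hq hm1))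
      (h1 _ (site_mem_big o hq hm1'))
    · intro h0
      have : (((nd n N W e o q i m).1 : Fin (N + 1)) : ℕ) = 0 := by
        show ((lay N N 0 (i * W + m.2) : Fin (N + 1)) : ℕ) = 0
        rw [h0]; rfl
      omega
    · show (((nd n N W e o q i m).1 : Fin (N + 1)) : ℕ) + W ≤
        (((nd n N W e o q j m').1 : Fin (N + 1)) : ℕ)
      rw [v1, v2]
      have h5 : m.2 < W := Finset.mem_range.1 (Finset.mem_product.1 hm).2
      have h6 : (i + 2) * W ≤ j * W := Nat.mul_le_mul_right _ hij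
      have h7 : (i + 2) * W = i * W + W + W := by ring
      omega
  refine le_trans ?_ h2
  have h3 := jensen_pairs (cb W e) (fun m => a (nd n N W e o q i m))
    (fun m => a (nd n N W e o q j m))
  have h4 : c1 * 27 ^ e / 16 * (qa n N W e o a q i - qa n N W e o a q j) ^ 2 =
      c1 / ((N : ℝ) ^ 2 * 27 ^ e) * (∑ m ∈ cb W e, a (nd n N W e o q i m) -
        ∑ m ∈ cb W e, a (nd n N W e o q j m)) ^ 2 := by
    unfold qa
    have hN' : (N : ℝ) = 4 * W := by rw [hN]; push_cast; ring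
    rw [hN']
    field_simp
    ring
  rw [h4]
  exact mul_le_mul_of_nonneg_left h3 (by rw [hN]; positivity)

end EC

open EC in
/-- contact energy: `b` = cube of `3 ^ r` cells per side. -/
theorem contact_le3 {n N W e r : ℕ} [NeZero n] {K c1 : ℝ} {o : Tor n} {h : Tor n → ℝ}
    {c : Nd n N → Nd n N → ℝ} (hW : 0 < W) (hN : N = 4 * W) (hK : 0 < K) (hc1 : 0 < c1)
    (hc : Local3 n N W e K c1 (cube n o (3 ^ (e + r))) h c) (hn : 3 ^ (e + r) < n)
    (h1 : ∀ x ∈ cube n o (3 ^ (e + r)), h x = 1) (a : Nd n N → ℝ)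
    (ha : ∀ x ∈ cube n o (3 ^ (e + r)), a (0, x) = 1) :
    c1 * K * (1 / 27 ^ r) * (∑ x ∈ range (3 ^ r), ∑ y ∈ range (3 ^ r), ∑ z ∈ range (3 ^ r),
      (1 - UC n N e o a x y z) ^ 2) ≤ 1000 * (1 + K / 27 ^ (e + r)) * netK c a := by
  classical
  have hWR : (0 : ℝ) < W := by exact_mod_cast hW
  have hpow : 3 ^ (e + r) = 3 ^ e * 3 ^ r := pow_add 3 e r
  have hS : 3 ^ e * 3 ^ r ≤ n := by rw [← hpow]; exact hn.le
  have hb1 : ∀ x ∈ cube n o (3 ^ e * 3 ^ r), h x = 1 := by rw [← hpow]; exact h1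
  have q13 := quarter_le hW hN hc1 hc o hS hb1 a (i := 1) (j := 3) (by norm_num) (by norm_num)
  have q03 := quarter_le hW hN hc1 hc o hS hb1 a (i := 0) (j := 3) (by norm_num) (by norm_num)
  have q02 := quarter_le hW hN hc1 hc o hS hb1 a (i := 0) (j := 2) (by norm_num) (by norm_num)
  -- contact
  have hcard : ((cube n o (3 ^ (e + r))).card : ℝ) = 27 ^ (e + r) := by
    rw [card_cube o _ hn.le]
    push_cast
    rw [← pow_mul, mul_comm, pow_mul]
    norm_num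
  have hcon : c1 * K / (4 * 27 ^ r) * ∑ q ∈ box3 (3 ^ r), (1 - qa n N W e o a q 1) ^ 2 ≤
      netK c a := by
    have key := contact_pairs hc.symm hc.nonneg a (box3 (3 ^ r) ×ˢ (box3 (3 ^ e) ×ˢ cb W e))
      (fun z => ((0 : Fin (N + 1)), site n e o z.1 z.2.1)) (fun z => nd n N W e o z.1 1 z.2.2)
      (fun z hz z' hz' e1 e2 => by
        obtain ⟨hq, hm⟩ := Finset.mem_product.1 hz
        obtain ⟨hq', hm'⟩ := Finset.mem_product.1 hz'
        obtain ⟨hm1, hm2⟩ := Finset.mem_product.1 hm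
        obtain ⟨hm1', hm2'⟩ := Finset.mem_product.1 hm'
        obtain ⟨a1, a2⟩ := site_inj o hS hq hq' hm1 hm1' (congrArg Prod.snd e1)
        obtain ⟨-, a3⟩ := nd_inj hN o hS hq hq' (by norm_num) hm2 hm2' e2
        exact Prod.ext a1 (Prod.ext a2 a3))
      (fun z hz z' hz' e1 => by
        obtain ⟨hq', hm'⟩ := Finset.mem_product.1 hz'
        have h3 := nd_val (n := n) hN o z'.1 (i := 1) (by norm_num) (Finset.mem_product.1 hm').2
        have e1' : ((0 : Fin (N + 1)), site n e o z.1 z.2.1) = nd n N W e o z'.1 1 z'.2.2 := e1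
        rw [← e1'] at h3
        have h4 : (((0 : Fin (N + 1))) : ℕ) = 1 + (1 * W + z'.2.2.2) := h3
        rw [Fin.val_zero] at h4
        omega)
    refine le_trans ?_ key
    rw [Finset.sum_product, Finset.mul_sum]
    refine Finset.sum_le_sum fun q hq => ?_
    rw [Finset.sum_product]
    have h2 : ∑ m ∈ box3 (3 ^ e), ∑ m' ∈ cb W e, c1 * (K / 27 ^ (e + r)) / ((N : ℝ) * 27 ^ e) *
        (1 - a (nd n N W e o q 1 m')) ^ 2 ≤
        ∑ m ∈ box3 (3 ^ e), ∑ m' ∈ cb W e,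
          c ((0 : Fin (N + 1)), site n e o q m) (nd n N W e o q 1 m') *
          (a ((0 : Fin (N + 1)), site n e o q m) - a (nd n N W e o q 1 m')) ^ 2 := by
      refine Finset.sum_le_sum fun m hm => Finset.sum_le_sum fun m' hm' => ?_
      have hb := site_mem_big o hq hm
      have hm1' := (Finset.mem_product.1 hm').1
      rw [ha _ (by rw [hpow]; exact hb)]
      refine mul_le_mul_of_nonneg_right ?_ (sq_nonneg _)
      have v2 := nd_val (n := n) hN o q (i := 1) (by norm_num) hm'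
      have := hc.contact (nd n N W e o q 1 m').1
        (pt n o (3 ^ e * q.1) (3 ^ e * q.2.1) (3 ^ e * q.2.2)) (site n e o q m)
        (site n e o q m'.1) (by omega) (by rw [hpow]; exact hb) (site_mem_cell o hm)
        (site_mem_cell o hm1') (hb1 _ (site_mem_big o hq hm1'))
      rw [hcard] at this
      exact this
    refine le_trans ?_ h2
    rw [Finset.sum_const, card_box3, nsmul_eq_mul, ← Finset.mul_sum]
    have h3 := sq_sum_le_card_mul_sum_sq (s := cb W e)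
      (f := fun m => 1 - a (nd n N W e o q 1 m))
    rw [card_cb] at h3
    have h4 : ∑ m ∈ cb W e, (1 - a (nd n N W e o q 1 m)) =
        (27 ^ e * W) * (1 - qa n N W e o a q 1) := by
      rw [Finset.sum_sub_distrib, Finset.sum_const, card_cb, nsmul_eq_mul, qa]
      push_cast
      field_simp
    rw [h4] at h3
    push_cast at h3
    have h5 : ((27 : ℝ) ^ e * W) * (1 - qa n N W e o a q 1) ^ 2 ≤
        ∑ m ∈ cb W e, (1 - a (nd n N W e o q 1 m)) ^ 2 := by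
      have h6 : (0 : ℝ) < 27 ^ e * W := by positivity
      have h7 : ((27 : ℝ) ^ e * W) * (((27 : ℝ) ^ e * W) * (1 - qa n N W e o a q 1) ^ 2) ≤
          ((27 : ℝ) ^ e * W) * ∑ m ∈ cb W e, (1 - a (nd n N W e o q 1 m)) ^ 2 := by
        calc _ = ((27 : ℝ) ^ e * W * (1 - qa n N W e o a q 1)) ^ 2 := by ring
          _ ≤ _ := h3
      exact le_of_mul_le_mul_left h7 h6
    have h8 : (((3 ^ e) ^ 3 : ℕ) : ℝ) = 27 ^ e := by
      push_cast
      rw [← pow_mul, mul_comm, pow_mul]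
      norm_num
    rw [h8]
    have hN' : (N : ℝ) = 4 * W := by rw [hN]; push_cast; ring
    calc c1 * K / (4 * 27 ^ r) * (1 - qa n N W e o a q 1) ^ 2 =
        27 ^ e * (c1 * (K / 27 ^ (e + r)) / ((N : ℝ) * 27 ^ e) *
          (((27 : ℝ) ^ e * W) * (1 - qa n N W e o a q 1) ^ 2)) := by
          rw [hN', pow_add]
          field_simp
      _ ≤ _ := by
          refine mul_le_mul_of_nonneg_left (mul_le_mul_of_nonneg_left h5 ?_) (by positivity)
          rw [hN']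
          positivity
  -- combination
  rw [sum_box3 (3 ^ r) (fun x y z => (1 - UC n N e o a x y z) ^ 2)]
  have hU : ∀ q ∈ box3 (3 ^ r), (1 - UC n N e o a q.1 q.2.1 q.2.2) ^ 2 ≤
      2 * (1 - qa n N W e o a q 1) ^ 2 + 2 * ((qa n N W e o a q 1 - qa n N W e o a q 3) ^ 2 +
        (qa n N W e o a q 0 - qa n N W e o a q 3) ^ 2 +
        (qa n N W e o a q 0 - qa n N W e o a q 2) ^ 2) := by
    intro q _
    rw [UC_eq hW hN o a q]
    set A0 := qa n N W e o a q 0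
    set A1 := qa n N W e o a q 1
    set A2 := qa n N W e o a q 2
    set A3 := qa n N W e o a q 3
    have e1 : 1 - 1 / 4 * (A0 + A1 + A2 + A3) =
        (1 - A1) + (1 / 4) * (3 * (A1 - A3) + 2 * (A3 - A0) + (A0 - A2)) := by ring
    rw [e1]
    nlinarith [sq_nonneg ((1 - A1) - (1 / 4) * (3 * (A1 - A3) + 2 * (A3 - A0) + (A0 - A2))),
      sq_nonneg (2 * (A1 - A3) - 3 * (A3 - A0)), sq_nonneg ((A1 - A3) - 3 * (A0 - A2)),
      sq_nonneg ((A3 - A0) - 2 * (A0 - A2)), sq_nonneg (A1 - A3), sq_nonneg (A3 - A0),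
      sq_nonneg (A0 - A2)]
  have hsum := Finset.sum_le_sum hU
  rw [Finset.sum_add_distrib, ← Finset.mul_sum, ← Finset.mul_sum, Finset.sum_add_distrib,
    Finset.sum_add_distrib] at hsum
  set s1 := ∑ q ∈ box3 (3 ^ r), (1 - qa n N W e o a q 1) ^ 2
  set s2 := ∑ q ∈ box3 (3 ^ r), (qa n N W e o a q 1 - qa n N W e o a q 3) ^ 2
  set s3 := ∑ q ∈ box3 (3 ^ r), (qa n N W e o a q 0 - qa n N W e o a q 3) ^ 2
  set s4 := ∑ q ∈ box3 (3 ^ r), (qa n N W e o a q 0 - qa n N W e o a q 2) ^ 2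
  have hnet : 0 ≤ netK c a := le_trans (by positivity) hcon
  have hκ : 0 ≤ c1 * K * (1 / 27 ^ r) := by positivity
  refine (mul_le_mul_of_nonneg_left hsum hκ).trans ?_
  have t1 : c1 * K * (1 / 27 ^ r) * (2 * s1) ≤ 8 * netK c a := by
    have : c1 * K * (1 / 27 ^ r) * (2 * s1) = 8 * (c1 * K / (4 * 27 ^ r) * s1) := by
      field_simp; ring
    rw [this]
    linarith
  have t2 : ∀ s : ℝ, c1 * 27 ^ e / 16 * s ≤ netK c a →
      c1 * K * (1 / 27 ^ r) * (2 * s) ≤ 32 * (K / 27 ^ (e + r)) * netK c a := by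
    intro s hs
    have : c1 * K * (1 / 27 ^ r) * (2 * s) =
        32 * (K / 27 ^ (e + r)) * (c1 * 27 ^ e / 16 * s) := by
      rw [pow_add]
      field_simp
      ring
    rw [this]
    exact mul_le_mul_of_nonneg_left hs (by positivity)
  have t3 := t2 s2 q13
  have t4 := t2 s3 q03
  have t5 := t2 s4 q02
  have t6 : 0 ≤ K / 27 ^ (e + r) * netK c a := by positivity
  nlinarith

end Vale.Agent.P361.LRO.Ind3
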