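import Vale.Agent.P361.LRO.Ind3.Defs
import Vale.Agent.P361.LRO.Ind.VolA

/-!
# P361 LRO, stage 3, V1: the number of nodes with `a < 1/2` over a cube of cells (helper104)
-/

namespace Vale.Agent.P361.LRO.Ind3

open Finset Vale.Agent.P361.LRO _root_.P361.LRO Vale.Agent.P361.LRO.Ind

/-- The number of nodes with `a < 1/2` over a cube of `S³` cells. -/
theorem card_low_le3 {n N W e : ℕ} [NeZero n] (hW : 0 < W) (hN : N = 4 * W)
    (o : Tor n) (S : ℕ) (hS : 3 ^ e * S ≤ n) (a : Nd n N → ℝ) :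
    ((((univ.filter fun k => k ≠ 0) ×ˢ cube n o (3 ^ e * S) : Finset (Nd n N)).filter
      fun z => a z < 1 / 2).card : ℝ) ≤
    64 * DevC n N e o a S + N * 27 ^ e * cnt S 1 (5 / 8) (UT n N e o a) := by
  classical
  have hE : 0 < 3 ^ e := by positivity
  have hNpos : 0 < N := by omega
  set I : Finset ((ℕ × ℕ × ℕ) × (ℕ × ℕ × ℕ × ℕ)) :=
    (range S ×ˢ range S ×ˢ range S) ×ˢ
      (range (3 ^ e) ×ˢ range (3 ^ e) ×ˢ range (3 ^ e) ×ˢ range N) with hI
  set F : (ℕ × ℕ × ℕ) × (ℕ × ℕ × ℕ × ℕ) → Nd n N := fun p =>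
    (lay N N 0 p.2.2.2.2, pt n o (3 ^ e * p.1.1 + p.2.1) (3 ^ e * p.1.2.1 + p.2.2.1)
      (3 ^ e * p.1.2.2 + p.2.2.2.1)) with hF
  have hsub : (((univ.filter fun k => k ≠ 0) ×ˢ cube n o (3 ^ e * S) : Finset (Nd n N)).filter
      fun z => a z < 1 / 2) ⊆ (I.filter fun p => a (F p) < 1 / 2).image F := by
    intro z hz
    rw [Finset.mem_filter] at hz
    obtain ⟨x, hx, y, hy, c, hc, w, hw, j, hj, rfl⟩ :=
      va655_node hNpos (one_mul N).symm o (3 ^ e * S) hz.1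
    obtain rfl : w = 0 := by omega
    have hFz : F ((x / 3 ^ e, y / 3 ^ e, c / 3 ^ e), (x % 3 ^ e, y % 3 ^ e, c % 3 ^ e, j)) =
        (lay N N 0 j, pt n o x y c) := by
      simp only [hF, Nat.div_add_mod]
    rw [Finset.mem_image]
    refine ⟨((x / 3 ^ e, y / 3 ^ e, c / 3 ^ e), (x % 3 ^ e, y % 3 ^ e, c % 3 ^ e, j)), ?_, hFz⟩
    rw [Finset.mem_filter, hFz]
    refine ⟨?_, hz.2⟩
    have hd : ∀ v, v < 3 ^ e * S → v / 3 ^ e < S := fun v hv =>
      Nat.div_lt_of_lt_mul hv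
    simp only [hI, Finset.mem_product, Finset.mem_range]
    exact ⟨⟨hd x hx, hd y hy, hd c hc⟩, Nat.mod_lt _ hE, Nat.mod_lt _ hE, Nat.mod_lt _ hE, hj⟩
  have hcard : ((((univ.filter fun k => k ≠ 0) ×ˢ cube n o (3 ^ e * S) : Finset (Nd n N)).filter
      fun z => a z < 1 / 2).card : ℝ) ≤ ∑ p ∈ I, if a (F p) < 1 / 2 then (1 : ℝ) else 0 := by
    have h1 := (Finset.card_le_card hsub).trans Finset.card_image_le
    rw [Finset.sum_boole]
    exact_mod_cast h1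
  refine hcard.trans ?_
  have hle : ∑ p ∈ I, (if a (F p) < 1 / 2 then (1 : ℝ) else 0) ≤
      ∑ p ∈ I, (64 * (a (F p) - UC n N e o a p.1.1 p.1.2.1 p.1.2.2) ^ 2 +
        if UC n N e o a p.1.1 p.1.2.1 p.1.2.2 < 5 / 8 then 1 else 0) :=
    Finset.sum_le_sum fun p _ => va655_pt
  refine hle.trans (le_of_eq ?_)
  rw [Finset.sum_add_distrib, ← Finset.mul_sum]
  congr 1
  · congr 1
    unfold DevC
    simp only [hI, Finset.sum_product]
    rfl
  · rw [hI, Finset.sum_product]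
    have h27 : (27 : ℝ) ^ e = (3 : ℝ) ^ e * ((3 : ℝ) ^ e * (3 : ℝ) ^ e) := by
      rw [← mul_pow, ← mul_pow]; norm_num
    have hin : ∀ q : ℕ × ℕ × ℕ,
        ∑ _p ∈ range (3 ^ e) ×ˢ range (3 ^ e) ×ˢ range (3 ^ e) ×ˢ range N,
          (if UC n N e o a q.1 q.2.1 q.2.2 < 5 / 8 then (1 : ℝ) else 0) =
        N * 27 ^ e * (if UC n N e o a q.1 q.2.1 q.2.2 < 5 / 8 then (1 : ℝ) else 0) := by
      intro q
      rw [Finset.sum_const, Finset.card_product, Finset.card_product, Finset.card_product,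
        Finset.card_range, Finset.card_range, nsmul_eq_mul, h27]
      push_cast
      ring
    rw [Finset.sum_congr rfl fun q _ => hin q, ← Finset.mul_sum]
    congr 1
    unfold cnt UT
    simp only [Finset.sum_product, Finset.sum_range_one]

end Vale.Agent.P361.LRO.Ind3
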