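import Vale.Agent.P361.LRO.Ind3.Defs
import Vale.Agent.P361.LRO.Ind3.EnergyA
import Vale.Agent.P361.LRO.Ind3.EnergyB
import Vale.Agent.P361.LRO.Ind3.EnergyC
import Vale.Agent.P361.LRO.Ind3.VolA
import Vale.Agent.P361.LRO.Ind.GeoA
import Vale.Agent.P361.LRO.Ind.Test
import Vale.Agent.P361.LRO.Ind.Chain
import Vale.Agent.P361.LRO.Ind.StepLast

/-!
# P361 LRO, stage 3, network chapter: the last step before lowering (helper535)
-/

namespace Vale.Agent.P361.LRO.Ind3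

open Finset Vale.Agent.P361.LRO _root_.P361.LRO Vale.Agent.P361.LRO.Ind

lemma s3_num {t K κ A P Q C : ℝ} (ht : 0 < t) (hK : 0 < K) (hκ0 : 0 ≤ κ) (hκ : κ ≤ K)
    (hP : 0 ≤ P) (hQ : 0 ≤ Q) (hC : 2 * P < C) (hC' : 2 * Q ≤ C) (h1 : C * K ≤ A)
    (h2 : C * K ^ 3 ≤ A * t ^ 2) (h3 : A ≤ P * κ + Q * (κ ^ 3 / t ^ 2)) : False := by
  have ht2 : 0 < t ^ 2 := by positivity
  have e2 : κ ^ 3 / t ^ 2 ≤ K ^ 3 / t ^ 2 :=
    div_le_div_of_nonneg_right (pow_le_pow_left₀ hκ0 hκ 3) ht2.le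
  have e3 : C * (K ^ 3 / t ^ 2) ≤ A := by
    rw [← mul_div_assoc, div_le_iff₀ ht2]
    exact h2
  have e5 : 0 ≤ K ^ 3 / t ^ 2 := by positivity
  have e6 : P * κ ≤ P * K := mul_le_mul_of_nonneg_left hκ hP
  have e7 : Q * (κ ^ 3 / t ^ 2) ≤ Q * (K ^ 3 / t ^ 2) := mul_le_mul_of_nonneg_left e2 hQ
  have e8 : 2 * P * K < C * K := mul_lt_mul_of_pos_right hC hK
  have e9 : 2 * Q * (K ^ 3 / t ^ 2) ≤ C * (K ^ 3 / t ^ 2) := mul_le_mul_of_nonneg_right hC' e5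
  linarith

/-- the volume bound in numbers -/
lemma s3_vol {t κ A E D cn c1 Cc : ℝ} (ht : 0 < t) (hκ0 : 0 ≤ κ) (hc1 : 0 < c1) (hCc : 0 < Cc)
    (hE0 : 0 ≤ E) (hE : c1 * t * E ≤ 16 * κ) (hD : c1 * D ≤ 1000 * κ)
    (hcn : cn ≤ Cc * (E + E ^ 3)) (hA : A ≤ 4 * κ + (32 * D + t / 2 * cn)) :
    A ≤ (4 + 32000 / c1 + 8 * Cc / c1) * κ + (Cc / 2 * (16 / c1) ^ 3) * (κ ^ 3 / t ^ 2) := by
  have hE' : E ≤ 16 / c1 * κ / t := by
    rw [le_div_iff₀ ht, div_mul_eq_mul_div, le_div_iff₀ hc1]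
    linarith
  have hD' : D ≤ 1000 / c1 * κ := by
    rw [div_mul_eq_mul_div, le_div_iff₀ hc1]
    linarith
  have h1 : t / 2 * cn ≤ t / 2 * (Cc * (E + E ^ 3)) := mul_le_mul_of_nonneg_left hcn (by positivity)
  have h2 : E ^ 3 ≤ (16 / c1 * κ / t) ^ 3 := pow_le_pow_left₀ hE0 hE' 3
  have h3 : t / 2 * (Cc * (E + E ^ 3)) ≤
      t / 2 * (Cc * (16 / c1 * κ / t + (16 / c1 * κ / t) ^ 3)) :=
    mul_le_mul_of_nonneg_left (mul_le_mul_of_nonneg_left (add_le_add hE' h2) hCc.le) (by positivity)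
  have h4 : t / 2 * (Cc * (16 / c1 * κ / t + (16 / c1 * κ / t) ^ 3)) =
      8 * Cc / c1 * κ + (Cc / 2 * (16 / c1) ^ 3) * (κ ^ 3 / t ^ 2) := by
    field_simp
    ring
  rw [h4] at h3
  have h5 : 32 * D ≤ 32000 / c1 * κ := by
    have : 32000 / c1 * κ = 32 * (1000 / c1 * κ) := by ring
    rw [this]
    linarith
  have h6 : (4 + 32000 / c1 + 8 * Cc / c1) * κ = 4 * κ + 32000 / c1 * κ + 8 * Cc / c1 * κ := by ring
  rw [h6]
  linarith

lemma s3_eq2 {Dv cn N t : ℝ} (hN : 0 < N) :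
    (64 * Dv + N * t * cn) * (1 / (2 * N)) = 32 * (1 / N * Dv) + t / 2 * cn := by
  field_simp
  ring

/-- first condition of `start3` -/
lemma s3_st1 {Cs X c1 K κ C t B : ℝ} (hCs : 0 < Cs) (hc1 : 0 < c1) (hK : 0 < K) (hκ0 : 0 ≤ κ)
    (ht : 0 < t) (hB : 0 < B) (hκC : κ * C < K) (hKB : K ≤ B)
    (hY : c1 * K * (1 / t) * X ≤ 1000 * (1 + K / B) * κ) (hC : 2000 * Cs ≤ c1 * C) :
    Cs * X ≤ t := by
  have h0 : K / B ≤ 1 := (div_le_one hB).2 hKB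
  have h1 : c1 * K * (1 / t) * X ≤ 2000 * κ := by
    refine hY.trans (mul_le_mul_of_nonneg_right ?_ hκ0)
    linarith
  have h2 : c1 * K * X ≤ 2000 * κ * t := by
    have : c1 * K * (1 / t) * X = c1 * K * X / t := by ring
    rw [this, div_le_iff₀ ht] at h1
    exact h1
  have h3 : c1 * K * (Cs * X) ≤ c1 * K * t := by
    have e1 : c1 * K * (Cs * X) = Cs * (c1 * K * X) := by ring
    have e2 : Cs * (c1 * K * X) ≤ Cs * (2000 * κ * t) := mul_le_mul_of_nonneg_left h2 hCs.le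
    have e3 : Cs * (2000 * κ * t) = 2000 * Cs * κ * t := by ring
    have e4 : 2000 * Cs * κ ≤ c1 * K := by
      have e5 : 2000 * Cs * κ ≤ c1 * C * κ := mul_le_mul_of_nonneg_right hC hκ0
      have e6 : c1 * C * κ = c1 * (κ * C) := by ring
      have e7 : c1 * (κ * C) ≤ c1 * K := mul_le_mul_of_nonneg_left hκC.le hc1.le
      linarith
    have e5 : 2000 * Cs * κ * t ≤ c1 * K * t := mul_le_mul_of_nonneg_right e4 ht.le
    linarith
  exact le_of_mul_le_mul_left h3 (by positivity)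

/-- second condition of `start3`, and the condition of `chain3` -/
lemma s3_st2 {Cs c1 K κ C t x E : ℝ} (hCs : 0 < Cs) (hc1 : 0 < c1) (hκ0 : 0 ≤ κ) (ht : 0 < t)
    (hκK : κ ≤ K) (hC : 16 * Cs ≤ c1 * C) (hC0 : 0 < C) (hE : c1 * t * E ≤ 16 * κ)
    (hKx : C * K ≤ t * x) : Cs * E ≤ x := by
  have e1 : c1 * t * (Cs * E) ≤ c1 * t * x := by
    have e2 : c1 * t * (Cs * E) = Cs * (c1 * t * E) := by ring
    have e3 : Cs * (c1 * t * E) ≤ Cs * (16 * κ) := mul_le_mul_of_nonneg_left hE hCs.le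
    have e4 : Cs * (16 * κ) = 16 * Cs * κ := by ring
    have e5 : 16 * Cs * κ ≤ c1 * C * κ := mul_le_mul_of_nonneg_right hC hκ0
    have e6 : c1 * C * κ ≤ c1 * C * K := mul_le_mul_of_nonneg_left hκK (by positivity)
    have e7 : c1 * C * K = c1 * (C * K) := by ring
    have e8 : c1 * (C * K) ≤ c1 * (t * x) := mul_le_mul_of_nonneg_left hKx hc1.le
    have e9 : c1 * (t * x) = c1 * t * x := by ring
    linarith
  exact le_of_mul_le_mul_left e1 (by positivity)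

/-- the cost of the modified nodes -/
lemma s3_cost {n N W e : ℕ} [NeZero n] {K c1 : ℝ} {b' b : Finset (Tor n)} {h : Tor n → ℝ}
    {c : Nd n N → Nd n N → ℝ} (hloc : Local3 n N W e K c1 b' h c) (o : Tor n) (S : ℕ)
    (hh : ∀ x ∈ cube n o S, h x = 1) (u : Nd n N → ℝ) :
    ∑ z ∈ ((EE6 n N o b S) \ (hatb N b)).filter (fun z => u z < 1 / 2), ∑ v, c z v ≤
      ((((univ.filter fun k => k ≠ 0) ×ˢ cube n o S : Finset (Nd n N)).filter
        fun z => u z < 1 / 2).card : ℝ) * (1 / (2 * N)) := by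
  have hsub : ((EE6 n N o b S) \ (hatb N b)).filter (fun z => u z < 1 / 2) ⊆
      (((univ.filter fun k => k ≠ 0) ×ˢ cube n o S : Finset (Nd n N)).filter
        fun z => u z < 1 / 2) := by
    intro z hz
    rw [Finset.mem_filter, Finset.mem_sdiff, EE6, Finset.mem_union] at hz
    rw [Finset.mem_filter]
    exact ⟨hz.1.1.resolve_left hz.1.2, hz.2⟩
  have hnn : ∀ z : Nd n N, 0 ≤ ∑ v, c z v := fun z => Finset.sum_nonneg fun v _ => hloc.nonneg z v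
  refine (Finset.sum_le_sum_of_subset_of_nonneg hsub fun z _ _ => hnn z).trans ?_
  rw [← nsmul_eq_mul]
  refine Finset.sum_le_card_nsmul _ _ _ fun z hz => ?_
  rw [Finset.mem_filter, Finset.mem_product, Finset.mem_filter] at hz
  have h1 := hloc.tot z.1 z.2 hz.1.1.2
  refine h1.trans ?_
  rw [hh z.2 hz.1.2]

/-- the last step in the form `a = e + r`, `s = e + s'` -/
lemma s3_core {c1 Cs Cc C : ℝ} (hc1 : 0 < c1) (hCs : 0 < Cs) (hCc : 0 < Cc)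
    (hstart : ∀ (r s T : ℕ), 0 < T → r ≤ s → ∀ U : ℕ → ℕ → ℕ → ℕ → ℝ,
      Cs * (∑ x ∈ range (3 ^ r), ∑ y ∈ range (3 ^ r), ∑ z ∈ range (3 ^ r), (1 - U x y z 0) ^ 2)
        ≤ 27 ^ r →
      Cs * T * E4 (3 ^ s) T U ≤ 27 ^ r →
      (∑ x ∈ range (3 ^ r), ∑ y ∈ range (3 ^ r), ∑ z ∈ range (3 ^ r),
        (1 - (1 / (T : ℝ)) * ∑ w ∈ range T, U x y z w) ≤ 27 ^ r / 16))
    (hchain : ∀ (r s T : ℕ), 0 < T → r ≤ s → ∀ U : ℕ → ℕ → ℕ → ℕ → ℝ,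
      (∑ x ∈ range (3 ^ r), ∑ y ∈ range (3 ^ r), ∑ z ∈ range (3 ^ r),
        (1 - (1 / (T : ℝ)) * ∑ w ∈ range T, U x y z w) ≤ 27 ^ r / 16) →
      Cc * E4 (3 ^ s) T U ≤ T * 3 ^ r →
      cnt (3 ^ s) T (5 / 8) U ≤
        Cc * (T ^ 2 * E4 (3 ^ s) T U + (E4 (3 ^ s) T U) ^ 3 / T ^ 2))
    (hC1 : 1 ≤ C) (hCP : 2 * (4 + 32000 / c1 + 8 * Cc / c1) < C)
    (hCQ : 2 * (Cc / 2 * (16 / c1) ^ 3) ≤ C) (hCs' : 2000 * Cs ≤ c1 * C)
    (hCc' : 16 * Cc ≤ c1 * C)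
    {n N W e : ℕ} [NeZero n]
    {K : ℝ} {o : Tor n} {r : ℕ} {h : Tor n → ℝ} {c : Nd n N → Nd n N → ℝ}
    {s : ℕ} {G : Finset (Nd n N)} {A : ℝ}
    (hW : 0 < W) (hN : N = 4 * W) (hrs : r ≤ s) (hsn : 3 ^ (e + s) < n)
    (hK : 0 < K) (hK1 : C * K ≤ 27 ^ (e + r)) (hK2 : C * K ≤ 9 ^ e * 3 ^ (e + r))
    (hh : ∀ x ∈ cube n o (3 ^ (e + s)), h x = 1)
    (hloc : Local3 n N W e K c1 (cube n o (3 ^ (e + r))) h c)
    (hdis : Disjoint (EE6 n N o (cube n o (3 ^ (e + r))) (3 ^ (e + s))) G)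
    (hLB : LBn c (EE6 n N o (cube n o (3 ^ (e + r))) (3 ^ (e + s))) G A)
    (hA1 : C * K ≤ A) (hA2 : C * K ^ 3 ≤ A * (27 ^ e) ^ 2) :
    LBn c (hatb N (cube n o (3 ^ (e + r)))) G (K / C) := by
  have hC0 : 0 < C := by linarith
  refine LBn_of_trunc hloc.nonneg fun u hu huE huG => ?_
  by_contra hcon
  rw [not_le] at hcon
  obtain ⟨κ, hκ⟩ : ∃ κ : ℝ, κ = netK c u := ⟨_, rfl⟩
  rw [← hκ] at hcon
  have hκ0 : 0 ≤ κ := by rw [hκ]; exact netK_nonneg hloc.nonneg u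
  have hκC : κ * C < K := by rwa [lt_div_iff₀ hC0] at hcon
  have hκK : κ ≤ K := (le_mul_of_one_le_right hκ0 hC1).trans hκC.le
  have hN0 : (0 : ℝ) < N := by rw [hN]; exact_mod_cast (by omega : 0 < 4 * W)
  have ht : (0 : ℝ) < 27 ^ e := by positivity
  have hrse : 3 ^ (e + r) ≤ 3 ^ (e + s) := Nat.pow_le_pow_right (by norm_num) (by omega)
  have hrn : 3 ^ (e + r) < n := lt_of_le_of_lt hrse hsn
  have hps : 3 ^ e * 3 ^ s = 3 ^ (e + s) := (pow_add 3 e s).symm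
  have hsn' : 3 ^ e * 3 ^ s < n := by rw [hps]; exact hsn
  have hh' : ∀ x ∈ cube n o (3 ^ e * 3 ^ s), h x = 1 := by rw [hps]; exact hh
  have hbs : ∀ x ∈ cube n o (3 ^ (e + r)), h x = 1 := fun x hx => hh x (sl_cube_mono o hrse hx)
  -- energy
  obtain ⟨E, hEdef⟩ : ∃ E : ℝ, E = E4 (3 ^ s) 1 (UT n N e o u) := ⟨_, rfl⟩
  have hE0 : 0 ≤ E := by rw [hEdef]; exact sl_E4_nonneg _ _ _
  have hE : c1 * 27 ^ e * E ≤ 16 * κ := by
    rw [hEdef, hκ]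
    exact E4_le3 hW hN hc1 hloc o (3 ^ s) hsn' hh' u
  -- contact
  have huE' : ∀ x ∈ cube n o (3 ^ (e + r)), u (0, x) = 1 := by
    intro x hx
    refine huE _ ?_
    rw [hatb, Finset.mem_product]
    exact ⟨Finset.mem_singleton_self _, hx⟩
  have hcont := contact_le3 hW hN hK hc1 hloc hrn hbs u huE'
  rw [← hκ] at hcont
  have h27r : (0 : ℝ) < 27 ^ r := by positivity
  have h27b : (0 : ℝ) < 27 ^ (e + r) := by positivity
  have hKB : K ≤ 27 ^ (e + r) := (le_mul_of_one_le_left hK.le hC1).trans hK1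
  have hst1 := s3_st1 hCs hc1 hK hκ0 h27r h27b hκC hKB hcont hCs'
  have hst2 : Cs * E ≤ 27 ^ r := by
    refine s3_st2 hCs hc1 hκ0 ht hκK (by linarith) hC0 hE ?_
    rw [← pow_add]
    exact hK1
  have hch : Cc * E ≤ 3 ^ r := by
    refine s3_st2 hCc hc1 hκ0 ht hκK hCc' hC0 hE ?_
    have e1 : (27 : ℝ) ^ e * 3 ^ r = 9 ^ e * 3 ^ (e + r) := by
      rw [pow_add, ← mul_assoc, ← mul_pow]
      norm_num
    rw [e1]
    exact hK2
  have hmean := hstart r s 1 Nat.one_pos hrs (UT n N e o u) hst1 (by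
    rw [Nat.cast_one, mul_one, ← hEdef]
    exact hst2)
  have hcnt := hchain r s 1 Nat.one_pos hrs (UT n N e o u) hmean (by
    rw [Nat.cast_one, one_mul, ← hEdef]
    exact hch)
  rw [← hEdef, Nat.cast_one, one_pow, one_mul, div_one] at hcnt
  -- deviation
  obtain ⟨Dv, hDv⟩ : ∃ Dv : ℝ, Dv = DevC n N e o u (3 ^ s) := ⟨_, rfl⟩
  have hdev := dev_le3 hW hN hc1 hloc o (3 ^ s) hsn' hh' u
  have hlow := card_low_le3 hW hN o (3 ^ s) hsn'.le u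
  rw [← hDv] at hdev hlow
  rw [← hκ] at hdev
  have hdev2 : c1 * (1 / N * Dv) ≤ 1000 * κ := by
    have : c1 * (1 / N * Dv) = c1 / N * Dv := by ring
    rw [this]
    exact hdev
  obtain ⟨cn, hcn⟩ : ∃ cn : ℝ, cn = cnt (3 ^ s) 1 (5 / 8) (UT n N e o u) := ⟨_, rfl⟩
  rw [← hcn] at hcnt hlow
  -- test function
  have htest := test_le hloc.symm hloc.nonneg hLB hdis (fun x => (hu x).1) huE huG
  rw [← hκ] at htest
  have hsum := s3_cost (b := cube n o (3 ^ (e + r))) hloc o (3 ^ (e + s)) hh u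
  rw [hps] at hlow
  obtain ⟨M, hM⟩ : ∃ M : ℝ, M = ((((univ.filter fun k => k ≠ 0) ×ˢ cube n o (3 ^ (e + s)) :
    Finset (Nd n N)).filter fun z => u z < 1 / 2).card : ℝ) := ⟨_, rfl⟩
  rw [← hM] at hlow hsum
  have hfin : A ≤ 4 * κ + (32 * (1 / N * Dv) + 27 ^ e / 2 * cn) := by
    have e1 := htest.trans (add_le_add_right hsum (4 * κ))
    have e2 : M * (1 / (2 * N)) ≤ (64 * Dv + N * 27 ^ e * cn) * (1 / (2 * N)) :=
      mul_le_mul_of_nonneg_right hlow (by positivity)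
    rw [s3_eq2 hN0] at e2
    linarith
  have hvol := s3_vol ht hκ0 hc1 hCc hE0 hE hdev2 hcnt hfin
  exact s3_num ht hK hκ0 hκK (by positivity) (by positivity) hCP hCQ hA1 hA2 hvol

/-- (S3) The last step, before lowering. -/
theorem step_last3 (c1 : ℝ) (hc1 : 0 < c1) : ∃ C : ℝ, 0 < C ∧ ∀ (n N W e : ℕ) [NeZero n]
    (K : ℝ) (o : Tor n) (a : ℕ) (h : Tor n → ℝ) (c : Nd n N → Nd n N → ℝ)
    (s : ℕ) (G : Finset (Nd n N)) (A : ℝ),
    0 < W → N = 4 * W → e ≤ a → a ≤ s → 3 ^ s < n →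
    0 < K → C * K ≤ 27 ^ a → C * K ≤ 9 ^ e * 3 ^ a →
    (∀ x, h x ≤ 1) → (∀ x ∈ cube n o (3 ^ s), h x = 1) →
    Local3 n N W e K c1 (cube n o (3 ^ a)) h c →
    Disjoint (EE6 n N o (cube n o (3 ^ a)) (3 ^ s)) G →
    LBn c (EE6 n N o (cube n o (3 ^ a)) (3 ^ s)) G A →
    C * K ≤ A → C * K ^ 3 ≤ A * (27 ^ e) ^ 2 →
    LBn c (hatb N (cube n o (3 ^ a))) G (K / C) := by
  obtain ⟨Cs, hCs, hstart⟩ := start3
  obtain ⟨Cc, hCc, hchain⟩ := chain3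
  obtain ⟨C, hC⟩ : ∃ C : ℝ, C = 1 + 2 * (4 + 32000 / c1 + 8 * Cc / c1) +
      2 * (Cc / 2 * (16 / c1) ^ 3) + 2000 * Cs / c1 + 16 * Cc / c1 := ⟨_, rfl⟩
  have q0 : 0 < 2 * (4 + 32000 / c1 + 8 * Cc / c1) := by positivity
  have q0' : 0 < 2 * (Cc / 2 * (16 / c1) ^ 3) := by positivity
  have q1 : 0 < 2000 * Cs / c1 := by positivity
  have q2 : 0 < 16 * Cc / c1 := by positivity
  have hC1 : 1 ≤ C := by linarith
  have hCP : 2 * (4 + 32000 / c1 + 8 * Cc / c1) < C := by linarith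
  have hCQ : 2 * (Cc / 2 * (16 / c1) ^ 3) ≤ C := by linarith
  have hCs' : 2000 * Cs ≤ c1 * C := by
    have : 2000 * Cs / c1 ≤ C := by linarith
    rw [div_le_iff₀ hc1] at this
    linarith
  have hCc' : 16 * Cc ≤ c1 * C := by
    have : 16 * Cc / c1 ≤ C := by linarith
    rw [div_le_iff₀ hc1] at this
    linarith
  refine ⟨C, by linarith, ?_⟩
  intro n N W e _ K o a h c s G A hW hN hea has hsn hK hK1 hK2 _ hh hloc hdis hLB hA1 hA2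
  obtain ⟨r, rfl⟩ := Nat.exists_eq_add_of_le hea
  obtain ⟨s', rfl⟩ := Nat.exists_eq_add_of_le (hea.trans has)
  exact s3_core hc1 hCs hCc hstart hchain hC1 hCP hCQ hCs' hCc' hW hN (by omega) hsn hK hK1 hK2 hh
    hloc hdis hLB hA1 hA2

end Vale.Agent.P361.LRO.Ind3
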