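import Vale.Agent.P361.LRO.Ind.GeoA
import Vale.Agent.P361.LRO.Ind.Lines
import Vale.Agent.P361.LRO.Ind.StepTop
import Vale.Agent.P361.LRO.Ind3.Defs
import Vale.Agent.P361.LRO.Ind3.EnergyA

/-!
# P361 LRO, stage 3, cells, S1: the top step (helper442)
-/

namespace Vale.Agent.P361.LRO.Ind3

open Finset Vale.Agent.P361.LRO _root_.P361.LRO Vale.Agent.P361.LRO.Ind

/-- a sum over a cube of side `S * T`, cell by cell -/
theorem st3_cells (S T : ℕ) (F : ℕ → ℕ → ℕ → ℝ) :
    ∑ x ∈ range (S * T), ∑ y ∈ range (S * T), ∑ z ∈ range (S * T), F x y z =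
    ∑ x ∈ range S, ∑ y ∈ range S, ∑ z ∈ range S, ∑ i ∈ range T, ∑ j ∈ range T, ∑ k ∈ range T,
      F (T * x + i) (T * y + j) (T * z + k) := by
  simp only [st_blocks]
  refine Finset.sum_congr rfl fun x _ => ?_
  rw [Finset.sum_comm]
  refine Finset.sum_congr rfl fun y _ => ?_
  rw [Finset.sum_comm (s := range S) (t := range T)]
  refine Finset.sum_congr rfl fun i _ => ?_
  rw [Finset.sum_comm (s := range S) (t := range T)]
  refine Finset.sum_congr rfl fun j _ => ?_
  refine Finset.sum_congr rfl fun z _ => ?_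
  refine Finset.sum_congr rfl fun k _ => ?_
  rw [mul_comm x, mul_comm y, mul_comm z]

/-- sum over the physical layers -/
theorem st3_layers {N : ℕ} (f : Fin (N + 1) → ℝ) :
    ∑ k ∈ univ.filter (fun k => k ≠ 0), f k = ∑ t ∈ range N, f (lay N N 0 t) := by
  rw [st_layers (N := N) (W := N) (m := 1) (one_mul N).symm f, Finset.sum_range_one]

/-- top: resistance to the uniform charge on the ground cube in the field `1`, on cells. -/
theorem step_top3 (c1 : ℝ) (hc1 : 0 < c1) : ∃ C : ℝ, 0 < C ∧ ∀ (n N W e : ℕ) [NeZero n]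
    (K : ℝ) (o : Tor n) (b : Finset (Tor n)) (c : Nd n N → Nd n N → ℝ) (s : ℕ),
    0 < W → N = 4 * W → e ≤ s → 8 * 3 ^ s < n →
    Local3 n N W e K c1 b (fun _ => 1) c →
    RBn c (EE6 n N o b (3 ^ s))
      (fun z => if z ∈ GG6 n N o (3 ^ s) then 1 / ((N : ℝ) * (3 ^ s) ^ 3) else 0)
      (C / (9 ^ e * 3 ^ s)) := by
  refine ⟨64 / c1, by positivity, ?_⟩
  intro n N W e _ K o b c s hW hN hes hn hc a ha
  obtain ⟨d, rfl⟩ := Nat.exists_eq_add_of_le hes
  have hN0 : 0 < N := by omega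
  have hNR : (0 : ℝ) < N := by exact_mod_cast hN0
  have hd : (0 : ℕ) < 3 ^ d := by positivity
  have hsT : 3 ^ d * 3 ^ e = 3 ^ (e + d) := by rw [pow_add, mul_comm]
  have hE := E4_le3 (h := fun _ => (1 : ℝ)) hW hN hc1 hc o (5 * 3 ^ d) (by
    have : 3 ^ e * (5 * 3 ^ d) = 5 * 3 ^ (e + d) := by rw [← hsT]; ring
    omega) (fun _ _ => rfl) a
  have hL := lines (3 ^ d) 1 hd one_pos (UT n N e o a) ?_
  · have h27 : (27 : ℝ) ^ e = (3 ^ e) ^ 3 := by
      rw [← pow_mul, mul_comm e 3, pow_mul]; norm_num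
    have hq : ∑ z, (if z ∈ GG6 n N o (3 ^ (e + d)) then
        1 / ((N : ℝ) * (3 ^ (e + d)) ^ 3) else 0) * a z =
        (1 / (((3 ^ d : ℕ) : ℝ) ^ 3 * (1 : ℕ))) * ∑ x ∈ range (3 ^ d), ∑ y ∈ range (3 ^ d),
          ∑ z ∈ range (3 ^ d), ∑ w ∈ range 1, UT n N e o a (x + 4 * 3 ^ d) y z w := by
      have e1 : ∑ z, (if z ∈ GG6 n N o (3 ^ (e + d)) then
          1 / ((N : ℝ) * (3 ^ (e + d)) ^ 3) else 0) * a z =
          1 / ((N : ℝ) * (3 ^ (e + d)) ^ 3) * ∑ z ∈ GG6 n N o (3 ^ (e + d)), a z := by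
        rw [Finset.mul_sum,
          ← Finset.sum_filter_add_sum_filter_not univ (fun z => z ∈ GG6 n N o (3 ^ (e + d)))]
        rw [Finset.sum_eq_zero (s := univ.filter fun z => ¬ z ∈ GG6 n N o (3 ^ (e + d))), add_zero]
        · rw [Finset.filter_mem_eq_inter, Finset.univ_inter]
          exact Finset.sum_congr rfl fun z hz => by rw [if_pos hz]
        · intro z hz
          rw [if_neg (Finset.mem_filter.1 hz).2, zero_mul]
      have e2 : ∑ z ∈ GG6 n N o (3 ^ (e + d)), a z = ∑ x ∈ range (3 ^ d), ∑ y ∈ range (3 ^ d),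
          ∑ z ∈ range (3 ^ d), ((N : ℝ) * 27 ^ e) * UC n N e o a (x + 4 * 3 ^ d) y z := by
        unfold GG6
        rw [Finset.sum_product_right, sum_cube _ (3 ^ (e + d)) (by omega), ← hsT, st3_cells]
        refine Finset.sum_congr rfl fun x _ => Finset.sum_congr rfl fun y _ =>
          Finset.sum_congr rfl fun z _ => ?_
        unfold UC
        have hne : ((N : ℝ) * 27 ^ e) ≠ 0 := by positivity
        rw [← mul_assoc ((N : ℝ) * 27 ^ e), mul_one_div_cancel hne, one_mul]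
        refine Finset.sum_congr rfl fun i _ => Finset.sum_congr rfl fun j _ =>
          Finset.sum_congr rfl fun k _ => ?_
        rw [st3_layers (fun l => a (l, pt n (pt n o (4 * (3 ^ d * 3 ^ e)) 0 0) (3 ^ e * x + i)
          (3 ^ e * y + j) (3 ^ e * z + k))), pt_pt]
        refine Finset.sum_congr rfl fun t _ => ?_
        congr 2
        have q1 : 4 * (3 ^ d * 3 ^ e) + (3 ^ e * x + i) = 3 ^ e * (x + 4 * 3 ^ d) + i := by ring
        rw [q1, zero_add, zero_add]
      rw [e1, e2]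
      simp only [← Finset.mul_sum, Finset.sum_range_one, UT]
      rw [← mul_assoc, pow_add, h27]
      push_cast
      congr 1
      field_simp
    rw [hq]
    refine hL.trans ?_
    have h39 : (27 : ℝ) ^ e = 9 ^ e * 3 ^ e := by rw [← mul_pow]; norm_num
    have h3 : (3 : ℝ) ^ (e + d) = 3 ^ e * 3 ^ d := pow_add _ _ _
    have hE' : E4 (5 * 3 ^ d) 1 (UT n N e o a) ≤ 16 / (c1 * 27 ^ e) * netK c a := by
      rw [div_mul_eq_mul_div, le_div_iff₀ (by positivity)]
      linarith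
    calc 4 / (((3 ^ d : ℕ) : ℝ) * (1 : ℕ)) * E4 (5 * 3 ^ d) 1 (UT n N e o a)
        ≤ 4 / (((3 ^ d : ℕ) : ℝ) * (1 : ℕ)) * (16 / (c1 * 27 ^ e) * netK c a) :=
          mul_le_mul_of_nonneg_left hE' (by positivity)
      _ = 64 / c1 / (9 ^ e * 3 ^ (e + d)) * netK c a := by
          rw [h39, h3]
          push_cast
          field_simp
          ring
  · intro x hx y hy z hz w hw
    unfold UT UC
    have h1 : ∀ i ∈ range (3 ^ e), ∀ j ∈ range (3 ^ e), ∀ k ∈ range (3 ^ e), ∀ t ∈ range N,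
        a (lay N N 0 t, pt n o (3 ^ e * x + i) (3 ^ e * y + j) (3 ^ e * z + k)) = 1 := by
      intro i hi j hj k hk t ht
      refine ha _ ?_
      unfold EE6
      rw [Finset.mem_union]
      right
      rw [Finset.mem_product]
      have key : ∀ {x i : ℕ}, x < 3 ^ d → i ∈ range (3 ^ e) → 3 ^ e * x + i < 3 ^ (e + d) := by
        intro x i hx hi
        rw [← hsT, mul_comm (3 ^ d) (3 ^ e)]
        have h1 := Finset.mem_range.1 hi
        calc 3 ^ e * x + i < 3 ^ e * x + 3 ^ e := by omega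
          _ = 3 ^ e * (x + 1) := by ring
          _ ≤ 3 ^ e * 3 ^ d := Nat.mul_le_mul_left _ hx
      refine ⟨?_, ?_⟩
      · rw [Finset.mem_filter]
        exact ⟨Finset.mem_univ _, st_lay_ne (m := 1) (one_mul N).symm one_pos
          (Finset.mem_range.1 ht)⟩
      · exact (mem_cube_iff o _ _).2 ⟨_, key hx hi, _, key hy hj, _, key hz hk, rfl⟩
    rw [Finset.sum_congr rfl fun i hi => Finset.sum_congr rfl fun j hj =>
      Finset.sum_congr rfl fun k hk => Finset.sum_congr rfl fun t ht => h1 i hi j hj k hk t ht]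
    simp only [Finset.sum_const, Finset.card_range, nsmul_eq_mul, mul_one]
    push_cast
    rw [show (27 : ℝ) ^ e = 3 ^ e * 3 ^ e * 3 ^ e by rw [← mul_pow, ← mul_pow]; norm_num]
    field_simp

end Vale.Agent.P361.LRO.Ind3
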