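import Vale.Agent.P361.LRO.Ind3.Defs

/-!
# P361 LRO, stage 3: sums over cells (helper232)

Nodes of the cell `P = (x, y, z, w)` are `nod P q`, `q ∈ JJ`.
-/

namespace Vale.Agent.P361.LRO.Ind3

open Finset Vale.Agent.P361.LRO _root_.P361.LRO Vale.Agent.P361.LRO.Ind

namespace Cl

/-- block indices and indices inside a block -/
abbrev Ix : Type := ℕ × ℕ × ℕ × ℕ

/-- The node `q = (i, j, k, t)` of the block `P = (x, y, z, w)`. -/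
def nod (n N W e : ℕ) (o : Tor n) (P q : Ix) : Nd n N :=
  (lay N W P.2.2.2 q.2.2.2,
    pt n o (3 ^ e * P.1 + q.1) (3 ^ e * P.2.1 + q.2.1) (3 ^ e * P.2.2.1 + q.2.2.1))

/-- indices inside a block -/
def JJ (W e : ℕ) : Finset Ix :=
  range (3 ^ e) ×ˢ (range (3 ^ e) ×ˢ (range (3 ^ e) ×ˢ range W))

theorem mem_JJ {W e : ℕ} {q : Ix} : q ∈ JJ W e ↔
    q.1 < 3 ^ e ∧ q.2.1 < 3 ^ e ∧ q.2.2.1 < 3 ^ e ∧ q.2.2.2 < W := by
  simp [JJ]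

theorem card_JJ (W e : ℕ) : ((JJ W e).card : ℝ) = 27 ^ e * W := by
  simp only [JJ, card_product, card_range]
  push_cast
  have : (27 : ℝ) = 3 * 3 * 3 := by norm_num
  rw [this, mul_pow, mul_pow]
  ring

theorem sum4 (A B C D : ℕ) (f : ℕ → ℕ → ℕ → ℕ → ℝ) :
    ∑ x ∈ range A, ∑ y ∈ range B, ∑ z ∈ range C, ∑ w ∈ range D, f x y z w =
      ∑ P ∈ range A ×ˢ (range B ×ˢ (range C ×ˢ range D)), f P.1 P.2.1 P.2.2.1 P.2.2.2 := by
  rw [sum_product]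
  refine sum_congr rfl fun x _ => ?_
  rw [sum_product]
  refine sum_congr rfl fun y _ => ?_
  rw [sum_product]

/-- Average of `a` over the block `P`. -/
noncomputable def av (n N W e : ℕ) (o : Tor n) (a : Nd n N → ℝ) (P : Ix) : ℝ :=
  (1 / ((W : ℝ) * 27 ^ e)) * ∑ q ∈ JJ W e, a (nod n N W e o P q)

theorem lay_val {N W m w j : ℕ} (hN : N = m * W) (hw : w < m) (hj : j < W) :
    ((lay N W w j : Fin (N + 1)) : ℕ) = 1 + w * W + j := by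
  have h : 1 + w * W + j < N + 1 := by
    have : (w + 1) * W ≤ m * W := Nat.mul_le_mul_right _ hw
    rw [hN]
    nlinarith
  unfold lay
  rw [dif_pos h]

theorem div_unique {W w j w' j' : ℕ} (hj : j < W) (hj' : j' < W)
    (h : w * W + j = w' * W + j') : w = w' ∧ j = j' := by
  have hW : 0 < W := by omega
  have h2 : (w * W + j) / W = w := by
    rw [mul_comm, Nat.mul_add_div hW, Nat.div_eq_of_lt hj, add_zero]
  have h3 : (w' * W + j') / W = w' := by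
    rw [mul_comm, Nat.mul_add_div hW, Nat.div_eq_of_lt hj', add_zero]
  have h4 : w = w' := by rw [← h2, ← h3, h]
  subst h4
  exact ⟨rfl, by omega⟩

theorem pt_inj' {n : ℕ} [NeZero n] (o : Tor n) {a b c a' b' c' : ℕ} (ha : a < n)
    (hb : b < n) (hc : c < n) (ha' : a' < n) (hb' : b' < n) (hc' : c' < n)
    (h : pt n o a b c = pt n o a' b' c') : a = a' ∧ b = b' ∧ c = c' := by
  have h1 : (![(a : ZMod n), (b : ZMod n), (c : ZMod n)] : Fin 3 → ZMod n) =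
      ![(a' : ZMod n), (b' : ZMod n), (c' : ZMod n)] := by
    unfold pt at h
    exact add_left_cancel h
  have key : ∀ {u v : ℕ}, u < n → v < n → (u : ZMod n) = v → u = v := by
    intro u v hu hv h
    have := congrArg ZMod.val h
    rwa [ZMod.val_natCast_of_lt hu, ZMod.val_natCast_of_lt hv] at this
  exact ⟨key ha ha' (congrFun h1 0), key hb hb' (congrFun h1 1), key hc hc' (congrFun h1 2)⟩

/-- block indices in range -/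
def Ok (S : ℕ) (P : Ix) : Prop := P.1 < S ∧ P.2.1 < S ∧ P.2.2.1 < S ∧ P.2.2.2 < 4

theorem cell_lt {e S x i : ℕ} (hx : x < S) (hi : i < 3 ^ e) : 3 ^ e * x + i < 3 ^ e * S := by
  have : 3 ^ e * (x + 1) ≤ 3 ^ e * S := Nat.mul_le_mul_left _ hx
  nlinarith

theorem nod_inj {n N W e : ℕ} [NeZero n] (hN : N = 4 * W) (o : Tor n) {S : ℕ}
    (hS : 3 ^ e * S ≤ n) {P Q q r : Ix} (hP : Ok S P) (hQ : Ok S Q) (hq : q ∈ JJ W e)
    (hr : r ∈ JJ W e) (h : nod n N W e o P q = nod n N W e o Q r) : P = Q ∧ q = r := by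
  rw [mem_JJ] at hq hr
  obtain ⟨p1, p2, p3, p4⟩ := P
  obtain ⟨q1, q2, q3, q4⟩ := Q
  obtain ⟨i, j, k, t⟩ := q
  obtain ⟨i', j', k', t'⟩ := r
  obtain ⟨hp1, hp2, hp3, hp4⟩ := hP
  obtain ⟨hq1, hq2, hq3, hq4⟩ := hQ
  obtain ⟨hi, hj, hk, ht⟩ := hq
  obtain ⟨hi', hj', hk', ht'⟩ := hr
  simp only [nod, Prod.mk.injEq] at h hp1 hp2 hp3 hp4 hq1 hq2 hq3 hq4 hi hj hk ht hi' hj' hk' ht'
  obtain ⟨h1, h2⟩ := h
  have h3 := congrArg Fin.val h1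
  rw [lay_val hN hp4 ht, lay_val hN hq4 ht'] at h3
  obtain ⟨e1, e2⟩ := div_unique ht ht' (by omega : p4 * W + t = q4 * W + t')
  obtain ⟨a1, a2, a3⟩ := pt_inj' o ((cell_lt hp1 hi).trans_le hS) ((cell_lt hp2 hj).trans_le hS)
    ((cell_lt hp3 hk).trans_le hS) ((cell_lt hq1 hi').trans_le hS) ((cell_lt hq2 hj').trans_le hS)
    ((cell_lt hq3 hk').trans_le hS) h2
  obtain ⟨b1, b2⟩ := div_unique (w := p1) (w' := q1) hi hi'
    (by rw [mul_comm p1, mul_comm q1]; exact a1)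
  obtain ⟨c1, c2⟩ := div_unique (w := p2) (w' := q2) hj hj'
    (by rw [mul_comm p2, mul_comm q2]; exact a2)
  obtain ⟨d1, d2⟩ := div_unique (w := p3) (w' := q3) hk hk'
    (by rw [mul_comm p3, mul_comm q3]; exact a3)
  rw [e1, e2, b1, b2, c1, c2, d1, d2]
  exact ⟨rfl, rfl⟩

theorem mem_cube_pt {n : ℕ} [NeZero n] (o : Tor n) {S x y z : ℕ} (hx : x < S) (hy : y < S)
    (hz : z < S) : pt n o x y z ∈ cube n o S := by
  unfold cube pt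
  refine Finset.mem_image.2 ⟨![⟨x, hx⟩, ⟨y, hy⟩, ⟨z, hz⟩], Finset.mem_univ _, ?_⟩
  congr 1
  funext i
  fin_cases i <;> rfl

theorem pt_add {n : ℕ} (o : Tor n) (a b c i j k : ℕ) :
    pt n o (a + i) (b + j) (c + k) = pt n (pt n o a b c) i j k := by
  unfold pt
  rw [add_assoc]
  congr 1
  funext t
  fin_cases t <;> simp

/-- the nodes of a cell and its upper neighbours are in the double cube -/
theorem mem_dbl {n : ℕ} [NeZero n] (o : Tor n) {e X Y Z x y z i j k : ℕ} (hx : X ≤ x)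
    (hx' : x ≤ X + 1) (hy : Y ≤ y) (hy' : y ≤ Y + 1) (hz : Z ≤ z) (hz' : z ≤ Z + 1)
    (hi : i < 3 ^ e) (hj : j < 3 ^ e) (hk : k < 3 ^ e) :
    pt n o (3 ^ e * x + i) (3 ^ e * y + j) (3 ^ e * z + k) ∈
      cube n (pt n o (3 ^ e * X) (3 ^ e * Y) (3 ^ e * Z)) (2 * 3 ^ e) := by
  have key : ∀ {X x i : ℕ}, X ≤ x → x ≤ X + 1 → i < 3 ^ e →
      ∃ u, u < 2 * 3 ^ e ∧ 3 ^ e * x + i = 3 ^ e * X + u := by
    intro X x i h1 h2 h3
    rcases (by omega : x = X ∨ x = X + 1) with h | h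
    · exact ⟨i, by omega, by rw [h]⟩
    · exact ⟨3 ^ e + i, by omega, by rw [h]; ring⟩
  obtain ⟨u, hu, hu'⟩ := key hx hx' hi
  obtain ⟨v, hv, hv'⟩ := key hy hy' hj
  obtain ⟨w, hw, hw'⟩ := key hz hz' hk
  rw [hu', hv', hw', pt_add]
  exact mem_cube_pt _ hu hv hw

/-- Jensen for two block sums -/
theorem jensen2 {ι : Type} (J : Finset ι) (f g : ι → ℝ) :
    (∑ q ∈ J, f q - ∑ r ∈ J, g r) ^ 2 ≤ ∑ q ∈ J, ∑ r ∈ J, (f q - g r) ^ 2 := by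
  rcases J.eq_empty_or_nonempty with h | h
  · subst h; simp
  have hJ : (0 : ℝ) < J.card := by exact_mod_cast h.card_pos
  have h1 : ∑ x ∈ J ×ˢ J, (f x.1 - g x.2) =
      J.card * (∑ q ∈ J, f q - ∑ r ∈ J, g r) := by
    rw [sum_product]
    simp only [sum_sub_distrib, sum_const, nsmul_eq_mul]
    rw [← mul_sum]
    ring
  have h2 := sq_sum_le_card_mul_sum_sq (s := J ×ˢ J) (f := fun x : ι × ι => f x.1 - g x.2)
  rw [h1, card_product] at h2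
  have h3 : ∑ x ∈ J ×ˢ J, (f x.1 - g x.2) ^ 2 = ∑ q ∈ J, ∑ r ∈ J, (f q - g r) ^ 2 := by
    rw [sum_product]
  rw [h3] at h2
  push_cast at h2
  have h4 : ((J.card : ℝ) * J.card) * (∑ q ∈ J, f q - ∑ r ∈ J, g r) ^ 2 ≤
      (J.card * J.card) * ∑ q ∈ J, ∑ r ∈ J, (f q - g r) ^ 2 := by
    calc ((J.card : ℝ) * J.card) * (∑ q ∈ J, f q - ∑ r ∈ J, g r) ^ 2
        = (J.card * (∑ q ∈ J, f q - ∑ r ∈ J, g r)) ^ 2 := by ring
      _ ≤ _ := h2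
  exact le_of_mul_le_mul_left h4 (by positivity)

/-- Sum over an injective family. -/
theorem sum_inj_le {ι X : Type} [Fintype X] (s : Finset ι) (g : ι → X)
    (hg : Set.InjOn g s) (F : X → ℝ) (hF : ∀ x, 0 ≤ F x) : ∑ i ∈ s, F (g i) ≤ ∑ x, F x := by
  classical
  rw [← Finset.sum_image (f := F) hg]
  exact Finset.sum_le_univ_sum_of_nonneg hF

section main

variable {n N W e : ℕ} [NeZero n] {K c1 : ℝ} {b : Finset (Tor n)} {h : Tor n → ℝ}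
    {c : Nd n N → Nd n N → ℝ}

/-- equal or adjacent cells, quarters at distance at least 2 -/
def Adj (P Q : Ix) : Prop :=
  (∃ X Y Z, X ≤ P.1 ∧ P.1 ≤ X + 1 ∧ X ≤ Q.1 ∧ Q.1 ≤ X + 1 ∧
    Y ≤ P.2.1 ∧ P.2.1 ≤ Y + 1 ∧ Y ≤ Q.2.1 ∧ Q.2.1 ≤ Y + 1 ∧
    Z ≤ P.2.2.1 ∧ P.2.2.1 ≤ Z + 1 ∧ Z ≤ Q.2.2.1 ∧ Q.2.2.1 ≤ Z + 1) ∧
  (P.2.2.2 + 2 ≤ Q.2.2.2 ∨ Q.2.2.2 + 2 ≤ P.2.2.2)

theorem lay_ne {w t : ℕ} (hN : N = 4 * W) (hw : w < 4) (ht : t < W) :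
    (lay N W w t : Fin (N + 1)) ≠ 0 := by
  intro h0
  have h1 := lay_val hN hw ht
  rw [h0] at h1
  simp at h1
  omega

theorem cond_aux (hN : N = 4 * W) (hc : Local3 n N W e K c1 b h c) (o : Tor n) {S : ℕ}
    (h1 : ∀ x ∈ cube n o (3 ^ e * S), h x = 1) {P Q q r : Ix} (hP : Ok S P) (hQ : Ok S Q)
    (hq : q ∈ JJ W e) (hr : r ∈ JJ W e) (X Y Z : ℕ)
    (hcell : X ≤ P.1 ∧ P.1 ≤ X + 1 ∧ X ≤ Q.1 ∧ Q.1 ≤ X + 1 ∧
      Y ≤ P.2.1 ∧ P.2.1 ≤ Y + 1 ∧ Y ≤ Q.2.1 ∧ Q.2.1 ≤ Y + 1 ∧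
      Z ≤ P.2.2.1 ∧ P.2.2.1 ≤ Z + 1 ∧ Z ≤ Q.2.2.1 ∧ Q.2.2.1 ≤ Z + 1)
    (hw : P.2.2.2 + 2 ≤ Q.2.2.2) :
    c1 / ((N : ℝ) ^ 2 * 27 ^ e) ≤ c (nod n N W e o P q) (nod n N W e o Q r) := by
  rw [mem_JJ] at hq hr
  obtain ⟨hp1, hp2, hp3, hp4⟩ := hP
  obtain ⟨hq1, hq2, hq3, hq4⟩ := hQ
  obtain ⟨a1, a2, a3, a4, a5, a6, a7, a8, a9, a10, a11, a12⟩ := hcell
  have e1 := lay_val hN hp4 hq.2.2.2
  have e2 := lay_val hN hq4 hr.2.2.2
  have m1 : (P.2.2.2 + 2) * W ≤ Q.2.2.2 * W := Nat.mul_le_mul_right _ hw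
  rw [add_mul] at m1
  have t1 := hq.2.2.2
  have t2 := hr.2.2.2
  refine hc.long _ _ (pt n o (3 ^ e * X) (3 ^ e * Y) (3 ^ e * Z)) _ _ (lay_ne hN hp4 hq.2.2.2)
    ?_ (mem_dbl o a1 a2 a5 a6 a9 a10 hq.1 hq.2.1 hq.2.2.1)
    (mem_dbl o a3 a4 a7 a8 a11 a12 hr.1 hr.2.1 hr.2.2.1) ?_ ?_
  · rw [e1, e2]; omega
  · exact h1 _ (mem_cube_pt o (cell_lt hp1 hq.1) (cell_lt hp2 hq.2.1) (cell_lt hp3 hq.2.2.1))
  · exact h1 _ (mem_cube_pt o (cell_lt hq1 hr.1) (cell_lt hq2 hr.2.1) (cell_lt hq3 hr.2.2.1))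

theorem cond (hN : N = 4 * W) (hc : Local3 n N W e K c1 b h c) (o : Tor n) {S : ℕ}
    (h1 : ∀ x ∈ cube n o (3 ^ e * S), h x = 1) {P Q q r : Ix} (hP : Ok S P) (hQ : Ok S Q)
    (hq : q ∈ JJ W e) (hr : r ∈ JJ W e) (ha : Adj P Q) :
    c1 / ((N : ℝ) ^ 2 * 27 ^ e) ≤ c (nod n N W e o P q) (nod n N W e o Q r) := by
  obtain ⟨⟨X, Y, Z, hcell⟩, hw | hw⟩ := ha
  · exact cond_aux hN hc o h1 hP hQ hq hr X Y Z hcell hw
  · rw [hc.symm]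
    obtain ⟨a1, a2, a3, a4, a5, a6, a7, a8, a9, a10, a11, a12⟩ := hcell
    exact cond_aux hN hc o h1 hQ hP hr hq X Y Z
      ⟨a3, a4, a1, a2, a7, a8, a5, a6, a11, a12, a9, a10⟩ hw

/-- One pair of blocks. -/
theorem pair_le (hW : 0 < W) (hN : N = 4 * W) (hc1 : 0 < c1) (hc : Local3 n N W e K c1 b h c)
    (o : Tor n) {S : ℕ} (h1 : ∀ x ∈ cube n o (3 ^ e * S), h x = 1) (a : Nd n N → ℝ) {P Q : Ix}
    (hP : Ok S P) (hQ : Ok S Q) (ha : Adj P Q) :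
    c1 * 27 ^ e / 16 * (av n N W e o a P - av n N W e o a Q) ^ 2 ≤
      ∑ q ∈ JJ W e, ∑ r ∈ JJ W e, c (nod n N W e o P q) (nod n N W e o Q r) *
        (a (nod n N W e o P q) - a (nod n N W e o Q r)) ^ 2 := by
  have hW' : (0 : ℝ) < W := by exact_mod_cast hW
  have hN' : (N : ℝ) = 4 * W := by rw [hN]; push_cast; ring
  have h27 : (0 : ℝ) < 27 ^ e := by positivity
  have hJ := jensen2 (JJ W e) (fun q => a (nod n N W e o P q)) (fun q => a (nod n N W e o Q q))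
  have e1 : c1 * 27 ^ e / 16 * (av n N W e o a P - av n N W e o a Q) ^ 2 =
      c1 / ((N : ℝ) ^ 2 * 27 ^ e) * (∑ q ∈ JJ W e, a (nod n N W e o P q) -
        ∑ q ∈ JJ W e, a (nod n N W e o Q q)) ^ 2 := by
    unfold av
    rw [hN']
    field_simp
    ring
  rw [e1]
  have hg : 0 ≤ c1 / ((N : ℝ) ^ 2 * 27 ^ e) := by positivity
  refine (mul_le_mul_of_nonneg_left hJ hg).trans ?_
  rw [mul_sum]
  refine sum_le_sum fun q hq => ?_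
  rw [mul_sum]
  refine sum_le_sum fun r hr => ?_
  exact mul_le_mul_of_nonneg_right (cond hN hc o h1 hP hQ hq hr ha) (sq_nonneg _)

/-- A family of pairs of blocks. -/
theorem fam_le (hW : 0 < W) (hN : N = 4 * W) (hc1 : 0 < c1) (hc : Local3 n N W e K c1 b h c)
    (o : Tor n) {S : ℕ} (hS : 3 ^ e * S ≤ n) (h1 : ∀ x ∈ cube n o (3 ^ e * S), h x = 1)
    (a : Nd n N → ℝ) {ι : Type} (I : Finset ι) (P Q : ι → Ix) (hP : ∀ i ∈ I, Ok S (P i))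
    (hQ : ∀ i ∈ I, Ok S (Q i)) (ha : ∀ i ∈ I, Adj (P i) (Q i))
    (hinj : ∀ i ∈ I, ∀ j ∈ I, P i = P j → Q i = Q j → i = j) :
    c1 * 27 ^ e / 16 * ∑ i ∈ I, (av n N W e o a (P i) - av n N W e o a (Q i)) ^ 2 ≤
      2 * netK c a := by
  have htot : 2 * netK c a = ∑ x : Nd n N × Nd n N, c x.1 x.2 * (a x.1 - a x.2) ^ 2 := by
    unfold netK
    rw [Fintype.sum_prod_type (fun x : Nd n N × Nd n N => c x.1 x.2 * (a x.1 - a x.2) ^ 2)]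
    ring
  rw [htot, mul_sum]
  refine (sum_le_sum fun i hi =>
    pair_le hW hN hc1 hc o h1 a (hP i hi) (hQ i hi) (ha i hi)).trans ?_
  have h2 : ∑ i ∈ I, ∑ q ∈ JJ W e, ∑ r ∈ JJ W e, c (nod n N W e o (P i) q) (nod n N W e o (Q i) r) *
        (a (nod n N W e o (P i) q) - a (nod n N W e o (Q i) r)) ^ 2 =
      ∑ t ∈ I ×ˢ (JJ W e ×ˢ JJ W e),
        c (nod n N W e o (P t.1) t.2.1) (nod n N W e o (Q t.1) t.2.2) *
        (a (nod n N W e o (P t.1) t.2.1) - a (nod n N W e o (Q t.1) t.2.2)) ^ 2 := by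
    rw [sum_product]
    refine sum_congr rfl fun i _ => ?_
    rw [sum_product]
  rw [h2]
  refine sum_inj_le (X := Nd n N × Nd n N) _
    (fun t : ι × Ix × Ix => (nod n N W e o (P t.1) t.2.1, nod n N W e o (Q t.1) t.2.2)) ?_
    (fun x => c x.1 x.2 * (a x.1 - a x.2) ^ 2)
    (fun x => mul_nonneg (hc.nonneg _ _) (sq_nonneg _))
  rintro ⟨i, q, r⟩ ht ⟨i', q', r'⟩ ht' heq
  simp only [coe_product, Set.mem_prod, mem_coe] at ht ht'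
  obtain ⟨hi, hq, hr⟩ := ht
  obtain ⟨hi', hq', hr'⟩ := ht'
  simp only [Prod.mk.injEq] at heq
  obtain ⟨e1, e2⟩ := heq
  obtain ⟨f1, f2⟩ := nod_inj hN o hS (hP i hi) (hP i' hi') hq hq' e1
  obtain ⟨g1, g2⟩ := nod_inj hN o hS (hQ i hi) (hQ i' hi') hr hr' e2
  have := hinj i hi i' hi' f1 g1
  rw [this, f2, g2]

end main

end Cl

end Vale.Agent.P361.LRO.Ind3
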