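import Vale.Agent.P361.LRO.Ind3.LocalStmt
import Vale.Agent.P361.LRO.Bloch.DeltaCC

/-!
P361 LRO, stage 3: the defect bound `DeltaStmt` (input of `Ind3/LocalInst.lean`), hence
`LocalStmt3`.
-/

namespace Vale.Agent.P361.LRO.Ind3

open Finset Matrix Vale.Agent.P361.LRO _root_.P361.LRO Vale.Agent.P361.LRO.Ind
  Vale.Agent.P361.LRO.Bloch

noncomputable section

/-- **The defect bound.** -/
theorem deltaStmt : DeltaStmt := by
  refine ⟨4, by norm_num, ?_⟩
  intro V _ _ L β K η b hβ hK _ hb hη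
  obtain ⟨N0, hN00, hN0⟩ := Delta.hX L hβ hK.le hη
  obtain ⟨N1, hN1⟩ := exists_nat_gt β
  refine ⟨N0 + N1, ?_⟩
  intro N hN h hh hr k m hkm x y w1 w2 a c p hw
  obtain ⟨h1, h2⟩ := hN0 N (by omega) b hb h hh hr k m hkm x y w1 w2 a c p hw
  have hN' : 1 ≤ N := by omega
  have hNr : (0 : ℝ) < N := by exact_mod_cast hN'
  have hβN : β ≤ N := by
    have : (N1 : ℝ) ≤ N := by exact_mod_cast (by omega : N1 ≤ N)
    linarith
  have hp0 : 0 ≤ β / (2 * N) := by positivity
  have hp1 : β / (2 * N) ≤ 1 := by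
    rw [div_le_one (by positivity)]
    linarith
  have hθ : ∀ z, 0 ≤ th β N h (blk K b) z ∧ th β N h (blk K b) z ≤ 1 := by
    intro z
    unfold th
    split_ifs with h0
    · exact Delta.blk_bd hK.le b _
    · have h3 := Delta.tt_bd hβ hN' hh z.2
      unfold Delta.tt at h3
      exact ⟨h3.1, h3.2.trans hp1⟩
  have hA : Le 0 (lctx L β N (th β N h (blk K b)) (k + m + 1) x) :=
    (preM_nonneg L hp0 hp1 hθ _).zero_mul (rmM_nonneg (fun _ => hθ _) _)
  have hC : Le 0 (rctx L β N (th β N h (blk K b)) k y) :=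
    (rmM_nonneg (fun _ => hθ _) _).zero_mul (restM_nonneg L hp0 hp1 hθ _)
  have hW : Le 0 (wd (mword L β N (th β N h (blk K b)) k m)) :=
    wd_nonneg (ok_mid L hp0 hp1 (fun _ _ => hθ _) m)
  have hZ : 0 ≤ trace (lctx L β N (th β N h (blk K b)) (k + m + 1) x *
      wd (mword L β N (th β N h (blk K b)) k m) * rctx L β N (th β N h (blk K b)) k y) := by
    have := ((hA.zero_mul hW).zero_mul hC).trace
    rwa [Matrix.trace_zero] at this
  have hc : 4 * η * Real.exp (K * η) ≤ 4 * η * Real.exp (4 * (K * η)) := by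
    have h5 : 0 ≤ K * η := by positivity
    have h6 : Real.exp (K * η) ≤ Real.exp (4 * (K * η)) := Real.exp_le_exp.2 (by linarith)
    exact mul_le_mul_of_nonneg_left h6 (by positivity)
  have h4 := mul_le_mul_of_nonneg_right hc hZ
  exact ⟨h1.trans h4, h2.trans h4⟩

theorem localStmt3 : LocalStmt3 := localStmt3_of deltaStmt

end

end Vale.Agent.P361.LRO.Ind3
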