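import Vale.Agent.P361.LRO.Ind3.LadTop
import Vale.Agent.P361.LRO.Ind3.LadMid
import Vale.Agent.P361.LRO.Ind3.LadLast
import Vale.Agent.P361.LRO.Ind3.StepTop
import Vale.Agent.P361.LRO.Ind3.Num

/-!
# P361 LRO, stage 3, network chapter: assembly
-/

namespace Vale.Agent.P361.LRO.Ind3

open Finset Vale.Agent.P361.LRO _root_.P361.LRO Vale.Agent.P361.LRO.Ind

/-- STAGE 3 NETWORK CHAPTER. `c3, C5` absolute (do not depend on `K`). -/
theorem block3 (c1 : ℝ) (hc1 : 0 < c1) : ∃ (e0 : ℕ) (C5 c3 c4 : ℝ), 1 ≤ e0 ∧ 0 < C5 ∧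
    0 < c3 ∧ 0 < c4 ∧ ∀ e : ℕ, e0 ≤ e → ∃ n0 : ℕ, ∀ (n N W : ℕ) [NeZero n]
    (K h0 lam ε : ℝ) (o : Tor n) (a : ℕ) (h : Tor n → ℝ)
    (c : (Tor n → ℝ) → Nd n N → Nd n N → ℝ),
    n0 ≤ n → 0 < W → N = 4 * W → e ≤ a → a ≤ 2 * e →
    1 ≤ K → K ≤ 27 ^ (2 * e) → C5 * K ≤ 27 ^ a → C5 * K ≤ 9 ^ e * 3 ^ a →
    (n : ℝ) ^ (-(1 / 4 : ℝ)) ≤ h0 → h0 ≤ 1 → 1 / 3 ^ (10 * e) ≤ lam → 0 ≤ ε → ε * e ≤ c4 →
    (∀ g, Fam n h0 lam g → Local3 n N W e K c1 (cube n o (3 ^ a)) g (c g)) →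
    Low n N 1 h0 lam ε c →
    Fam n h0 lam h →
    c3 * K ≤ netK (c h) (fun z => if z ∈ hatb N (cube n o (3 ^ a)) then 1 else 0) := by
  obtain ⟨e1, he1, H1⟩ := lad_top3_of c1 (step_top3 c1 hc1)
  obtain ⟨e2, he2, H2⟩ := lad_mid3 c1 hc1
  obtain ⟨e3, C5, c3, c4, he3, hC5, hc3, hc4, H3⟩ := lad_last3 c1 hc1
  refine ⟨max e1 (max e2 e3), C5, c3, min c4 (1 / 1000), he1.trans (le_max_left _ _), hC5, hc3,
    lt_min hc4 (by norm_num), ?_⟩
  intro e he
  have he1' : e1 ≤ e := (le_max_left _ _).trans he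
  have he2' : e2 ≤ e := ((le_max_left _ _).trans (le_max_right _ _)).trans he
  have he3' : e3 ≤ e := ((le_max_right _ _).trans (le_max_right _ _)).trans he
  have he0 : 1 ≤ e := he1.trans he1'
  obtain ⟨n0, hn0⟩ := num_ladder3 e he0
  refine ⟨n0, ?_⟩
  intro n N W _ K h0 lam ε o a h c hn hW hN hea ha2 hK hK2 hC5a hC5b hh0 hh1 hlam hε hεe
    hloc hlow hfam
  have hnpos : (0 : ℝ) < n := by exact_mod_cast Nat.pos_of_ne_zero (NeZero.ne n)
  have hh0pos : 0 < h0 := lt_of_lt_of_le (Real.rpow_pos_of_pos hnpos _) hh0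
  have heR : (1 : ℝ) ≤ e := by exact_mod_cast he0
  have hε1 : ε ≤ 1 / 1000 := by
    have h1 : ε * e ≤ 1 / 1000 := le_trans hεe (min_le_right _ _)
    nlinarith
  have hε4 : ε * e ≤ c4 := le_trans hεe (min_le_left _ _)
  obtain ⟨I, hI, hIn⟩ := hn0 n h0 hn hh0 hh1
  have hpow : ∀ i : ℕ, 100 * e ≤ 4 ^ i * (100 * e) := fun i =>
    Nat.le_mul_of_pos_left _ (by positivity)
  have key : ∀ k i : ℕ, i + k = I →
      LBn (c (HH n lam o (3 ^ (4 ^ i * (100 * e))) h))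
        (EE6 n N o (cube n o (3 ^ a)) (3 ^ (4 ^ i * (100 * e))))
        (GG6 n N o (3 ^ (4 ^ I * (100 * e))))
        (((3 : ℝ) ^ (4 ^ i * (100 * e))) ^ (1 / 3 : ℝ)) := by
    intro k
    induction k with
    | zero =>
      intro i hi
      have : i = I := by omega
      subst this
      exact H1 n N W e K h0 lam ε o _ h c _ he1' hW hN hIn hh0pos hh1 hlam hε hε1
        (hpow _) hI hloc hlow hfam
    | succ k ih =>
      intro i hi
      have h1 := ih (i + 1) (by omega)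
      have e5 : 4 ^ (i + 1) * (100 * e) = 4 * (4 ^ i * (100 * e)) := by ring
      rw [e5] at h1
      have hle : 4 * (4 ^ i * (100 * e)) ≤ 4 ^ I * (100 * e) := by
        rw [← e5]
        exact Nat.mul_le_mul_right _ (Nat.pow_le_pow_right (by norm_num) (by omega))
      exact H2 n N W e K h0 lam ε o _ h c _ _ he2' hW hN hle hIn hh0pos hh1 hlam hε hε1
        (hpow _) hI hloc hlow hfam h1
  have h0' := key I 0 (by omega)
  simp only [pow_zero, one_mul] at h0'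
  have hfin := H3 n N W e K h0 lam ε o a h c (4 ^ I * (100 * e)) he3' hW hN (hpow I) hIn hea ha2
    hK hK2 hC5a hC5b hh0pos hh1 hlam hε hε4 hI hloc hlow hfam h0'
  apply hfin
  · intro x hx
    simp [hx]
  · intro x hx
    have hx0 : x.1 ≠ 0 := by
      simp only [GG6, mem_product, mem_filter, mem_univ, true_and] at hx
      exact hx.1
    have : x ∉ hatb N (cube n o (3 ^ a)) := by
      intro h
      simp only [hatb, mem_product, mem_singleton] at h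
      exact hx0 h.1
    simp [this]

end Vale.Agent.P361.LRO.Ind3
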