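import Vale.Agent.P361.LRO.Ind3.Defs
import Vale.Agent.P361.LRO.Ind3.Num

/-!
# P361 LRO, stage 3, network chapter: the induction over the scales, assembly
-/

namespace Vale.Agent.P361.LRO.Ind3

open Finset Vale.Agent.P361.LRO _root_.P361.LRO Vale.Agent.P361.LRO.Ind

/-- **STAGE 3 NETWORK CHAPTER** from the three rungs. -/
theorem block3_of (c1 : ℝ)
    (H1 : ∃ e0 : ℕ, 1 ≤ e0 ∧ ∀ (n N W e : ℕ) [NeZero n]
      (K h0 lam ε : ℝ) (o : Tor n) (b : Finset (Tor n)) (h : Tor n → ℝ)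
      (c : (Tor n → ℝ) → Nd n N → Nd n N → ℝ) (s : ℕ),
      e0 ≤ e → 0 < W → N = 4 * W → 8 * 3 ^ s < n →
      0 < h0 → h0 ≤ 1 → 1 / 3 ^ (10 * e) ≤ lam → 0 ≤ ε → ε ≤ 1 / 1000 →
      100 * e ≤ s → h0⁻¹ ≤ ((3 : ℝ) ^ s) ^ (5 / 2 : ℝ) →
      (∀ g, Fam n h0 lam g → Local3 n N W e K c1 b g (c g)) → Low n N 1 h0 lam ε c →
      Fam n h0 lam h →
      LBn (c (HH n lam o (3 ^ s) h)) (EE6 n N o b (3 ^ s)) (GG6 n N o (3 ^ s))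
        (((3 : ℝ) ^ s) ^ (1 / 3 : ℝ)))
    (H2 : ∃ e0 : ℕ, 1 ≤ e0 ∧ ∀ (n N W e : ℕ) [NeZero n]
      (K h0 lam ε : ℝ) (o : Tor n) (b : Finset (Tor n)) (h : Tor n → ℝ)
      (c : (Tor n → ℝ) → Nd n N → Nd n N → ℝ) (r S : ℕ),
      e0 ≤ e → 0 < W → N = 4 * W → 4 * r ≤ S → 8 * 3 ^ S < n →
      0 < h0 → h0 ≤ 1 → 1 / 3 ^ (10 * e) ≤ lam → 0 ≤ ε → ε ≤ 1 / 1000 →
      100 * e ≤ r → h0⁻¹ ≤ ((3 : ℝ) ^ S) ^ (5 / 2 : ℝ) →
      (∀ g, Fam n h0 lam g → Local3 n N W e K c1 b g (c g)) → Low n N 1 h0 lam ε c →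
      Fam n h0 lam h →
      LBn (c (HH n lam o (3 ^ (4 * r)) h)) (EE6 n N o b (3 ^ (4 * r))) (GG6 n N o (3 ^ S))
        (((3 : ℝ) ^ (4 * r)) ^ (1 / 3 : ℝ)) →
      LBn (c (HH n lam o (3 ^ r) h)) (EE6 n N o b (3 ^ r)) (GG6 n N o (3 ^ S))
        (((3 : ℝ) ^ r) ^ (1 / 3 : ℝ)))
    (H3 : ∃ (e0 : ℕ) (C5 c3 c4 : ℝ), 1 ≤ e0 ∧ 0 < C5 ∧
      0 < c3 ∧ 0 < c4 ∧ ∀ (n N W e : ℕ) [NeZero n]
      (K h0 lam ε : ℝ) (o : Tor n) (a : ℕ) (h : Tor n → ℝ)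
      (c : (Tor n → ℝ) → Nd n N → Nd n N → ℝ) (S : ℕ),
      e0 ≤ e → 0 < W → N = 4 * W → 100 * e ≤ S → 8 * 3 ^ S < n →
      e ≤ a → a ≤ 2 * e → 1 ≤ K → K ≤ 27 ^ (2 * e) → C5 * K ≤ 27 ^ a → C5 * K ≤ 9 ^ e * 3 ^ a →
      0 < h0 → h0 ≤ 1 → 1 / 3 ^ (10 * e) ≤ lam → 0 ≤ ε → ε * e ≤ c4 →
      h0⁻¹ ≤ ((3 : ℝ) ^ S) ^ (5 / 2 : ℝ) →
      (∀ g, Fam n h0 lam g → Local3 n N W e K c1 (cube n o (3 ^ a)) g (c g)) →
      Low n N 1 h0 lam ε c →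
      Fam n h0 lam h →
      LBn (c (HH n lam o (3 ^ (100 * e)) h)) (EE6 n N o (cube n o (3 ^ a)) (3 ^ (100 * e)))
        (GG6 n N o (3 ^ S)) (((3 : ℝ) ^ (100 * e)) ^ (1 / 3 : ℝ)) →
      LBn (c h) (hatb N (cube n o (3 ^ a))) (GG6 n N o (3 ^ S)) (c3 * K)) :
    ∃ (e0 : ℕ) (C5 c3 c4 : ℝ), 1 ≤ e0 ∧ 0 < C5 ∧
    0 < c3 ∧ 0 < c4 ∧ ∀ e : ℕ, e0 ≤ e → ∃ n0 : ℕ, ∀ (n N W : ℕ) [NeZero n]
    (K h0 lam ε : ℝ) (o : Tor n) (a : ℕ) (h : Tor n → ℝ)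
    (c : (Tor n → ℝ) → Nd n N → Nd n N → ℝ),
    n0 ≤ n → 0 < W → N = 4 * W → e ≤ a → a ≤ 2 * e →
    1 ≤ K → K ≤ 27 ^ (2 * e) → C5 * K ≤ 27 ^ a → C5 * K ≤ 9 ^ e * 3 ^ a →
    (n : ℝ) ^ (-(1 / 4 : ℝ)) ≤ h0 → h0 ≤ 1 → 1 / 3 ^ (10 * e) ≤ lam → 0 ≤ ε → ε * e ≤ c4 →
    (∀ g, Fam n h0 lam g → Local3 n N W e K c1 (cube n o (3 ^ a)) g (c g)) →
    Low n N 1 h0 lam ε c →
    Fam n h0 lam h →
    c3 * K ≤ netK (c h) (fun z => if z ∈ hatb N (cube n o (3 ^ a)) then 1 else 0) := by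
  obtain ⟨b1, hb1, H1⟩ := H1
  obtain ⟨b2, hb2, H2⟩ := H2
  obtain ⟨b3, C5, c3, c4, hb3, hC5, hc3, hc4, H3⟩ := H3
  refine ⟨max b1 (max b2 b3), C5, c3, min c4 (1 / 1000), le_max_of_le_left hb1, hC5, hc3,
    lt_min hc4 (by norm_num), ?_⟩
  intro e he
  have he1 : b1 ≤ e := le_trans (le_max_left _ _) he
  have he2 : b2 ≤ e := le_trans (le_trans (le_max_left _ _) (le_max_right _ _)) he
  have he3 : b3 ≤ e := le_trans (le_trans (le_max_right _ _) (le_max_right _ _)) he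
  have hepos : 1 ≤ e := hb1.trans he1
  obtain ⟨n0, hn0⟩ := num_ladder3 e hepos
  refine ⟨n0, ?_⟩
  intro n N W _ K h0 lam ε o a h c hn hW hN hea ha2 hK hK2 hK3 hK4 hh0 hh1 hlam hε hεl hloc hlow
    hfam
  have hnpos : (0 : ℝ) < n := by exact_mod_cast Nat.pos_of_ne_zero (NeZero.ne n)
  have hh0pos : 0 < h0 := lt_of_lt_of_le (Real.rpow_pos_of_pos hnpos _) hh0
  have he1' : (1 : ℝ) ≤ e := by exact_mod_cast hepos
  have hε1 : ε ≤ 1 / 1000 := by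
    have h1 : ε * e ≤ 1 / 1000 := le_trans hεl (min_le_right _ _)
    nlinarith
  have hε4 : ε * e ≤ c4 := le_trans hεl (min_le_left _ _)
  obtain ⟨I, hI, hIn⟩ := hn0 n h0 hn hh0 hh1
  have hpow : ∀ i : ℕ, 100 * e ≤ 4 ^ i * (100 * e) := fun i =>
    Nat.le_mul_of_pos_left _ (by positivity)
  -- downward induction
  have key : ∀ k i : ℕ, i + k = I →
      LBn (c (HH n lam o (3 ^ (4 ^ i * (100 * e))) h))
        (EE6 n N o (cube n o (3 ^ a)) (3 ^ (4 ^ i * (100 * e))))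
        (GG6 n N o (3 ^ (4 ^ I * (100 * e)))) (((3 : ℝ) ^ (4 ^ i * (100 * e))) ^ (1 / 3 : ℝ)) := by
    intro k
    induction k with
    | zero =>
      intro i hi
      have : i = I := by omega
      subst this
      exact H1 n N W e K h0 lam ε o _ h c _ he1 hW hN hIn hh0pos hh1 hlam hε hε1
        (hpow _) hI hloc hlow hfam
    | succ k ih =>
      intro i hi
      have h1 := ih (i + 1) (by omega)
      have e' : 4 ^ (i + 1) * (100 * e) = 4 * (4 ^ i * (100 * e)) := by ring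
      rw [e'] at h1
      have hle : 4 * (4 ^ i * (100 * e)) ≤ 4 ^ I * (100 * e) := by
        rw [← e']
        exact Nat.mul_le_mul_right _ (Nat.pow_le_pow_right (by norm_num) (by omega))
      exact H2 n N W e K h0 lam ε o _ h c _ _ he2 hW hN hle hIn hh0pos hh1 hlam hε hε1
        (hpow _) hI hloc hlow hfam h1
  have h0' := key I 0 (by omega)
  simp only [pow_zero, one_mul] at h0'
  have hfin := H3 n N W e K h0 lam ε o a h c (4 ^ I * (100 * e)) he3 hW hN (hpow I) hIn hea ha2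
    hK hK2 hK3 hK4 hh0pos hh1 hlam hε hε4 hI hloc hlow hfam h0'
  apply hfin
  · intro x hx
    simp [hx]
  · intro x hx
    have hx0 : x.1 ≠ 0 := by
      simp only [GG6, mem_product, mem_filter, mem_univ, true_and] at hx
      exact hx.1
    have : x ∉ hatb N (cube n o (3 ^ a)) := by
      intro h
      simp only [hatb, mem_product, mem_singleton] at h
      exact hx0 h.1
    simp [this]

end Vale.Agent.P361.LRO.Ind3
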