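import Vale.Agent.P361.LRO.Ind3.Defs
import Vale.Agent.P361.LRO.Ind.LocalInst
import Vale.Agent.P361.LRO.Ind.GeoA
import Vale.Agent.P361.LRO.SR.Good
import Vale.Agent.P361.LRO.Mag.TrMag
import Vale.Agent.P361.LRO.Dict.Limit
import Vale.Agent.P361.LRO.Net.LowGlue2
import Vale.Agent.P361.LRO.S3.Iface

/-!
P361 LRO, stage 3: the stiffness statement `KappaStmt3` for the family of physical fields `g / β`,
`g ∈ Fam n g0 β⁻⁵`, from the abstract chapter `Block3` (= theorem `block3` of `Ind3/Final.lean`)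
and the local instance `LocalStmt3`.
-/

namespace Vale.Agent.P361.LRO.Ind3

open Finset Filter Vale.Agent.P361.LRO _root_.P361.LRO Vale.Agent.P361.LRO.Ind

noncomputable section

/-- The local instance: `Local3` holds for the physical network, with an absolute `c1`. -/
def LocalStmt3 : Prop :=
  ∃ c1 : ℝ, 0 < c1 ∧ ∀ C7 Lam : ℝ, 0 < C7 → 0 < Lam →
    ∃ β0 : ℝ, ∀ β : ℝ, β0 ≤ β → ∃ n0 : ℕ, ∀ (n : ℕ) [NeZero n], n0 ≤ n →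
    ∀ (e : ℕ) (K : ℝ) (b : Finset (Tor n)), β ^ (1 / 2 : ℝ) ≤ (3 : ℝ) ^ e →
    (3 : ℝ) ^ e ≤ 3 * β ^ (1 / 2 : ℝ) → 1 ≤ K → K ≤ Lam * β ^ (3 / 2 : ℝ) → K ≤ b.card →
    ∃ W0 : ℕ, ∀ W : ℕ, W0 ≤ W → ∀ g : Tor n → ℝ, (∀ x, 0 < g x ∧ g x ≤ 1) →
      (∀ x, rho (edges n) β (fun y => g y / β) x ≤ C7 * β ^ (-(3 / 2) : ℝ)) →
      Local3 n (4 * W) W e K c1 b g (Net.cphys3 n β (4 * W) K b g)

/-- The abstract chapter, exactly the statement of `block3`. -/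
def Block3 : Prop :=
  ∀ c1 : ℝ, 0 < c1 → ∃ (e0 : ℕ) (C5 c3 c4 : ℝ), 1 ≤ e0 ∧ 0 < C5 ∧
    0 < c3 ∧ 0 < c4 ∧ ∀ e : ℕ, e0 ≤ e → ∃ n0 : ℕ, ∀ (n N W : ℕ) [NeZero n]
    (K h0 lam ε : ℝ) (o : Tor n) (a : ℕ) (h : Tor n → ℝ)
    (c : (Tor n → ℝ) → Nd n N → Nd n N → ℝ),
    n0 ≤ n → 0 < W → N = 4 * W → e ≤ a → a ≤ 2 * e →
    1 ≤ K → K ≤ 27 ^ (2 * e) → C5 * K ≤ 27 ^ a → C5 * K ≤ 9 ^ e * 3 ^ a →
    (n : ℝ) ^ (-(1 / 4 : ℝ)) ≤ h0 → h0 ≤ 1 → 1 / 3 ^ (10 * e) ≤ lam → 0 ≤ ε → ε * e ≤ c4 →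
    (∀ g, Fam n h0 lam g → Local3 n N W e K c1 (cube n o (3 ^ a)) g (c g)) →
    Low n N 1 h0 lam ε c →
    Fam n h0 lam h →
    c3 * K ≤ netK (c h) (fun z => if z ∈ hatb N (cube n o (3 ^ a)) then 1 else 0)

/-- The scale `e` of the cells: `3 ^ e ∈ [√β, 3 √β]`. -/
theorem cell_exists {β : ℝ} (hβ : 1 ≤ β) : ∃ e : ℕ, β ^ (1 / 2 : ℝ) ≤ (3 : ℝ) ^ e ∧
    (3 : ℝ) ^ e ≤ 3 * β ^ (1 / 2 : ℝ) ∧
    ∀ a : ℕ, β ^ (1 / 2 : ℝ) ≤ (3 : ℝ) ^ a → e ≤ a := by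
  have hex : ∃ e : ℕ, β ^ (1 / 2 : ℝ) ≤ (3 : ℝ) ^ e := by
    obtain ⟨e, he⟩ := pow_unbounded_of_one_lt (β ^ (1 / 2 : ℝ)) (by norm_num : (1:ℝ) < 3)
    exact ⟨e, he.le⟩
  classical
  refine ⟨Nat.find hex, Nat.find_spec hex, ?_, fun a ha => Nat.find_min' hex ha⟩
  rcases Nat.eq_zero_or_pos (Nat.find hex) with h0 | h0
  · rw [h0, pow_zero]
    have : (1:ℝ) ≤ β ^ (1 / 2 : ℝ) := Real.one_le_rpow hβ (by norm_num)
    linarith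
  · have h1 : ¬ β ^ (1 / 2 : ℝ) ≤ (3 : ℝ) ^ (Nat.find hex - 1) :=
      Nat.find_min hex (by omega)
    push Not at h1
    obtain ⟨k, hk⟩ : ∃ k, Nat.find hex = k + 1 := ⟨Nat.find hex - 1, by omega⟩
    rw [hk] at h1 ⊢
    rw [Nat.add_sub_cancel] at h1
    rw [pow_succ]
    linarith

theorem scales {β K C5 Lam : ℝ} {e a : ℕ} (b2 : 1 ≤ β) (b4 : Lam ≤ β ^ (3 / 2 : ℝ))
    (he1 : β ^ (1 / 2 : ℝ) ≤ (3 : ℝ) ^ e) (ha1 : β ^ (1 / 2 : ℝ) ≤ (3 : ℝ) ^ a)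
    (ha2 : (3 : ℝ) ^ a ≤ β) (hC5 : 0 < C5) (hKL : K ≤ Lam * β ^ (3 / 2 : ℝ))
    (hKc : K ≤ min 1 (1 / C5) * β * 3 ^ a) :
    a ≤ 2 * e ∧ K ≤ 27 ^ (2 * e) ∧ C5 * K ≤ 27 ^ a ∧ C5 * K ≤ 9 ^ e * 3 ^ a ∧
      K ≤ ((3 : ℝ) ^ a) ^ 3 ∧ 1 / (3:ℝ) ^ (10 * e) ≤ β ^ (-(9 / 2) : ℝ) := by
  have hβp : 0 < β := by linarith
  have hmul : ∀ s t : ℝ, β ^ s * β ^ t = β ^ (s + t) := fun s t => (Real.rpow_add hβp s t).symm
  have hp : ∀ s : ℝ, 0 < β ^ s := fun s => Real.rpow_pos_of_pos hβp s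
  have hhalf : β ^ (1 / 2 : ℝ) * β ^ (1 / 2 : ℝ) = β := by
    rw [hmul]; norm_num
  have hβe : β ≤ (3:ℝ) ^ e * 3 ^ e := by
    rw [← hhalf]
    exact mul_le_mul he1 he1 (hp _).le (by positivity)
  have hβa : β ≤ (3:ℝ) ^ a * 3 ^ a := by
    rw [← hhalf]
    exact mul_le_mul ha1 ha1 (hp _).le (by positivity)
  have h32 : β ^ (3 / 2 : ℝ) * β ^ (3 / 2 : ℝ) = β ^ 3 := by
    rw [hmul, ← Real.rpow_natCast]; norm_num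
  have h27 : (27:ℝ) ^ a = (3:ℝ) ^ a * 3 ^ a * 3 ^ a := by
    rw [← mul_pow, ← mul_pow]; norm_num
  have h9 : (9:ℝ) ^ e = (3:ℝ) ^ e * 3 ^ e := by
    rw [← mul_pow]; norm_num
  have hKc1 : K ≤ β * 3 ^ a := by
    have h1 : min 1 (1 / C5) * (β * 3 ^ a) ≤ 1 * (β * 3 ^ a) :=
      mul_le_mul_of_nonneg_right (min_le_left _ _) (by positivity)
    linarith
  have hKc5 : C5 * K ≤ β * 3 ^ a := by
    have h1 : min 1 (1 / C5) * (β * 3 ^ a) ≤ 1 / C5 * (β * 3 ^ a) :=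
      mul_le_mul_of_nonneg_right (min_le_right _ _) (by positivity)
    have h2 : K ≤ 1 / C5 * (β * 3 ^ a) := by linarith
    have h3 := mul_le_mul_of_nonneg_left h2 hC5.le
    have h4 : C5 * (1 / C5 * (β * 3 ^ a)) = β * 3 ^ a := by
      field_simp
    linarith
  have hb27 : β * 3 ^ a ≤ (27:ℝ) ^ a := by
    rw [h27]; exact mul_le_mul_of_nonneg_right hβa (by positivity)
  refine ⟨?_, ?_, hKc5.trans hb27, ?_, ?_, ?_⟩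
  · have h1 : (3:ℝ) ^ a ≤ 3 ^ (2 * e) := by
      rw [two_mul, pow_add]; exact ha2.trans hβe
    exact (pow_le_pow_iff_right₀ (by norm_num : (1:ℝ) < 3)).1 h1
  · have h1 : K ≤ β ^ 3 := by
      rw [← h32]
      exact hKL.trans (mul_le_mul_of_nonneg_right b4 (hp _).le)
    have h2 : (27:ℝ) ^ (2 * e) = ((3:ℝ) ^ e * 3 ^ e) ^ 3 := by
      have : (27:ℝ) = 3 ^ 3 := by norm_num
      rw [this, ← pow_add, ← pow_mul, ← pow_mul]; congr 1; ring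
    rw [h2]
    exact h1.trans (pow_le_pow_left₀ hβp.le hβe 3)
  · rw [h9]
    exact hKc5.trans (mul_le_mul_of_nonneg_right hβe (by positivity))
  · have h1 : ((3:ℝ) ^ a) ^ 3 = 27 ^ a := by rw [h27]; ring
    rw [h1]
    exact hKc1.trans hb27
  · refine le_trans ?_ (Real.rpow_le_rpow_of_exponent_le b2
      (by norm_num : (-5 : ℝ) ≤ -(9 / 2)))
    have h1 : β ^ 5 ≤ (3:ℝ) ^ (10 * e) := by
      have h2 : (3:ℝ) ^ (10 * e) = ((3:ℝ) ^ e * 3 ^ e) ^ 5 := by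
        rw [← pow_add, ← pow_mul]; congr 1; ring
      rw [h2]
      exact pow_le_pow_left₀ hβp.le hβe 5
    have h3 : β ^ (-5 : ℝ) = (β ^ 5)⁻¹ := by
      rw [Real.rpow_neg hβp.le]
      congr 1
      rw [← Real.rpow_natCast]; norm_num
    rw [h3, one_div]
    exact inv_anti₀ (by positivity) h1

theorem epsilons {β K C7 Lam c4 M : ℝ} {e : ℕ} (hβp : 0 < β) (hC7 : 0 < C7)
    (hM : M = 2 * Real.exp (Lam * C7 / 2) * Real.sqrt C7)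
    (hc4 : 0 < c4) (b5 : 2 * M ≤ β ^ (3 / 4 : ℝ)) (b6 : 3 * M / c4 ≤ β ^ (1 / 4 : ℝ))
    (he2 : (3 : ℝ) ^ e ≤ 3 * β ^ (1 / 2 : ℝ)) (hKL : K ≤ Lam * β ^ (3 / 2 : ℝ)) :
    0 ≤ M * β ^ (-(3 / 4) : ℝ) ∧ (M * β ^ (-(3 / 4) : ℝ)) ^ 2 ≤ 1 / 2 ∧
      M * β ^ (-(3 / 4) : ℝ) * e ≤ c4 ∧
      4 * Real.exp (K * (C7 * β ^ (-(3 / 2) : ℝ))) * (C7 * β ^ (-(3 / 2) : ℝ)) ≤
        (M * β ^ (-(3 / 4) : ℝ)) ^ 2 := by
  have hsq : 0 < Real.sqrt C7 := Real.sqrt_pos.2 hC7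
  have hMp : 0 < M := by rw [hM]; positivity
  have hmul : ∀ s t : ℝ, β ^ s * β ^ t = β ^ (s + t) := fun s t => (Real.rpow_add hβp s t).symm
  have hp : ∀ s : ℝ, 0 < β ^ s := fun s => Real.rpow_pos_of_pos hβp s
  have hη : 0 < C7 * β ^ (-(3 / 2) : ℝ) := mul_pos hC7 (hp _)
  have hKη : K * (C7 * β ^ (-(3 / 2) : ℝ)) ≤ Lam * C7 := by
    have h1 := mul_le_mul_of_nonneg_right hKL hη.le
    have h2 : β ^ (3 / 2 : ℝ) * β ^ (-(3 / 2) : ℝ) = 1 := by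
      rw [hmul]; norm_num
    have h3 : Lam * β ^ (3 / 2 : ℝ) * (C7 * β ^ (-(3 / 2) : ℝ)) =
        Lam * C7 * (β ^ (3 / 2 : ℝ) * β ^ (-(3 / 2) : ℝ)) := by ring
    rw [h3, h2, mul_one] at h1
    exact h1
  have hεp : 0 ≤ M * β ^ (-(3 / 4) : ℝ) := (mul_pos hMp (hp _)).le
  refine ⟨hεp, ?_, ?_, ?_⟩
  · have h2 : β ^ (3 / 4 : ℝ) * β ^ (-(3 / 4) : ℝ) = 1 := by
      rw [hmul]; norm_num
    have h3 : 2 * M * β ^ (-(3 / 4) : ℝ) ≤ β ^ (3 / 4 : ℝ) * β ^ (-(3 / 4) : ℝ) :=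
      mul_le_mul_of_nonneg_right b5 (hp _).le
    rw [h2] at h3
    nlinarith
  · have h1 : (e:ℝ) ≤ 3 * β ^ (1 / 2 : ℝ) := by
      have h2 : (e:ℝ) ≤ (3:ℝ) ^ e := by
        have : e < 3 ^ e := Nat.lt_pow_self (by norm_num)
        exact_mod_cast this.le
      exact h2.trans he2
    have h4 := mul_le_mul_of_nonneg_left h1 hεp
    have h5 : β ^ (-(3 / 4) : ℝ) * β ^ (1 / 2 : ℝ) = β ^ (-(1 / 4) : ℝ) := by
      rw [hmul]; norm_num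
    have h6 : M * β ^ (-(3 / 4) : ℝ) * (3 * β ^ (1 / 2 : ℝ)) = 3 * M * β ^ (-(1 / 4) : ℝ) := by
      rw [← h5]; ring
    have h7 : 3 * M ≤ c4 * β ^ (1 / 4 : ℝ) := by
      rw [div_le_iff₀ hc4] at b6; linarith
    have h8 : β ^ (1 / 4 : ℝ) * β ^ (-(1 / 4) : ℝ) = 1 := by
      rw [hmul]; norm_num
    have h9 : 3 * M * β ^ (-(1 / 4) : ℝ) ≤ c4 * β ^ (1 / 4 : ℝ) * β ^ (-(1 / 4) : ℝ) :=
      mul_le_mul_of_nonneg_right h7 (hp _).le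
    rw [mul_assoc c4, h8, mul_one] at h9
    linarith
  · have h1 : (M * β ^ (-(3 / 4) : ℝ)) ^ 2 =
        4 * Real.exp (Lam * C7) * (C7 * β ^ (-(3 / 2) : ℝ)) := by
      have e1 : (Real.exp (Lam * C7 / 2)) ^ 2 = Real.exp (Lam * C7) := by
        rw [← Real.exp_nat_mul]; congr 1; push_cast; ring
      have e2 : (β ^ (-(3 / 4) : ℝ)) ^ 2 = β ^ (-(3 / 2) : ℝ) := by
        rw [← Real.rpow_natCast, ← Real.rpow_mul hβp.le]; norm_num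
      rw [hM, mul_pow, mul_pow, mul_pow, e1, e2, Real.sq_sqrt hC7.le]; ring
    rw [h1]
    have h2 : Real.exp (K * (C7 * β ^ (-(3 / 2) : ℝ))) ≤ Real.exp (Lam * C7) :=
      Real.exp_le_exp.2 hKη
    have h3 := mul_le_mul_of_nonneg_right h2 hη.le
    linarith

theorem kappaStmt3_of (h3 : Block3) (hL : LocalStmt3) : S3.KappaStmt3 := by
  obtain ⟨c1, hc1, HL⟩ := hL
  obtain ⟨e0, C5, c3, c4, he0, hC5, hc3, hc4, H3⟩ := h3 c1 hc1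
  refine ⟨min 1 (1 / C5), c3, lt_min one_pos (by positivity), hc3, fun C7 Lam hC7 hLam => ?_⟩
  obtain ⟨βL, HL⟩ := HL C7 Lam hC7 hLam
  have hlim : ∀ (a : ℝ), 0 < a → ∀ B : ℝ, ∀ᶠ β : ℝ in atTop, B ≤ β ^ a := fun a ha B =>
    (tendsto_rpow_atTop ha).eventually_ge_atTop B
  obtain ⟨M, hM⟩ : ∃ M : ℝ, M = 2 * Real.exp (Lam * C7 / 2) * Real.sqrt C7 := ⟨_, rfl⟩
  have hall : ∀ᶠ β : ℝ in atTop, βL ≤ β ∧ 1 ≤ β ∧ (3:ℝ) ^ e0 ≤ β ^ (1 / 2 : ℝ) ∧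
      Lam ≤ β ^ (3 / 2 : ℝ) ∧ 2 * M ≤ β ^ (3 / 4 : ℝ) ∧ 3 * M / c4 ≤ β ^ (1 / 4 : ℝ) := by
    filter_upwards [eventually_ge_atTop βL, eventually_ge_atTop (1:ℝ),
      hlim (1 / 2) (by norm_num) ((3:ℝ) ^ e0), hlim (3 / 2) (by norm_num) Lam,
      hlim (3 / 4) (by norm_num) (2 * M), hlim (1 / 4) (by norm_num) (3 * M / c4)]
      with β a1 a2 a3 a4 a5 a6
    exact ⟨a1, a2, a3, a4, a5, a6⟩
  obtain ⟨β0, hβ0⟩ := eventually_atTop.1 hall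
  refine ⟨β0, fun β hβ => ?_⟩
  obtain ⟨b1, b2, b3, b4, b5, b6⟩ := hβ0 β hβ
  have hβp : 0 < β := by linarith
  obtain ⟨e, he1, he2, hemin⟩ := cell_exists b2
  have hp : ∀ s : ℝ, 0 < β ^ s := fun s => Real.rpow_pos_of_pos hβp s
  have hee : e0 ≤ e := by
    have h1 : (3:ℝ) ^ e0 ≤ 3 ^ e := b3.trans he1
    exact (pow_le_pow_iff_right₀ (by norm_num : (1:ℝ) < 3)).1 h1
  obtain ⟨n3, H3⟩ := H3 e hee
  obtain ⟨nL, HL⟩ := HL β b1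
  refine ⟨max n3 (max nL (max 2 ⌈β⌉₊)), ?_⟩
  intro n _ hn _ a ha1' ha2' K hK1 hKL hKc g0 hg0 hg01 hBH g hg x
  have ha1 : β ^ (1 / 2 : ℝ) ≤ (3 : ℝ) ^ a := by rw [← Real.sqrt_eq_rpow]; exact ha1'
  have ha2 : (3 : ℝ) ^ a ≤ β := by
    refine ha2'.trans ?_
    have h1 : β ^ (3 / 4 : ℝ) ≤ β ^ (1 : ℝ) := Real.rpow_le_rpow_of_exponent_le b2 (by norm_num)
    rwa [Real.rpow_one] at h1
  have hn3 : n3 ≤ n := (le_max_left _ _).trans hn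
  have hnL : nL ≤ n := (le_max_left _ _).trans ((le_max_right _ _).trans hn)
  have hn2 : 2 ≤ n := (le_max_left _ _).trans ((le_max_right _ _).trans
    ((le_max_right _ _).trans hn))
  have hnβ : β ≤ n := by
    have : ⌈β⌉₊ ≤ n := (le_max_right _ _).trans ((le_max_right _ _).trans
      ((le_max_right _ _).trans hn))
    exact (Nat.le_ceil β).trans (by exact_mod_cast this)
  have hn0 : (0 : ℝ) < n := by linarith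
  have hg0p : 0 < g0 := (Real.rpow_pos_of_pos hn0 _).trans_le hg0
  have hKp : 0 < K := by linarith
  -- scales
  have hea : e ≤ a := hemin a ha1
  obtain ⟨ha2e, hK27, hK27a, hK9, hK3a, hlam⟩ := scales b2 b4 he1 ha1 ha2 hC5 hKL hKc
  have hcard : (cube n x (3 ^ a)).card = (3 ^ a) ^ 3 := by
    refine card_cube x (3 ^ a) ?_
    have : ((3 ^ a : ℕ) : ℝ) ≤ n := by push_cast; linarith
    exact_mod_cast this
  have hKcard : K ≤ (cube n x (3 ^ a)).card := by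
    rw [hcard]; push_cast
    exact hK3a
  have hne : (cube n x (3 ^ a)).Nonempty := by
    rw [← Finset.card_pos, hcard]; positivity
  obtain ⟨hεp, hε2, hεe, hεsq⟩ := epsilons hβp hC7 hM hc4 b5 b6 he2 hKL
  obtain ⟨lam, hlamdef⟩ : ∃ lam : ℝ, lam = β ^ (-(9 / 2) : ℝ) := ⟨_, rfl⟩
  obtain ⟨η, hηdef⟩ : ∃ η : ℝ, η = C7 * β ^ (-(3 / 2) : ℝ) := ⟨_, rfl⟩
  obtain ⟨ε, hεdef⟩ : ∃ ε : ℝ, ε = M * β ^ (-(3 / 4) : ℝ) := ⟨_, rfl⟩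
  unfold S3.BH3 at hBH
  have hηp : 0 < η := by rw [hηdef]; exact mul_pos hC7 (hp _)
  have HL' := HL n hnL e K (cube n x (3 ^ a)) he1 he2 hK1 hKL hKcard
  rw [← hlamdef] at hlam hBH hg
  rw [← hηdef] at hBH hεsq HL'
  rw [← hεdef] at hεp hε2 hεe hεsq
  obtain ⟨N0, hN0⟩ := trMag_of (K := K) (b := cube n x (3 ^ a)) (Dict.magLim (edges n) hβp) hβp hne
    hKp.le hηp
  obtain ⟨W0, hW0⟩ := HL'
  rw [Filter.frequently_atTop]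
  intro N1
  obtain ⟨W, hW⟩ : ∃ W : ℕ, W = N1 + N0 + W0 + ⌈β⌉₊ + 1 := ⟨_, rfl⟩
  have hWp : 0 < W := by omega
  refine ⟨4 * W, by omega, ?_⟩
  have hβN : β ≤ ((4 * W : ℕ) : ℝ) := by
    have h1 : β ≤ (⌈β⌉₊ : ℝ) := Nat.le_ceil _
    have h2 : (⌈β⌉₊ : ℝ) ≤ ((4 * W : ℕ) : ℝ) := by
      exact_mod_cast (by omega : ⌈β⌉₊ ≤ 4 * W)
    linarith
  have hmem : ∀ g : Tor n → ℝ, Fam n g0 lam g → ∀ y, 0 < g y ∧ g y ≤ 1 :=
    fun g hg y => ⟨hg0p.trans_le (hg.1 y).1, (hg.1 y).2⟩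
  have hmagb : ∀ g : Tor n → ℝ, Fam n g0 lam g → ∀ z : Nd n (4 * W), z.1 ≠ 0 →
      1 - ε ^ 2 ≤ mag (phys (edges n) β (4 * W))
        (th 1 (4 * W) g (blk K (cube n x (3 ^ a)))) z := by
    intro g hg z hz
    rw [← Net.th_scaled hβp]
    refine le_trans (by linarith) (hN0 (4 * W) (by omega) (fun y => g y / β) (fun y => ?_)
      (fun y => hBH g hg y) z hz)
    have h1 := hmem g hg y
    exact ⟨div_nonneg h1.1.le hβp.le, by rw [div_le_one hβp]; linarith [h1.2]⟩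
  have hlow : Low n (4 * W) 1 g0 lam ε (Net.cphys3 n β (4 * W) K (cube n x (3 ^ a))) :=
    Net.low_scaled (by omega) hKp.le _ hg0p hεp hε2
      (good_of_isLaw (isLaw_phys' _ hβp.le hβN)) hmagb
  have key := H3 n (4 * W) W K g0 lam ε x a g (Net.cphys3 n β (4 * W) K (cube n x (3 ^ a)))
    hn3 hWp rfl hea ha2e hK1 hK27 hK27a hK9 hg0 hg01 hlam hεp hεe
    (fun g hg => hW0 W (by omega) g (hmem g hg) (fun y => hBH g hg y)) hlow hg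
  rw [Net.kap_scaled hβp]
  exact key

end

end Vale.Agent.P361.LRO.Ind3
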