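import Vale.Agent.P361.LRO.Ind3.Final
import Vale.Agent.P361.LRO.Ind3.DeltaInst

/-!
P361 LRO, stage 3, block (K): the stiffness statement `kappaStmt3`.
-/

namespace Vale.Agent.P361.LRO.Ind3

/-- **Block (K) of stage 3.** -/
theorem kappaStmt3 : S3.KappaStmt3 :=
  kappaStmt3_of block3 localStmt3

end Vale.Agent.P361.LRO.Ind3
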