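import Vale.Agent.P361.LRO.Ind3.Defs
import Vale.Agent.P361.LRO.Ind3.StepTop
import Vale.Agent.P361.LRO.Ind.Family
import Vale.Agent.P361.LRO.Ind.GeoA
import Vale.Agent.P361.LRO.Ind.Test

/-!
P361 LRO, stage 3, network chapter, package L1: the top of the ladder (port of Ind/LadTop.lean).
-/

namespace Vale.Agent.P361.LRO.Ind3

open Finset Vale.Agent.P361.LRO _root_.P361.LRO Vale.Agent.P361.LRO.Ind

private theorem lt3_card_GG {n N : ℕ} [NeZero n] (o : Tor n) (s : ℕ) (hs : s ≤ n) :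
    ((GG6 n N o s).card : ℝ) = N * (s : ℝ) ^ 3 := by
  unfold GG6
  rw [Finset.card_product, card_cube _ _ hs]
  have h1 : (univ.filter fun k : Fin (N + 1) => k ≠ 0).card = N := by
    rw [Finset.filter_ne', Finset.card_erase_of_mem (Finset.mem_univ _), Finset.card_univ,
      Fintype.card_fin]
    rfl
  rw [h1]
  push_cast
  rfl

private theorem lt3_sum_q {n N : ℕ} [NeZero n] (o : Tor n) (s : ℕ) (hs : s ≤ n) (t : ℝ) :
    ∑ z : Nd n N, (if z ∈ GG6 n N o s then t else 0) = N * (s : ℝ) ^ 3 * t := by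
  rw [Finset.sum_ite_mem, Finset.univ_inter, Finset.sum_const, nsmul_eq_mul, lt3_card_GG o s hs]

private theorem lt3_LBn_mono {X : Type} [Fintype X] {c : X → X → ℝ} {E G : Finset X} {A B : ℝ}
    (hAB : B ≤ A) (h : LBn c E G A) : LBn c E G B := fun a h1 h2 => hAB.trans (h a h1 h2)

/-- The numbers. -/
private theorem lt3_num {C ρ h0 ε : ℝ} {e : ℕ} (hC : 0 < C) (he : C + 8 ≤ 3 ^ e)
    (hρ : 3 ^ (100 * e) ≤ ρ) (hh0 : 0 < h0) (hh : h0⁻¹ ≤ ρ ^ (5 / 2 : ℝ)) (hε : 0 ≤ ε)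
    (hε1 : ε ≤ 1 / 1000) :
    0 < h0 ^ (-(4 * ε)) * (C / (9 ^ e * ρ) + 8 / (h0 * ρ ^ 3)) ∧
    ρ ^ (1 / 3 : ℝ) ≤ 1 / (h0 ^ (-(4 * ε)) * (C / (9 ^ e * ρ) + 8 / (h0 * ρ ^ 3))) := by
  have h31 : (1 : ℝ) ≤ 3 ^ (100 * e) := one_le_pow₀ (by norm_num)
  have hρ1 : 1 ≤ ρ := h31.trans hρ
  have hρ0 : 0 < ρ := by linarith
  have h9 : (1 : ℝ) ≤ 9 ^ e := one_le_pow₀ (by norm_num)
  have h90 : (0 : ℝ) < 9 ^ e := by positivity
  have hpos : 0 < h0 ^ (-(4 * ε)) * (C / (9 ^ e * ρ) + 8 / (h0 * ρ ^ 3)) := by positivity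
  refine ⟨hpos, ?_⟩
  rw [le_div_iff₀ hpos]
  have e1 : h0 ^ (-(4 * ε)) ≤ ρ ^ (1 / 100 : ℝ) := by
    rw [Real.rpow_neg hh0.le, ← Real.inv_rpow hh0.le]
    calc (h0⁻¹) ^ (4 * ε) ≤ (ρ ^ (5 / 2 : ℝ)) ^ (4 * ε) :=
          Real.rpow_le_rpow (by positivity) hh (by positivity)
      _ = ρ ^ ((5 / 2 : ℝ) * (4 * ε)) := by rw [← Real.rpow_mul hρ0.le]
      _ ≤ ρ ^ (1 / 100 : ℝ) := Real.rpow_le_rpow_of_exponent_le hρ1 (by linarith)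
  have e2 : C / (9 ^ e * ρ) + 8 / (h0 * ρ ^ 3) ≤ (C + 8) * ρ ^ (-(1 / 2) : ℝ) := by
    have f1 : C / (9 ^ e * ρ) ≤ C * ρ ^ (-(1 / 2) : ℝ) := by
      have g1 : C / (9 ^ e * ρ) ≤ C * ρ ^ (-1 : ℝ) := by
        rw [Real.rpow_neg_one, ← div_eq_mul_inv]
        refine div_le_div_of_nonneg_left hC.le hρ0 ?_
        exact le_mul_of_one_le_left hρ0.le h9
      refine g1.trans ?_
      have := Real.rpow_le_rpow_of_exponent_le hρ1 (show (-1 : ℝ) ≤ -(1 / 2) by norm_num)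
      gcongr
    have f2 : 8 / (h0 * ρ ^ 3) ≤ 8 * ρ ^ (-(1 / 2) : ℝ) := by
      have g1 : 8 / (h0 * ρ ^ 3) = 8 * (h0⁻¹ * ρ ^ (-3 : ℝ)) := by
        rw [Real.rpow_neg hρ0.le, show (3 : ℝ) = ((3 : ℕ) : ℝ) by norm_num, Real.rpow_natCast]
        field_simp
      have g2 : h0⁻¹ * ρ ^ (-3 : ℝ) ≤ ρ ^ (5 / 2 : ℝ) * ρ ^ (-3 : ℝ) := by gcongr
      have g3 : ρ ^ (5 / 2 : ℝ) * ρ ^ (-3 : ℝ) = ρ ^ (-(1 / 2) : ℝ) := by
        rw [← Real.rpow_add hρ0]; norm_num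
      rw [g3] at g2
      rw [g1]
      gcongr
    have f3 : (C + 8) * ρ ^ (-(1 / 2) : ℝ) =
        C * ρ ^ (-(1 / 2) : ℝ) + 8 * ρ ^ (-(1 / 2) : ℝ) := by ring
    rw [f3]
    exact add_le_add f1 f2
  have e3 : C + 8 ≤ ρ ^ (47 / 300 : ℝ) := by
    calc C + 8 ≤ (3 : ℝ) ^ e := he
      _ = (3 : ℝ) ^ (e : ℝ) := (Real.rpow_natCast 3 e).symm
      _ ≤ (3 : ℝ) ^ (((100 * e : ℕ) : ℝ) * (47 / 300)) := by
          refine Real.rpow_le_rpow_of_exponent_le (by norm_num) ?_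
          push_cast
          have : (0 : ℝ) ≤ e := Nat.cast_nonneg e
          linarith
      _ = ((3 : ℝ) ^ (100 * e)) ^ (47 / 300 : ℝ) := by
          rw [Real.rpow_mul (by norm_num), Real.rpow_natCast]
      _ ≤ ρ ^ (47 / 300 : ℝ) := Real.rpow_le_rpow (by positivity) hρ (by norm_num)
  calc ρ ^ (1 / 3 : ℝ) * (h0 ^ (-(4 * ε)) * (C / (9 ^ e * ρ) + 8 / (h0 * ρ ^ 3)))
      ≤ ρ ^ (1 / 3 : ℝ) * (ρ ^ (1 / 100 : ℝ) * (ρ ^ (47 / 300 : ℝ) * ρ ^ (-(1 / 2) : ℝ))) := by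
        have e4 : C / (9 ^ e * ρ) + 8 / (h0 * ρ ^ 3) ≤
            ρ ^ (47 / 300 : ℝ) * ρ ^ (-(1 / 2) : ℝ) := by
          refine e2.trans ?_
          gcongr
        have : (0 : ℝ) ≤ C / (9 ^ e * ρ) + 8 / (h0 * ρ ^ 3) := by positivity
        gcongr
    _ = (ρ ^ (1 / 3 : ℝ) * ρ ^ (1 / 100 : ℝ)) * (ρ ^ (47 / 300 : ℝ) * ρ ^ (-(1 / 2) : ℝ)) := by
        ring
    _ = 1 := by
        rw [← Real.rpow_add hρ0, ← Real.rpow_add hρ0, ← Real.rpow_add hρ0]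
        norm_num

/-- The top of the ladder, from the statement of `step_top3`. `Low` is used with `β = 1`
(scaled fields). -/
theorem lad_top3_of (c1 : ℝ)
    (hs3 : ∃ C : ℝ, 0 < C ∧ ∀ (n N W e : ℕ) [NeZero n]
    (K : ℝ) (o : Tor n) (b : Finset (Tor n)) (c : Nd n N → Nd n N → ℝ) (s : ℕ),
    0 < W → N = 4 * W → e ≤ s → 8 * 3 ^ s < n →
    Local3 n N W e K c1 b (fun _ => 1) c →
    RBn c (EE6 n N o b (3 ^ s))
      (fun z => if z ∈ GG6 n N o (3 ^ s) then 1 / ((N : ℝ) * (3 ^ s) ^ 3) else 0)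
      (C / (9 ^ e * 3 ^ s))) :
    ∃ e0 : ℕ, 1 ≤ e0 ∧ ∀ (n N W e : ℕ) [NeZero n]
    (K h0 lam ε : ℝ) (o : Tor n) (b : Finset (Tor n)) (h : Tor n → ℝ)
    (c : (Tor n → ℝ) → Nd n N → Nd n N → ℝ) (s : ℕ),
    e0 ≤ e → 0 < W → N = 4 * W → 8 * 3 ^ s < n →
    0 < h0 → h0 ≤ 1 → 1 / 3 ^ (10 * e) ≤ lam → 0 ≤ ε → ε ≤ 1 / 1000 →
    100 * e ≤ s → h0⁻¹ ≤ ((3 : ℝ) ^ s) ^ (5 / 2 : ℝ) →
    (∀ g, Fam n h0 lam g → Local3 n N W e K c1 b g (c g)) → Low n N 1 h0 lam ε c →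
    Fam n h0 lam h →
    LBn (c (HH n lam o (3 ^ s) h)) (EE6 n N o b (3 ^ s)) (GG6 n N o (3 ^ s))
      (((3 : ℝ) ^ s) ^ (1 / 3 : ℝ)) := by
  obtain ⟨C, hC, hstep⟩ := hs3
  obtain ⟨e0, he0⟩ := pow_unbounded_of_one_lt (C + 8) (show (1 : ℝ) < 3 by norm_num)
  refine ⟨max 1 e0, le_max_left _ _, ?_⟩
  intro n N W e _ K h0 lam ε o b h c s he hW hN hn hh0 hh1 hlam hε hε1 hs hh0s hLoc hLow hh
  have heC : C + 8 ≤ (3 : ℝ) ^ e :=
    he0.le.trans (pow_le_pow_right₀ (by norm_num) ((le_max_right _ _).trans he))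
  have hlam0 : 0 ≤ lam := le_trans (by positivity) hlam
  have h3s : 0 < 3 ^ s := by positivity
  have hsn : 3 ^ s ≤ n := by omega
  have hN0 : 0 < N := by omega
  have hN0' : (0 : ℝ) < N := by exact_mod_cast hN0
  have h3s' : (0 : ℝ) < (3 : ℝ) ^ s := by positivity
  have e3 : ((3 ^ s : ℕ) : ℝ) = (3 : ℝ) ^ s := by push_cast; rfl
  have hH := Fam_HH (h := h) hlam0 o h3s hh
  have h1 := Fam_one (n := n) (h0 := h0) (lam := lam) hh1 hlam0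
  have hR := hstep n N W e K o b (c fun _ => 1) s hW hN (by omega) hn (hLoc _ h1)
  set q : Nd n N → ℝ :=
    fun z => if z ∈ GG6 n N o (3 ^ s) then 1 / ((N : ℝ) * ((3 : ℝ) ^ s) ^ 3) else 0 with hq
  have hdisj := disj_EG (N := N) o b (le_refl (3 ^ s)) (by omega : 8 * 3 ^ s ≤ n)
  have hq1 : ∑ z, q z = 1 := by
    rw [hq, lt3_sum_q o (3 ^ s) hsn, e3]
    field_simp
  have hq2 : ∑ z, q z ^ 2 = 1 / ((N : ℝ) * ((3 : ℝ) ^ s) ^ 3) := by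
    have e : ∀ z, q z ^ 2 =
        if z ∈ GG6 n N o (3 ^ s) then (1 / ((N : ℝ) * ((3 : ℝ) ^ s) ^ 3)) ^ 2 else 0 := by
      intro z
      rw [hq]
      dsimp only
      split_ifs <;> simp
    rw [Finset.sum_congr rfl fun z _ => e z, lt3_sum_q o (3 ^ s) hsn, e3]
    field_simp
  have hdual := hLow.dual hh0 hh1 (HH n lam o (3 ^ s) h) hH (EE6 n N o b (3 ^ s)) q
    (by
      intro z hz hz0
      unfold EE6 at hz
      rw [Finset.mem_union] at hz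
      rcases hz with hz | hz
      · unfold hatb at hz
        rw [Finset.mem_product, Finset.mem_singleton] at hz
        exact absurd hz.1 hz0
      · rw [Finset.mem_product] at hz
        exact HH_one hlam0 o hsn hh hz.2)
    (by
      intro z hz
      have := Finset.disjoint_left.1 hdisj hz
      rw [hq]
      dsimp only
      rw [if_neg this])
    (by
      intro x
      rw [hq]
      dsimp only
      rw [if_neg]
      unfold GG6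
      rw [Finset.mem_product, Finset.mem_filter]
      rintro ⟨⟨_, h0⟩, _⟩
      exact h0 rfl)
    (by
      intro z
      rw [hq]
      dsimp only
      split_ifs <;> positivity)
    hq1 (C / (9 ^ e * 3 ^ s)) (by positivity) hR
  rw [hq2] at hdual
  have hnum := lt3_num (ρ := (3 : ℝ) ^ s) (e := e) hC heC
    (pow_le_pow_right₀ (by norm_num) hs) hh0 hh0s hε hε1
  have e4 : 8 * (N : ℝ) / (1 * h0) * (1 / ((N : ℝ) * ((3 : ℝ) ^ s) ^ 3)) =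
      8 / (h0 * ((3 : ℝ) ^ s) ^ 3) := by
    field_simp
  rw [e4] at hdual
  refine lt3_LBn_mono hnum.2 (LBn_of_RBn hnum.1 ?_ hdual)
  intro x hx
  rw [hq]
  dsimp only
  rw [if_neg hx]

/-- The top of the ladder. `Low` is used with `β = 1` (scaled fields). -/
theorem lad_top3 (c1 : ℝ) (hc1 : 0 < c1) : ∃ e0 : ℕ, 1 ≤ e0 ∧ ∀ (n N W e : ℕ) [NeZero n]
    (K h0 lam ε : ℝ) (o : Tor n) (b : Finset (Tor n)) (h : Tor n → ℝ)
    (c : (Tor n → ℝ) → Nd n N → Nd n N → ℝ) (s : ℕ),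
    e0 ≤ e → 0 < W → N = 4 * W → 8 * 3 ^ s < n →
    0 < h0 → h0 ≤ 1 → 1 / 3 ^ (10 * e) ≤ lam → 0 ≤ ε → ε ≤ 1 / 1000 →
    100 * e ≤ s → h0⁻¹ ≤ ((3 : ℝ) ^ s) ^ (5 / 2 : ℝ) →
    (∀ g, Fam n h0 lam g → Local3 n N W e K c1 b g (c g)) → Low n N 1 h0 lam ε c →
    Fam n h0 lam h →
    LBn (c (HH n lam o (3 ^ s) h)) (EE6 n N o b (3 ^ s)) (GG6 n N o (3 ^ s))
      (((3 : ℝ) ^ s) ^ (1 / 3 : ℝ)) :=
  lad_top3_of c1 (step_top3 c1 hc1)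

end Vale.Agent.P361.LRO.Ind3
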