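import Vale.Agent.P361.LRO.Ind3.LocalInst
import Vale.Agent.P361.LRO.Ind3.Kappa

/-!
P361 LRO, stage 3: `LocalStmt3` (input of `Ind3/Kappa.lean`) from `local3_inst`.
-/

namespace Vale.Agent.P361.LRO.Ind3

open Finset Vale.Agent.P361.LRO _root_.P361.LRO Vale.Agent.P361.LRO.Ind

noncomputable section

theorem localStmt3_of (hΔ : DeltaStmt) : LocalStmt3 := by
  obtain ⟨c1, hc1, H⟩ := local3_inst hΔ
  refine ⟨c1, hc1, fun C7 Lam hC7 hLam => ?_⟩
  have hA : 0 < max C7 (C7 * Lam) := lt_max_of_lt_left hC7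
  obtain ⟨β0, hβ0, H⟩ := H (max C7 (C7 * Lam)) hA
  refine ⟨β0, fun β hβ => ⟨2, ?_⟩⟩
  intro n _ hn e K b he1 he2 hK1 hK2 hKb
  have hβ8 : 8 ≤ β := hβ0.trans hβ
  have hβp : 0 < β := by linarith
  have hK : 0 < K := by linarith
  have hbn : b.Nonempty := by
    rw [← Finset.card_pos]
    have : (0:ℝ) < b.card := by linarith
    exact_mod_cast this
  rw [← Real.sqrt_eq_rpow] at he1 he2
  have hη : 0 < C7 * β ^ (-(3 / 2) : ℝ) := mul_pos hC7 (Real.rpow_pos_of_pos hβp _)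
  have hKη : K * (C7 * β ^ (-(3 / 2) : ℝ)) ≤ max C7 (C7 * Lam) := by
    refine le_trans ?_ (le_max_right _ _)
    calc K * (C7 * β ^ (-(3 / 2) : ℝ)) ≤ Lam * β ^ (3 / 2 : ℝ) * (C7 * β ^ (-(3 / 2) : ℝ)) :=
          mul_le_mul_of_nonneg_right hK2 hη.le
      _ = C7 * Lam * (β ^ (3 / 2 : ℝ) * β ^ (-(3 / 2) : ℝ)) := by ring
      _ = C7 * Lam := by rw [← Real.rpow_add hβp]; norm_num
  have h3 : √β ≤ 3 * 3 ^ e := by
    have : (0:ℝ) < 3 ^ e := by positivity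
    linarith
  obtain ⟨N0, hN0⟩ := H β hβ e n K (C7 * β ^ (-(3 / 2) : ℝ)) b hn he2 h3 hK hKb hbn hη
    (mul_le_mul_of_nonneg_right (le_max_left _ _) (Real.rpow_pos_of_pos hβp _).le) hKη
  refine ⟨N0, fun W hW g hg hrho => ?_⟩
  have h4 := hN0 (4 * W) W (by omega) rfl g (fun x => ⟨(hg x).1.le, (hg x).2⟩) hrho
  have e1 : physC n (4 * W) β K b (fun y => g y / β) = Net.cphys3 n β (4 * W) K b g := by
    unfold physC Net.cphys3
    rw [Net.th_scaled hβp]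
  rw [← e1]
  exact h4

end

end Vale.Agent.P361.LRO.Ind3
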