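import Vale.Agent.P361.LRO.Ind.StepMid
import Vale.Agent.P361.LRO.Ind3.Defs
import Vale.Agent.P361.LRO.Ind3.VolA
import Vale.Agent.P361.LRO.Ind3.EnergyA
import Vale.Agent.P361.LRO.Ind3.EnergyB

/-!
P361 LRO, stage 3, network chapter on cells, leaf S2: one step of the induction over scales.
-/

namespace Vale.Agent.P361.LRO.Ind3

open Finset Vale.Agent.P361.LRO _root_.P361.LRO Vale.Agent.P361.LRO.Ind

/-- cell averages are `1` over the electrode. -/
theorem sm3_UC_one {n N e : ℕ} [NeZero n] (hN : 0 < N) {o : Tor n}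
    {b : Finset (Tor n)} {r : ℕ} (her : e ≤ r) {a : Nd n N → ℝ}
    (ha : ∀ z ∈ EE6 n N o b (3 ^ r), a z = 1)
    {x y z : ℕ} (hx : x < 3 ^ (r - e)) (hy : y < 3 ^ (r - e)) (hz : z < 3 ^ (r - e)) :
    UC n N e o a x y z = 1 := by
  have hcell : ∀ (u i : ℕ), u < 3 ^ (r - e) → i < 3 ^ e → 3 ^ e * u + i < 3 ^ r := by
    intro u i hu hi
    have h1 : 3 ^ e * (u + 1) ≤ 3 ^ e * 3 ^ (r - e) := Nat.mul_le_mul_left _ hu
    have h2 : (3 : ℕ) ^ e * 3 ^ (r - e) = 3 ^ r := by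
      rw [← pow_add, Nat.add_sub_cancel' her]
    have h3 : 3 ^ e * (u + 1) = 3 ^ e * u + 3 ^ e := by ring
    omega
  unfold UC
  have h1 : ∀ i ∈ range (3 ^ e), ∀ j ∈ range (3 ^ e), ∀ k ∈ range (3 ^ e), ∀ t ∈ range N,
      a (lay N N 0 t, pt n o (3 ^ e * x + i) (3 ^ e * y + j) (3 ^ e * z + k)) = 1 := by
    intro i hi j hj k hk t ht
    refine ha _ (sm_mem_EE6 (sm_lay_ne_zero (m := 1) (one_mul N).symm one_pos
      (mem_range.1 ht)) ?_)
    exact (mem_cube_iff o _ _).2 ⟨_, hcell x i hx (mem_range.1 hi), _,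
      hcell y j hy (mem_range.1 hj), _, hcell z k hz (mem_range.1 hk), rfl⟩
  rw [Finset.sum_congr rfl fun i hi => Finset.sum_congr rfl fun j hj =>
    Finset.sum_congr rfl fun k hk => Finset.sum_congr rfl fun t ht => h1 i hi j hj k hk t ht]
  simp only [Finset.sum_const, Finset.card_range, nsmul_eq_mul, mul_one]
  have hN0 : (N : ℝ) ≠ 0 := by exact_mod_cast hN.ne'
  have h27 : (27 : ℝ) ^ e = (3 : ℝ) ^ e * ((3 : ℝ) ^ e * (3 : ℝ) ^ e) := by
    rw [← mul_pow, ← mul_pow]; norm_num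
  rw [h27]
  push_cast
  have h3 : (3 : ℝ) ^ e ≠ 0 := by positivity
  field_simp

theorem sm3_start {n N e r : ℕ} [NeZero n] (hN : 0 < N) (her : e ≤ r)
    {o : Tor n} {b : Finset (Tor n)} {a : Nd n N → ℝ}
    (haE : ∀ z ∈ EE6 n N o b (3 ^ r), a z = 1) :
    (∑ x ∈ range (3 ^ (r - e)), ∑ y ∈ range (3 ^ (r - e)), ∑ z ∈ range (3 ^ (r - e)),
      (1 - (1 / ((1 : ℕ) : ℝ)) * ∑ w ∈ range 1, UT n N e o a x y z w)) ≤
      (27 : ℝ) ^ (r - e) / 16 := by
  have hz : ∀ x ∈ range (3 ^ (r - e)), ∀ y ∈ range (3 ^ (r - e)), ∀ z ∈ range (3 ^ (r - e)),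
      (1 - (1 / ((1 : ℕ) : ℝ)) * ∑ w ∈ range 1, UT n N e o a x y z w) = 0 := by
    intro x hx y hy z hz
    have h1 : ∀ w ∈ range 1, UT n N e o a x y z w = 1 := fun w _ =>
      sm3_UC_one hN her haE (mem_range.1 hx) (mem_range.1 hy) (mem_range.1 hz)
    rw [Finset.sum_congr rfl h1]
    simp
  rw [Finset.sum_eq_zero fun x hx => Finset.sum_eq_zero fun y hy =>
    Finset.sum_eq_zero fun z hz' => hz x hx y hy z hz']
  positivity

theorem sm3_total {n N W e : ℕ} [NeZero n] {K c1 : ℝ} {o : Tor n} {b b' : Finset (Tor n)}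
    {h : Tor n → ℝ} {c : Nd n N → Nd n N → ℝ} {s : ℕ} (hloc : Local3 n N W e K c1 b' h c)
    (hh1 : ∀ x ∈ cube n o s, h x = 1) (a : Nd n N → ℝ) (F : Finset (Nd n N))
    (hF : hatb N b ⊆ F) :
    (∑ z ∈ (EE6 n N o b s \ F).filter (fun z => a z < 1 / 2), ∑ v, c z v) ≤
      ((((univ.filter fun k => k ≠ 0) ×ˢ cube n o s : Finset (Nd n N)).filter
        fun z => a z < 1 / 2).card : ℝ) * (1 / (2 * N)) := by
  have hsub : (EE6 n N o b s \ F).filter (fun z => a z < 1 / 2) ⊆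
      (((univ.filter fun k => k ≠ 0) ×ˢ cube n o s : Finset (Nd n N)).filter
      fun z => a z < 1 / 2) := by
    intro z hz
    rw [Finset.mem_filter, Finset.mem_sdiff] at hz
    rw [Finset.mem_filter]
    refine ⟨?_, hz.2⟩
    obtain ⟨⟨hz1, hz2⟩, _⟩ := hz
    unfold EE6 at hz1
    rw [Finset.mem_union] at hz1
    rcases hz1 with hz1 | hz1
    · exact absurd (hF hz1) hz2
    · exact hz1
  have hterm : ∀ z ∈ (((univ.filter fun k => k ≠ 0) ×ˢ cube n o s :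
      Finset (Nd n N)).filter fun z => a z < 1 / 2), ∑ v, c z v ≤ 1 / (2 * N) := by
    intro z hz
    rw [Finset.mem_filter, Finset.mem_product, Finset.mem_filter] at hz
    have h1 := hloc.tot z.1 z.2 hz.1.1.2
    rw [hh1 z.2 hz.1.2] at h1
    exact h1
  refine (Finset.sum_le_sum_of_subset_of_nonneg hsub
    (fun z _ _ => Finset.sum_nonneg fun v _ => hloc.nonneg _ _)).trans ?_
  refine (Finset.sum_le_sum hterm).trans (le_of_eq ?_)
  rw [Finset.sum_const, nsmul_eq_mul]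

/-- energy bound. -/
theorem sm3_energy {c1 D Y k E : ℝ} (hc1 : 0 < c1) (hD : D = 1000 / c1) (hY : 0 < Y)
    (hk : 0 ≤ k) (h1 : c1 * Y * E ≤ 16 * k) : E ≤ D * (k / Y) := by
  rw [hD, div_mul_eq_mul_div, le_div_iff₀ hc1, mul_div_assoc', le_div_iff₀ hY]
  linarith

theorem sm3_collect {c1 C' D Y N k E dev cn crd A S : ℝ} (hc1 : 0 < c1) (hC' : 0 < C')
    (hD : D = 1000 / c1) (hY : 0 < Y) (hN0 : 0 < N) (hE0 : 0 ≤ E) (hk0 : 0 ≤ k)
    (hE : E ≤ D * (k / Y)) (h2 : c1 / N * dev ≤ 1000 * k)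
    (h3 : cn ≤ C' * (1 ^ 2 * E + E ^ 3 / 1 ^ 2)) (h4 : crd ≤ 64 * dev + N * Y * cn)
    (h5 : A ≤ 4 * k + S) (h6 : S ≤ crd * (1 / (2 * N))) :
    A ≤ (4 + 32 * D + C' * D) * k + C' * D ^ 3 * (k ^ 3 / Y ^ 2) := by
  have hD0 : 0 < D := by rw [hD]; positivity
  -- deviation
  have hX : dev / N ≤ D * k := by
    have e1 : c1 / N * dev = c1 * (dev / N) := by ring
    rw [e1] at h2
    have e2 : D * k = 1000 * k / c1 := by rw [hD]; ring
    rw [e2, le_div_iff₀ hc1]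
    linarith
  -- count
  have hcn : cn ≤ C' * (D * (k / Y) + (D * (k / Y)) ^ 3) := by
    refine h3.trans (mul_le_mul_of_nonneg_left ?_ hC'.le)
    have h7 : E ^ 3 ≤ (D * (k / Y)) ^ 3 := pow_le_pow_left₀ hE0 hE 3
    norm_num
    linarith
  -- sum
  have h7 : crd * (1 / (2 * N)) ≤ (64 * dev + N * Y * cn) * (1 / (2 * N)) :=
    mul_le_mul_of_nonneg_right h4 (by positivity)
  have h8 : (64 * dev + N * Y * cn) * (1 / (2 * N)) = 32 * (dev / N) + Y / 2 * cn := by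
    field_simp
    ring
  have h9 : Y / 2 * cn ≤ Y / 2 * (C' * (D * (k / Y) + (D * (k / Y)) ^ 3)) :=
    mul_le_mul_of_nonneg_left hcn (by positivity)
  have h10 : Y / 2 * (C' * (D * (k / Y) + (D * (k / Y)) ^ 3)) =
      C' * D * k / 2 + C' * D ^ 3 * (k ^ 3 / Y ^ 2) / 2 := by
    field_simp
  have h11 : 0 ≤ C' * D ^ 3 * (k ^ 3 / Y ^ 2) := by positivity
  have h12 : 0 ≤ C' * D * k := by positivity
  have h13 : (4 + 32 * D + C' * D) * k = 4 * k + 32 * (D * k) + C' * D * k := by ring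
  rw [h13]
  linarith

theorem sm3_last {P Q Y k A B : ℝ} (hP : 0 < P) (hQ : 0 < Q) (hY : 0 < Y) (hk0 : 0 ≤ k)
    (hfin : A ≤ P * k + Q * (k ^ 3 / Y ^ 2)) (hA1 : 2 * P * B ≤ A)
    (hA2 : 2 * Q * B ^ 3 ≤ A * Y ^ 2) : B ≤ k := by
  by_contra hlt
  have hlt' : k < B := not_le.1 hlt
  have hY2 : 0 < Y ^ 2 := by positivity
  have e2 : k ^ 3 / Y ^ 2 ≤ B ^ 3 / Y ^ 2 :=
    div_le_div_of_nonneg_right (pow_le_pow_left₀ hk0 hlt'.le 3) hY2.le
  have e3 := mul_lt_mul_of_pos_left hlt' hP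
  have e4 := mul_le_mul_of_nonneg_left e2 hQ.le
  have hA2' : 2 * Q * (B ^ 3 / Y ^ 2) ≤ A := by
    rw [← mul_div_assoc, div_le_iff₀ hY2]
    exact hA2
  linarith

/-- One step of the induction over scales, before lowering: small radius `3 ^ r`, large radius
`3 ^ s`. -/
theorem step_mid3 (c1 : ℝ) (hc1 : 0 < c1) : ∃ C : ℝ, 0 < C ∧ ∀ (n N W e : ℕ) [NeZero n]
    (K : ℝ) (o : Tor n) (b : Finset (Tor n)) (h : Tor n → ℝ) (c : Nd n N → Nd n N → ℝ)
    (r s : ℕ) (G : Finset (Nd n N)) (A B : ℝ),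
    0 < W → N = 4 * W → e ≤ r → r ≤ s → 3 ^ s < n →
    (∀ x, h x ≤ 1) → (∀ x ∈ cube n o (3 ^ s), h x = 1) →
    Local3 n N W e K c1 b h c → Disjoint (EE6 n N o b (3 ^ s)) G →
    LBn c (EE6 n N o b (3 ^ s)) G A →
    0 ≤ B → C * B ≤ 9 ^ e * 3 ^ r → C * B ≤ A → C * B ^ 3 ≤ A * (27 ^ e) ^ 2 →
    LBn c (EE6 n N o b (3 ^ r)) G B := by
  obtain ⟨C', hC'0, hC'⟩ := chain3
  set D : ℝ := 1000 / c1 with hD
  have hD0 : 0 < D := by positivity
  obtain ⟨P, hPe⟩ : ∃ P : ℝ, P = 4 + 32 * D + C' * D := ⟨_, rfl⟩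
  obtain ⟨Q, hQe⟩ : ∃ Q : ℝ, Q = C' * D ^ 3 := ⟨_, rfl⟩
  have hP : 0 < P := by rw [hPe]; positivity
  have hQ : 0 < Q := by rw [hQe]; positivity
  refine ⟨2 * P + 2 * Q + C' * D, by positivity, ?_⟩
  intro n N W e _ K o b h c r s G A B hW hN her hrs hsn _hh hh1 hloc hdisj hA hB0 hB1 hB2 hB3
  have hes : e ≤ s := her.trans hrs
  have hcube : 3 ^ e * 3 ^ (s - e) = 3 ^ s := by rw [← pow_add, Nat.add_sub_cancel' hes]
  have hNp : 0 < N := by omega
  have hNR : (0 : ℝ) < N := by exact_mod_cast hNp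
  have hY : (0 : ℝ) < 27 ^ e := by positivity
  refine LBn_of_trunc hloc.nonneg ?_
  intro a ha01 haE haG
  by_contra hlt
  have hlt' : netK c a < B := not_le.1 hlt
  apply hlt
  have hk0 : 0 ≤ netK c a := sm_netK_nonneg hloc.nonneg a
  have hE := E4_le3 hW hN hc1 hloc o (3 ^ (s - e)) (by rw [hcube]; exact hsn)
    (by rw [hcube]; exact hh1) a
  have hdev := dev_le3 hW hN hc1 hloc o (3 ^ (s - e)) (by rw [hcube]; exact hsn)
    (by rw [hcube]; exact hh1) a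
  have hcard := card_low_le3 (e := e) hW hN o (3 ^ (s - e)) (by rw [hcube]; exact hsn.le) a
  rw [hcube] at hcard
  have hE0 : 0 ≤ E4 (3 ^ (s - e)) 1 (UT n N e o a) := sm_E4_nonneg _ _ _
  have hED := sm3_energy hc1 hD hY hk0 hE
  have hch := hC' (r - e) (s - e) 1 one_pos (Nat.sub_le_sub_right hrs e) (UT n N e o a)
    (sm3_start hNp her haE) ?_
  · have htest := test_le (E := EE6 n N o b (3 ^ r)) hloc.symm hloc.nonneg hA hdisj
      (fun x => (ha01 x).1) haE haG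
    have hS := sm3_total hloc hh1 a (EE6 n N o b (3 ^ r)) Finset.subset_union_left
    have hch' : cnt (3 ^ (s - e)) 1 (5 / 8) (UT n N e o a) ≤
        C' * (1 ^ 2 * E4 (3 ^ (s - e)) 1 (UT n N e o a) +
          E4 (3 ^ (s - e)) 1 (UT n N e o a) ^ 3 / 1 ^ 2) := by
      refine hch.trans (le_of_eq ?_)
      norm_num
    have hcol := sm3_collect hc1 hC'0 hD hY hNR hE0 hk0 hED hdev hch' hcard htest hS
    rw [← hPe, ← hQe] at hcol
    have hCD : 0 < C' * D := mul_pos hC'0 hD0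
    refine sm3_last hP hQ hY hk0 hcol ?_ ?_
    · refine le_trans ?_ hB2
      exact mul_le_mul_of_nonneg_right (by linarith) hB0
    · refine le_trans ?_ hB3
      exact mul_le_mul_of_nonneg_right (by linarith) (by positivity)
  · have h0 : C' * E4 (3 ^ (s - e)) 1 (UT n N e o a) ≤ C' * (D * (netK c a / 27 ^ e)) :=
      mul_le_mul_of_nonneg_left hED hC'0.le
    refine h0.trans ?_
    have h2 : C' * D * netK c a ≤ C' * D * B :=
      mul_le_mul_of_nonneg_left hlt'.le (by positivity)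
    have h3 : C' * D * B ≤ (2 * P + 2 * Q + C' * D) * B := by
      refine mul_le_mul_of_nonneg_right ?_ hB0
      linarith
    have h4 : (9 : ℝ) ^ e * 3 ^ r = 27 ^ e * 3 ^ (r - e) := by
      have h5 : (3 : ℝ) ^ r = 3 ^ e * 3 ^ (r - e) := by
        rw [← pow_add, Nat.add_sub_cancel' her]
      rw [h5, ← mul_assoc, ← mul_pow]; norm_num
    have h6 : C' * (D * (netK c a / 27 ^ e)) = (C' * D * netK c a) / 27 ^ e := by ring
    rw [h6, div_le_iff₀ hY]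
    push_cast
    linarith

end Vale.Agent.P361.LRO.Ind3
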